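import Mathlib

/-! Finitely generated virtually nilpotent groups are virtually cyclic or virtually map onto the
plane lattice. -/

namespace Vale.Agent.P151Q

open Function Subgroup

def PZ (N : Type) [Group N] : Prop :=
  ∃ K : Subgroup N, K.FiniteIndex ∧ ∃ φ : K →* Multiplicative (ℤ × ℤ), Surjective φ

def VC (N : Type) [Group N] : Prop := ∃ a : N, (zpowers a).FiniteIndex

namespace GrpM

variable {N N' : Type} [Group N] [Group N']

theorem pz_surj (f : N →* N') (hf : Surjective f) (h : PZ N') : PZ N := by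
  obtain ⟨K, hK, φ, hφ⟩ := h
  refine ⟨K.comap f, ⟨by rw [index_comap_of_surjective _ hf]; exact hK.1⟩,
    φ.comp (f.subgroupComap K), hφ.comp (f.subgroupComap_surjective_of_surjective K hf)⟩

theorem fi_map (K : Subgroup N) [hK : K.FiniteIndex] (K' : Subgroup K) (h : K'.FiniteIndex) :
    (K'.map K.subtype).FiniteIndex :=
  ⟨by rw [index_map_subtype]; exact mul_ne_zero h.1 hK.1⟩

theorem pz_sub (K : Subgroup N) [K.FiniteIndex] (h : PZ K) : PZ N := by
  obtain ⟨K', hK, φ, hφ⟩ := h
  exact ⟨K'.map K.subtype, fi_map K K' hK,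
    φ.comp (K'.equivMapOfInjective K.subtype K.subtype_injective).symm.toMonoidHom,
    hφ.comp (K'.equivMapOfInjective K.subtype K.subtype_injective).symm.surjective⟩

theorem vc_sub (K : Subgroup N) [K.FiniteIndex] (h : VC K) : VC N := by
  obtain ⟨a, ha⟩ := h
  exact ⟨a, by simpa using fi_map K _ ha⟩

theorem comm (A : Type) [CommGroup A] [Group.FG A] : PZ A ∨ VC A := by
  classical
  obtain ⟨ι, j, _, _, p, hp, k, ⟨e⟩⟩ := CommGroup.equiv_free_prod_prod_multiplicative_zmod A
  have : ∀ i, NeZero (p i ^ k i) := fun i => ⟨pow_ne_zero _ (hp i).ne_zero⟩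
  by_cases c : ∃ i i' : j, i ≠ i'
  · obtain ⟨i, i', h⟩ := c
    left
    let ψ : A →* Multiplicative (ℤ × ℤ) :=
      { toFun := fun a => Multiplicative.ofAdd (((e a).1 i).toAdd, ((e a).1 i').toAdd)
        map_one' := by simp
        map_mul' := fun a b => by simp; rfl }
    refine ⟨⊤, inferInstance, ψ.comp (Subgroup.subtype _), fun z => ?_⟩
    refine ⟨⟨e.symm (fun x => if x = i then Multiplicative.ofAdd z.toAdd.1
      else Multiplicative.ofAdd z.toAdd.2, 1), trivial⟩, ?_⟩
    simp [ψ, h.symm]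
  · right
    push Not at c
    refine ⟨e.symm (fun _ => Multiplicative.ofAdd 1, 1), ?_⟩
    have : Finite (A ⧸ zpowers (e.symm (fun _ => Multiplicative.ofAdd 1, 1))) := by
      refine Finite.of_surjective
        (fun t : (i : ι) → Multiplicative (ZMod (p i ^ k i)) => QuotientGroup.mk (e.symm (1, t))) ?_
      intro x
      obtain ⟨x, rfl⟩ := QuotientGroup.mk_surjective x
      refine ⟨(e x).2, QuotientGroup.eq.2 ?_⟩
      obtain ⟨m, hm⟩ : ∃ m : ℤ, ∀ i, (e x).1 i = Multiplicative.ofAdd m := by
        by_cases d : Nonempty j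
        · obtain ⟨i⟩ := d
          exact ⟨((e x).1 i).toAdd, fun i' => by rw [c i' i]; rfl⟩
        · exact ⟨0, fun i => absurd ⟨i⟩ d⟩
      refine ⟨m, e.injective ?_⟩
      simp only [map_zpow, MulEquiv.apply_symm_apply, map_mul, map_inv]
      ext i
      · simp [hm, ← ofAdd_zsmul]
      · simp
    exact finiteIndex_of_finite_quotient

theorem nil (G : Type) [Group G] [Group.IsNilpotent G] : Group.FG G → PZ G ∨ VC G := by
  refine Group.nilpotent_center_quotient_ind (P := fun G _ _ => Group.FG G → PZ G ∨ VC G) G ?_ ?_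
  · intro G _ _ _
    exact Or.inr ⟨1, inferInstance⟩
  · intro G _ _ ih hG
    rcases ih inferInstance with h | ⟨a, ha⟩
    · exact Or.inl (pz_surj (QuotientGroup.mk' _) (QuotientGroup.mk'_surjective _) h)
    obtain ⟨a, rfl⟩ := QuotientGroup.mk_surjective a
    set A := (zpowers (a : G ⧸ center G)).comap (QuotientGroup.mk' (center G)) with hA
    have : A.FiniteIndex :=
      ⟨by rw [hA, index_comap_of_surjective _ (QuotientGroup.mk'_surjective _)]; exact ha.1⟩
    have key : ∀ x ∈ A, ∃ (m : ℤ) (z : G), z ∈ center G ∧ x = a ^ m * z := by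
      rintro x ⟨m, hm⟩
      refine ⟨m, (a ^ m)⁻¹ * x, QuotientGroup.eq.1 ?_, by simp⟩
      simpa using hm
    letI : CommGroup A :=
      { (inferInstance : Group A) with
        mul_comm := fun x y => Subtype.ext (by
          obtain ⟨m, z, hz, h1⟩ := key x x.2
          obtain ⟨n, w, hw, h2⟩ := key y y.2
          have e1 := mem_center_iff.1 hz
          have e2 := mem_center_iff.1 hw
          rw [coe_mul, coe_mul, h1, h2]
          have c1 : Commute z (a ^ n * w) := (e1 _).symm
          have c2 : Commute (a ^ m) w := e2 _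
          exact ((((Commute.refl a).zpow_zpow m n).mul_right c2).mul_left c1).eq) }
    exact (comm A).imp (pz_sub A) (vc_sub A)

end GrpM

theorem dich (N : Type) [Group N] (h1 : Group.FG N) (h2 : Group.IsVirtuallyNilpotent N) :
    PZ N ∨ ∃ K : Subgroup N, K.FiniteIndex ∧ ∃ χ : K →* Multiplicative ℤ, Finite χ.ker := by
  obtain ⟨K, hK, hK'⟩ := h2
  refine ((GrpM.nil K inferInstance).imp (GrpM.pz_sub K) (GrpM.vc_sub K)).imp_right ?_
  rintro ⟨a, ha⟩
  refine ⟨_, ha, ?_⟩
  by_cases c : IsOfFinOrder a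
  · have : Finite (zpowers a) := finite_zpowers.2 c
    exact ⟨1, inferInstance⟩
  · have : Infinite (zpowers a) := (infinite_zpowers.2 c).to_subtype
    have e := intCyclicMulEquiv (G := zpowers a)
    refine ⟨e.symm.toMonoidHom, ?_⟩
    rw [(MonoidHom.ker_eq_bot_iff _).2 e.symm.injective]
    infer_instance

end Vale.Agent.P151Q
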