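import Vale.Agent.P151Q.One
import Vale.Agent.P151Q.Grp

/-! From the planar quotient theorem to virtually nilpotent actions and Cayley graphs. -/

set_option linter.unusedSectionVars false

namespace Vale.Agent.P151Q

open Function MeasureTheory ProbabilityTheory

def Crit {V : Type} (G : SimpleGraph V) : Prop :=
  sInf {p : unitInterval | 0 < setBernoulli G.edgeSet p
      {ω | ∃ x, {y | (SimpleGraph.fromEdgeSet ω).Reachable x y}.Infinite}} < 1 →
    setBernoulli G.edgeSet (sInf {p : unitInterval | 0 < setBernoulli G.edgeSet p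
      {ω | ∃ x, {y | (SimpleGraph.fromEdgeSet ω).Reachable x y}.Infinite}})
      {ω | ∃ x, {y | (SimpleGraph.fromEdgeSet ω).Reachable x y}.Infinite} = 0

def StmtA : Prop :=
  ∀ (V : Type) (G : SimpleGraph V), (∀ v, (G.neighborSet v).Finite) → G.Connected →
    ∀ (Γ : Subgroup (G ≃g G)), (∃ R : Finset V, ∀ v, ∃ γ ∈ Γ, γ v ∈ R) →
    ∀ φ : Γ →* Multiplicative (ℤ × ℤ), Surjective φ →
    (∀ γ : Γ, (∃ v, (γ : G ≃g G) v = v) → φ γ = 1) → Crit G

theorem stmtA (h1 : StmtRed) (h2 : StmtMeas) : StmtA :=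
  fun V G a1 a2 Γ a3 φ a4 a5 => h2 V G (h1 V G a1 a2 Γ a3 φ a4 a5)

namespace ActM

variable {V : Type} {G : SimpleGraph V}

theorem sub {Γ : Subgroup (G ≃g G)} (hq : ∃ R : Finset V, ∀ v, ∃ γ ∈ Γ, γ v ∈ R) {N : Type}
    [Group N] (ψ : Γ →* N) (hψ : Surjective ψ)
    (h1 : ∀ v, (ψ '' {γ | (γ : G ≃g G) v = v}).Finite)
    (h2 : ∀ v, ((fun γ : Γ => (γ : G ≃g G) v) '' ψ.ker).Finite) (K : Subgroup N)
    [hK : K.FiniteIndex] :
    ∃ Γ' : Subgroup (G ≃g G), (∃ R : Finset V, ∀ v, ∃ γ ∈ Γ', γ v ∈ R) ∧ ∃ ψ' : Γ' →* K,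
      Surjective ψ' ∧ (∀ γ : Γ', (∃ v, (γ : G ≃g G) v = v) → IsOfFinOrder (ψ' γ)) ∧
      ∀ v, ((fun γ : Γ' => (γ : G ≃g G) v) '' ψ'.ker).Finite := by
  classical
  obtain ⟨R, hR⟩ := hq
  have : (K.comap ψ).FiniteIndex := ⟨by rw [Subgroup.index_comap_of_surjective _ hψ]; exact hK.1⟩
  have := Fintype.ofFinite (Γ ⧸ K.comap ψ)
  set e := (K.comap ψ).equivMapOfInjective Γ.subtype Γ.subtype_injective with he
  have ee : ∀ γ, (((e.symm γ : K.comap ψ) : Γ) : G ≃g G) = γ := fun γ => by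
    conv_rhs => rw [← e.apply_symm_apply γ]
    rfl
  refine ⟨(K.comap ψ).map Γ.subtype, ⟨(Finset.univ ×ˢ R).image
    fun a : (Γ ⧸ K.comap ψ) × V => ((a.1.out⁻¹ : Γ) : G ≃g G) a.2, fun v => ?_⟩,
    (ψ.subgroupComap K).comp e.symm.toMonoidHom,
    (ψ.subgroupComap_surjective_of_surjective K hψ).comp e.symm.surjective, ?_, fun v => ?_⟩
  · obtain ⟨γ, hγ, hv⟩ := hR v
    refine ⟨_, ⟨(QuotientGroup.mk (⟨γ, hγ⟩ : Γ) : Γ ⧸ K.comap ψ).out⁻¹ * ⟨γ, hγ⟩,
      QuotientGroup.eq.1 (Quotient.out_eq _), rfl⟩, Finset.mem_image.2 ⟨(_, γ v),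
      Finset.mem_product.2 ⟨Finset.mem_univ (QuotientGroup.mk (⟨γ, hγ⟩ : Γ)), hv⟩, rfl⟩⟩
  · rintro γ ⟨v, hv⟩
    rw [← K.subtype_injective.isOfFinOrder_iff, ← finite_powers]
    refine (h1 v).subset ?_
    rintro _ ⟨n, rfl⟩
    refine ⟨((e.symm γ : K.comap ψ) : Γ) ^ n, ?_, by rw [map_pow]; rfl⟩
    show (((((e.symm γ : K.comap ψ) : Γ) ^ n : Γ)) : G ≃g G) v = v
    rw [Subgroup.coe_pow, ee]
    induction n with
    | zero => rfl
    | succ n ih => rw [pow_succ, RelIso.mul_apply, hv, ih]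
  · refine (h2 v).subset ?_
    rintro _ ⟨γ, hγ, rfl⟩
    exact ⟨(e.symm γ : K.comap ψ), congrArg Subtype.val hγ, by simp only [ee]⟩

theorem height (hl : ∀ v, (G.neighborSet v).Finite) {Γ : Subgroup (G ≃g G)}
    (hq : ∃ R : Finset V, ∀ v, ∃ γ ∈ Γ, γ v ∈ R) (χ : Γ →* Multiplicative ℤ)
    (h1 : ∀ γ : Γ, (∃ v, (γ : G ≃g G) v = v) → χ γ = 1)
    (h2 : ∀ v, ((fun γ : Γ => (γ : G ≃g G) v) '' χ.ker).Finite) : Crit G := by
  classical
  obtain ⟨R, hR⟩ := hq
  set rep : V → V := fun v => (Quotient.mk (MulAction.orbitRel Γ V) v).out with hrep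
  have r1 : ∀ v, ∃ g : Γ, g • rep v = v := fun v =>
    (MulAction.orbitRel_apply.1 ((MulAction.orbitRel Γ V).symm (Quotient.mk_out v)))
  choose g hg using r1
  have r2 : ∀ (γ : Γ) v, rep (γ • v) = rep v := fun γ v =>
    congrArg Quotient.out (Quotient.sound (MulAction.orbitRel_apply.2 ⟨γ, rfl⟩))
  have r3 : ∀ v, rep v ∈ R.image rep := fun v => by
    obtain ⟨γ, hγ, hv⟩ := hR v
    exact Finset.mem_image.2 ⟨_, hv, r2 ⟨γ, hγ⟩ v⟩
  set f : V → ℤ := fun v => (χ (g v)).toAdd with hf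
  have f1 : ∀ (γ : Γ) v, f (γ • v) = (χ γ).toAdd + f v := by
    intro γ v
    have := h1 ((g (γ • v))⁻¹ * (γ * g v)) ⟨rep v, by
      show ((g (γ • v))⁻¹ * (γ * g v)) • rep v = rep v
      rw [mul_smul, mul_smul, hg, inv_smul_eq_iff, ← r2 γ v, hg]⟩
    rw [map_mul, map_inv, inv_mul_eq_one, map_mul] at this
    simp only [hf, this, toAdd_mul]
  obtain ⟨L, hL⟩ := (((R.image rep).finite_toSet.biUnion fun r _ =>
    (hl r).image fun y => (f r - f y).natAbs)).bddAbove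
  set Z := ((R.image rep).finite_toSet.biUnion fun r _ => h2 r).toFinset with hZ
  set fib : ℤ → Finset V := fun m =>
    if h : ∃ γ : Γ, (χ γ).toAdd = m then Z.image (h.choose • ·) else ∅ with hfib
  have k1 : ∀ v, v ∈ fib (f v) := by
    intro v
    have h : ∃ γ : Γ, (χ γ).toAdd = f v := ⟨g v, rfl⟩
    simp only [hfib, dif_pos h]
    refine Finset.mem_image.2 ⟨(h.choose⁻¹ * g v) • rep v, ?_, by rw [mul_smul, hg, smul_inv_smul]⟩
    rw [hZ, Set.Finite.mem_toFinset]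
    refine Set.mem_biUnion (Finset.mem_coe.2 (r3 v)) ⟨_, ?_, rfl⟩
    have := h.choose_spec
    rw [SetLike.mem_coe, MonoidHom.mem_ker, map_mul, map_inv, inv_mul_eq_one]
    exact Multiplicative.toAdd.injective this
  have : Countable V := by
    rw [← Set.countable_univ_iff]
    exact (Set.countable_iUnion fun m : ℤ => (fib m).countable_toSet).mono fun v _ =>
      Set.mem_iUnion.2 ⟨f v, k1 v⟩
  intro hp
  refine oneDim G f (L + 1) Z.card (by omega) (fun x y hxy => ?_) fib k1 (fun m => ?_) _ hp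
  · have a1 : G.Adj (rep x) ((g x)⁻¹ • y) := by
      have := (((g x)⁻¹ : Γ) : G ≃g G).map_adj_iff.2 hxy
      rwa [show (((g x)⁻¹ : Γ) : G ≃g G) x = rep x from inv_smul_eq_iff.2 (hg x).symm] at this
    have a2 := hL (Set.mem_biUnion (Finset.mem_coe.2 (r3 x)) ⟨_, a1, rfl⟩)
    have a3 := f1 (g x) (rep x)
    have a4 := f1 (g x) ((g x)⁻¹ • y)
    rw [hg] at a3
    rw [smul_inv_smul] at a4
    dsimp only at a2
    rw [abs_le]
    push_cast
    omega
  · simp only [hfib]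
    split_ifs
    · exact Finset.card_image_le
    · simp

end ActM

theorem stmtB (hA : StmtA) {V : Type} (G : SimpleGraph V) (hl : ∀ v, (G.neighborSet v).Finite)
    (hc : G.Connected) (Γ : Subgroup (G ≃g G)) (hq : ∃ R : Finset V, ∀ v, ∃ γ ∈ Γ, γ v ∈ R)
    (N : Type) [Group N] (n1 : Group.FG N) (n2 : Group.IsVirtuallyNilpotent N) (ψ : Γ →* N)
    (hψ : Surjective ψ) (h1 : ∀ v, (ψ '' {γ | (γ : G ≃g G) v = v}).Finite)
    (h2 : ∀ v, ((fun γ : Γ => (γ : G ≃g G) v) '' ψ.ker).Finite) : Crit G := by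
  rcases dich N n1 n2 with ⟨K, hK, φ, hφ⟩ | ⟨K, hK, χ, hχ⟩
  · obtain ⟨Γ', a1, ψ', a2, a3, -⟩ := ActM.sub hq ψ hψ h1 h2 K
    exact hA V G hl hc Γ' a1 (φ.comp ψ') (hφ.comp a2) fun γ h =>
      (φ.isOfFinOrder (a3 γ h)).eq_one'
  · obtain ⟨Γ', a1, ψ', a2, a3, a4⟩ := ActM.sub hq ψ hψ h1 h2 K
    refine ActM.height hl a1 (χ.comp ψ') (fun γ h => (χ.isOfFinOrder (a3 γ h)).eq_one') fun v => ?_
    choose g hg using a2
    refine (Set.finite_iUnion fun k : χ.ker => (a4 v).image (g k : G ≃g G)).subset ?_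
    rintro _ ⟨γ, hγ, rfl⟩
    refine Set.mem_iUnion.2 ⟨⟨ψ' γ, hγ⟩, _, ⟨(g (ψ' γ))⁻¹ * γ, ?_, rfl⟩, ?_⟩
    · rw [SetLike.mem_coe, MonoidHom.mem_ker, map_mul, map_inv, hg, inv_mul_cancel]
    · show g (ψ' γ) • ((g (ψ' γ))⁻¹ * γ) • v = γ • v
      rw [mul_smul, smul_inv_smul]

theorem stmtC (hA : StmtA) (H : Type) [Group H] (S : Finset H)
    (hS : Subgroup.closure (S : Set H) = ⊤) (hH : Group.IsVirtuallyNilpotent H) :
    Crit (SimpleGraph.mulCayley (S : Set H)) := by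
  set G := SimpleGraph.mulCayley (S : Set H) with hG
  let lam : H →* (G ≃g G) :=
    { toFun := fun h => ⟨Equiv.mulLeft h, by intro a b; simp [hG]⟩
      map_one' := by ext; simp
      map_mul' := fun a b => by ext; simp }
  have l1 : ∀ h v, lam h v = h * v := fun _ _ => rfl
  have l2 : Injective lam := fun a b h => by
    have := congrArg (fun γ : G ≃g G => γ 1) h
    simpa [l1] using this
  set e := MonoidHom.ofInjective l2 with he
  have ee : ∀ (γ : lam.range) v, (γ : G ≃g G) v = e.symm γ * v := fun γ v => by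
    conv_lhs => rw [← e.apply_symm_apply γ]
    rfl
  refine stmtB hA G (fun v => ?_) ?_ lam.range ⟨{1}, fun v => ⟨lam v⁻¹, ⟨_, rfl⟩, by rw [l1]; simp⟩⟩ H
    ⟨⟨S, hS⟩⟩ hH e.symm.toMonoidHom e.symm.surjective (fun v => ?_) fun v => ?_
  · refine ((S.finite_toSet.image (v * ·)).union (S.finite_toSet.image (v * ·⁻¹))).subset ?_
    intro y hy
    rcases ((SimpleGraph.mulCayley_adj _ _ _).1 hy).2 with h | h
    · exact Or.inl ⟨_, h, by simp⟩
    · exact Or.inr ⟨_, h, by simp⟩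
  · have key : ∀ x ∈ Subgroup.closure (S : Set H), ∀ v, G.Reachable v (v * x) := by
      intro x hx
      induction hx using Subgroup.closure_induction with
      | mem x hx =>
        intro v
        by_cases c : v = v * x
        · rw [← c]
        · exact ((SimpleGraph.mulCayley_adj _ _ _).2 ⟨c, Or.inl (by simpa using hx)⟩).reachable
      | one => intro v; rw [mul_one]
      | mul x y _ _ h1 h2 => intro v; rw [← mul_assoc]; exact (h1 v).trans (h2 _)
      | inv x _ h => intro v; simpa using (h (v * x⁻¹)).symm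
    exact ⟨fun u v => by simpa using key (u⁻¹ * v) (hS ▸ trivial) u⟩
  · refine (Set.finite_singleton 1).subset ?_
    rintro _ ⟨γ, hγ, rfl⟩
    have : e.symm γ * v = v := (ee γ v).symm.trans hγ
    simpa using this
  · refine (Set.finite_singleton v).subset ?_
    rintro _ ⟨γ, hγ, rfl⟩
    have : e.symm γ = 1 := hγ
    simp [ee, this]

end Vale.Agent.P151Q
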