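import Vale.Agent.P151Q.Spec

/-! Basic lemmas shared by all modules. -/

set_option linter.unusedSectionVars false

namespace Vale.Agent.P151Q

open Finset Vale.Agent.P151

variable {V : Type} [DecidableEq V]

theorem mk_mem_EG {G : SimpleGraph V} {W : Finset V} {x y : V} :
    s(x, y) ∈ EG G W ↔ (x ∈ W ∧ y ∈ W) ∧ G.Adj x y := by
  simp [EG]

theorem LatG.mono {G : SimpleGraph V} {F F' : Finset (Sym2 V)} (h : LatG G F) (h' : F' ⊆ F) :
    LatG G F' := fun x y hxy => h x y (h' hxy)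

theorem LatG_EG (G : SimpleGraph V) (W : Finset V) : LatG G (EG G W) :=
  fun _ _ h => (mk_mem_EG.1 h).2

theorem EG_mono {G : SimpleGraph V} {W W' : Finset V} (h : W ⊆ W') : EG G W ⊆ EG G W' := by
  intro e he
  induction e using Sym2.ind with
  | h x y =>
    rw [mk_mem_EG] at he ⊢
    exact ⟨⟨h he.1.1, h he.1.2⟩, he.2⟩

theorem card_EG (G : SimpleGraph V) (W : Finset V) : (EG G W).card ≤ W.card ^ 2 := by
  refine (card_le_card (keep_subset _ _)).trans ?_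
  rw [Finset.sym2_eq_image]
  exact card_image_le.trans (by simp [sq])

theorem FreshG.mono {G : SimpleGraph V} {F : Finset (Sym2 V)} {q : Sym2 V → ℝ} {p : ℝ}
    {U U' : Set V} (h : FreshG G F q p U) (h' : U' ⊆ U) : FreshG G F q p U' :=
  fun x hx y hy => h x (h' hx) y (h' hy)

theorem GeG.mono {G : SimpleGraph V} {F : Finset (Sym2 V)} {q : Sym2 V → ℝ} {p : ℝ}
    {U U' : Set V} (h : GeG G F q p U) (h' : U' ⊆ U) : GeG G F q p U' :=
  fun x hx y hy => h x (h' hx) y (h' hy)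

theorem FreshG.ge {G : SimpleGraph V} {F : Finset (Sym2 V)} {q : Sym2 V → ℝ} {p : ℝ}
    {U : Set V} (h : FreshG G F q p U) : GeG G F q p U :=
  fun x hx y hy a => ⟨(h x hx y hy a).1, (h x hx y hy a).2.ge⟩

theorem FreshG.keep {G : SimpleGraph V} {F : Finset (Sym2 V)} {q : Sym2 V → ℝ} {p : ℝ}
    {U W : Set V} (h : FreshG G F q p U) (hW : U ⊆ W) : FreshG G (keep F (ins W)) q p U :=
  fun x hx y hy a => ⟨mem_keep.2 ⟨(h x hx y hy a).1, mk_mem_ins.2 ⟨hW hx, hW hy⟩⟩, (h x hx y hy a).2⟩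

theorem GeG.keep {G : SimpleGraph V} {F : Finset (Sym2 V)} {q : Sym2 V → ℝ} {p : ℝ}
    {U W : Set V} (h : GeG G F q p U) (hW : U ⊆ W) : GeG G (keep F (ins W)) q p U :=
  fun x hx y hy a => ⟨mem_keep.2 ⟨(h x hx y hy a).1, mk_mem_ins.2 ⟨hW hx, hW hy⟩⟩, (h x hx y hy a).2⟩

theorem FreshG_EG (G : SimpleGraph V) (W : Finset V) (p : ℝ) {U : Set V} (h : ∀ x ∈ U, x ∈ W) :
    FreshG G (EG G W) (fun _ => p) p U :=
  fun x hx y hy hxy => ⟨mk_mem_EG.2 ⟨⟨h x hx, h y hy⟩, hxy⟩, rfl⟩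

theorem keep_ins_EG {G : SimpleGraph V} {F : Finset (Sym2 V)} {W : Finset V} {U : Set V}
    (hW : ∀ x, x ∈ W ↔ x ∈ U) (hL : LatG G F)
    (h : ∀ x ∈ U, ∀ y ∈ U, G.Adj x y → s(x, y) ∈ F) : keep F (ins U) = EG G W := by
  ext e
  induction e using Sym2.ind with
  | h x y =>
    rw [mem_keep, mk_mem_ins, mk_mem_EG, hW, hW]
    exact ⟨fun h1 => ⟨h1.2, hL _ _ h1.1⟩, fun h1 => ⟨h _ h1.1.1 _ h1.1.2 h1.2, h1.1⟩⟩

theorem Ex_freshG {G : SimpleGraph V} {F : Finset (Sym2 V)} {q : Sym2 V → ℝ} {p : ℝ}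
    {W : Finset V} {U : Set V} (hW : ∀ x, x ∈ W ↔ x ∈ U) (hL : LatG G F)
    (h : FreshG G F q p U) (g : Finset (Sym2 V) → ℝ) :
    Ex F q (fun ω => g (keep ω (ins U))) = Ex (EG G W) (fun _ => p) g := by
  rw [Ex_keep, keep_ins_EG hW hL fun x hx y hy a => (h x hx y hy a).1]
  refine Ex_congr_p _ fun e he => ?_
  induction e using Sym2.ind with
  | h x y =>
    rw [mk_mem_EG, hW, hW] at he
    exact (h _ he.1.1 _ he.1.2 he.2).2

/-- decreasing functions have smaller expectation under larger parameters -/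
theorem Ex_anti_p {ι : Type*} [DecidableEq ι] {p q : ι → ℝ} (hp : P01 p) (hq : P01 q)
    (F : Finset ι) (h : ∀ i ∈ F, p i ≤ q i) :
    ∀ f : Finset ι → ℝ, Antitone f → Ex F q f ≤ Ex F p f := by
  induction F using Finset.induction_on with
  | empty => intro f _; simp
  | insert e F he ih =>
    intro f hf
    have ih' := ih fun i hi => h i (mem_insert_of_mem hi)
    rw [Ex_insert he, Ex_insert he]
    have a1 := ih' (fun S => f (insert e S)) fun S T hST => hf (insert_subset_insert _ hST)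
    have a2 := ih' f hf
    have a3 : Ex F p (fun S => f (insert e S)) ≤ Ex F p f :=
      Ex_mono hp fun S _ => hf (subset_insert _ _)
    have a4 := h e (mem_insert_self _ _)
    nlinarith [(hq e).1, (hq e).2, mul_le_mul_of_nonneg_left a1 (hq e).1,
      mul_le_mul_of_nonneg_left a2 (sub_nonneg.2 (hq e).2)]

theorem keep_keep {ι : Type*} [DecidableEq ι] (ω : Finset ι) (T T' : Set ι) :
    keep (keep ω T) T' = keep ω (T ∩ T') := by
  ext e; simp [and_assoc]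

theorem ins_inter (A B : Set V) : ins (A ∩ B) = ins A ∩ ins B := by
  ext e; simp [ins, forall_and]

theorem nlink_anti (A S T : Set V) :
    Antitone fun ω : Finset (Sym2 V) => ind (¬ link (keep ω (ins A)) S T) :=
  fun _ _ h => ind_mono fun h1 h2 => h1 (h2.mono (keep_mono h subset_rfl) subset_rfl subset_rfl)

/-- stop a path at its first visit of the target -/
theorem first_hit {G : SimpleGraph V} {ω : Finset (Sym2 V)} (hL : LatG G ω) {A A' S T T' : Set V}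
    (h : link (keep ω (ins A)) S T) (h1 : ∀ x ∈ A, x ∉ T → x ∈ A')
    (h2 : ∀ x ∈ A, x ∉ T → ∀ y ∈ A, y ∈ T → G.Adj x y → y ∈ A' ∧ y ∈ T')
    (h3 : ∀ x ∈ S, x ∈ T → x ∈ T') : link (keep ω (ins A')) S T' := by
  obtain ⟨a, ha, b, hb, hc⟩ := h
  have : link (keep ω (ins A')) S T' ∨ (b ∉ T ∧ conn (keep ω (ins A')) a b) := by
    clear hb
    induction hc with
    | refl =>
      by_cases c : a ∈ T
      · exact Or.inl ⟨a, ha, a, h3 a ha c, conn_refl _ _⟩
      · exact Or.inr ⟨c, conn_refl _ _⟩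
    | @tail u v _ he ih =>
      rcases ih with ih | ⟨k1, k2⟩
      · exact Or.inl ih
      · have e1 := mem_keep.1 he
        have e2 := mk_mem_ins.1 e1.2
        by_cases c : v ∈ T
        · have := h2 u e2.1 k1 v e2.2 c (hL _ _ e1.1)
          exact Or.inl ⟨a, ha, v, this.2, k2.trans (conn_edge (mem_keep.2
            ⟨e1.1, mk_mem_ins.2 ⟨h1 u e2.1 k1, this.1⟩⟩))⟩
        · exact Or.inr ⟨c, k2.trans (conn_edge (mem_keep.2
            ⟨e1.1, mk_mem_ins.2 ⟨h1 u e2.1 k1, h1 v e2.2 c⟩⟩))⟩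
  exact this.resolve_right fun h => h.1 hb

theorem keep_univ (ω : Finset (Sym2 V)) : keep ω (ins (Set.univ : Set V)) = ω := by
  ext e; simp [ins]

/-- the end of a nontrivial path inside `A` lies in `A` -/
theorem conn_end {ω : Finset (Sym2 V)} {A : Set V} {x y : V} (h : conn (keep ω (ins A)) x y) :
    y = x ∨ (y ∈ A ∧ ∃ u, s(u, y) ∈ ω) := by
  rcases Relation.ReflTransGen.cases_tail h with rfl | ⟨u, _, h2⟩
  · exact Or.inl rfl
  · exact Or.inr ⟨(mk_mem_ins.1 (mem_keep.1 h2).2).2, u, (mem_keep.1 h2).1⟩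

/-- discrete intermediate values along an open path -/
theorem conn_ivt {G : SimpleGraph V} {ω : Finset (Sym2 V)} (hL : LatG G ω) (f : V → ℤ) (K : ℤ)
    (hf : ∀ x y, G.Adj x y → f y ≤ f x + K) {x y : V} (h : conn ω x y) {m : ℤ} (h1 : f x < m)
    (h2 : m ≤ f y) : ∃ v, conn ω x v ∧ m ≤ f v ∧ f v < m + K := by
  induction h with
  | refl => omega
  | @tail u v h3 h4 ih =>
    by_cases c : m ≤ f u
    · exact ih c
    · have := hf u v (hL _ _ h4)
      exact ⟨v, Relation.ReflTransGen.tail h3 h4, h2, by omega⟩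

namespace Cfg

variable (c : Cfg V)

theorem d_tri (x y z : V) : c.G.dist x z ≤ c.G.dist x y + c.G.dist y z := c.con.dist_triangle

theorem d_comm (x y : V) : c.G.dist x y = c.G.dist y x := SimpleGraph.dist_comm

theorem d_adj {x y : V} (h : c.G.Adj x y) : c.G.dist x y ≤ 1 :=
  (SimpleGraph.dist_eq_one_iff_adj.2 h).le

theorem d_zero {x y : V} (h : c.G.dist x y = 0) : x = y := (c.con.dist_eq_zero_iff).1 h

theorem d_step {x y : V} {n : ℕ} (h : c.G.dist x y = n + 1) :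
    ∃ z, c.G.Adj z y ∧ c.G.dist x z = n := by
  obtain ⟨w, hw⟩ := c.con.exists_walk_length_eq_dist y x
  rw [c.d_comm y x, h] at hw
  cases w with
  | nil => simp at hw
  | @cons _ z _ ha w =>
    have a1 : c.G.dist z x ≤ n := by
      have := SimpleGraph.dist_le w
      simp at hw; omega
    have a2 := c.d_tri x z y
    have a3 := c.d_adj ha.symm
    rw [c.d_comm z x] at a1
    exact ⟨z, ha.symm, by omega⟩

/-- a point on a geodesic -/
theorem d_split (x : V) (m : ℕ) : ∀ (n : ℕ) (y : V), c.G.dist x y = m + n →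
    ∃ z, c.G.dist x z = m ∧ c.G.dist z y = n := by
  intro n
  induction n with
  | zero => exact fun y h => ⟨y, h, SimpleGraph.dist_self⟩
  | succ n ih =>
    intro y h
    obtain ⟨u, h1, h2⟩ := c.d_step (n := m + n) h
    obtain ⟨z, h3, h4⟩ := ih u h2
    have a1 := c.d_tri z u y
    have a2 := c.d_adj h1
    have a3 := c.d_tri x z y
    exact ⟨z, h3, by omega⟩

theorem lip (f : V → ℤ) (K : ℤ) (hf : ∀ x y, c.G.Adj x y → |f x - f y| ≤ K) (x y : V) :
    |f x - f y| ≤ K * c.G.dist x y := by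
  induction' h : c.G.dist x y with n ih generalizing y
  · rw [c.d_zero h]; simp
  · obtain ⟨z, h1, h2⟩ := c.d_step h
    have a1 := ih z h2
    have a2 := hf z y h1
    push_cast
    rw [abs_le] at *
    constructor <;> linarith

theorem lip_s (x y : V) : |c.s x - c.s y| ≤ c.L * c.G.dist x y := c.lip _ _ c.lipS x y

theorem lip_t (x y : V) : |c.t x - c.t y| ≤ c.L * c.G.dist x y := c.lip _ _ c.lipT x y

theorem lip_lin (A B : ℤ) (x y : V) :
    |A * (c.s x - c.s y) + B * (c.t x - c.t y)| ≤ c.L * c.G.dist x y * (|A| + |B|) := by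
  refine (abs_add_le _ _).trans ?_
  rw [abs_mul, abs_mul]
  nlinarith [mul_le_mul_of_nonneg_left (c.lip_s x y) (abs_nonneg A),
    mul_le_mul_of_nonneg_left (c.lip_t x y) (abs_nonneg B)]

theorem mem_ballF' {x y : V} {n : ℕ} : y ∈ c.ballF x n ↔ y ∈ c.Bl x n := c.mem_ballF x n y

theorem self_mem_Bl (x : V) (n : ℕ) : x ∈ c.Bl x n := by simp [Bl]

theorem Bl_mono (x : V) {n n' : ℕ} (h : n ≤ n') : c.Bl x n ⊆ c.Bl x n' :=
  fun _ hy => le_trans hy h

theorem Bl_finite (x : V) (n : ℕ) : (c.Bl x n).Finite :=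
  (c.ballF x n).finite_toSet.subset fun _ h => mem_coe.2 (c.mem_ballF'.2 h)

theorem Th_finite {S : Set V} (h : S.Finite) (J : ℕ) : (c.Th S J).Finite :=
  (h.biUnion fun y _ => c.Bl_finite y J).subset fun _ ⟨y, hy, hv⟩ => Set.mem_biUnion hy hv

theorem subset_Th (S : Set V) (J : ℕ) : S ⊆ c.Th S J := fun y hy => ⟨y, hy, by simp⟩

theorem Th_mono (S : Set V) {J J' : ℕ} (h : J ≤ J') : c.Th S J ⊆ c.Th S J' :=
  fun _ ⟨y, hy, hv⟩ => ⟨y, hy, hv.trans h⟩

theorem card_EG_ball (x : V) (n : ℕ) : (EG c.G (c.ballF x n)).card ≤ c.β n ^ 2 :=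
  (card_EG _ _).trans (Nat.pow_le_pow_left (c.card_ballF x n) 2)

/-- if all edges inside a set containing the geodesic interval are open, the ends are joined -/
theorem conn_geo {ω : Finset (Sym2 V)} {Y : Set V} {x : V}
    (hω : ∀ a ∈ Y, ∀ b ∈ Y, c.G.Adj a b → s(a, b) ∈ ω) :
    ∀ y, (∀ w, c.G.dist x w + c.G.dist w y = c.G.dist x y → w ∈ Y) → conn ω x y := by
  intro y
  induction' h : c.G.dist x y with n ih generalizing y
  · intro _; rw [c.d_zero h]; exact conn_refl _ _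
  · intro hY
    obtain ⟨z, h1, h2⟩ := c.d_step h
    have a0 := c.d_adj h1
    refine (ih z h2 fun w hw => hY w ?_).trans (conn_edge (hω z (hY z ?_) y (hY y ?_) h1))
    · have := c.d_tri w z y
      have := c.d_tri x w y
      omega
    · have := c.d_tri x z y
      omega
    · simp [h]

theorem conn_ball {ω : Finset (Sym2 V)} {x : V} {n : ℕ} (h : EG c.G (c.ballF x n) ⊆ ω) :
    ∀ y ∈ c.Bl x n, conn ω x y := fun y hy =>
  c.conn_geo (Y := c.Bl x n) (fun a ha b hb hab => h (mk_mem_EG.2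
    ⟨⟨c.mem_ballF'.2 ha, c.mem_ballF'.2 hb⟩, hab⟩)) y fun w hw => by
      have : c.G.dist x y ≤ n := hy
      show c.G.dist x w ≤ n
      omega

theorem fl_nonneg {p : ℝ} (h0 : 0 ≤ p) (h1 : p ≤ 1) (x : V) (N r : ℕ) (A T : Set V) :
    0 ≤ c.fl p x N r A T := Ex_nonneg (P01_const h0 h1) fun _ _ => ind_nonneg _

theorem fl_le_one {p : ℝ} (h0 : 0 ≤ p) (h1 : p ≤ 1) (x : V) (N r : ℕ) (A T : Set V) :
    c.fl p x N r A T ≤ 1 := Ex_le_const (P01_const h0 h1) fun _ _ => ind_le_one _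

theorem fl_continuous (x : V) (N r : ℕ) (A T : Set V) :
    Continuous fun p : ℝ => c.fl p x N r A T :=
  Ex_continuous _ (fun (p : ℝ) _ => p) (fun _ => continuous_id) _

/-- `fl` computed inside any larger fresh edge set -/
theorem fl_eq {F : Finset (Sym2 V)} {q : Sym2 V → ℝ} {p : ℝ} {x : V} {N : ℕ} (hL : LatG c.G F)
    (h : FreshG c.G F q p (c.Bl x N)) (r : ℕ) (A T : Set V) :
    Ex F q (fun ω => ind (¬ link (keep ω (ins (c.Bl x N ∩ A))) (c.Bl x r) T)) =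
      c.fl p x N r A T := by
  rw [fl, ← Ex_freshG (fun _ => c.mem_ballF') hL h]
  simp only [keep_keep, ins_inter]

/-- a deterministic implication between link events compares the failure probabilities -/
theorem fl_le_of {p : ℝ} (h0 : 0 ≤ p) (h1 : p ≤ 1) {x : V} {N r r' : ℕ} {A A' T T' : Set V}
    (h : ∀ ω ⊆ EG c.G (c.ballF x N), link (keep ω (ins A)) (c.Bl x r) T →
      link (keep ω (ins A')) (c.Bl x r') T') : c.fl p x N r' A' T' ≤ c.fl p x N r A T :=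
  Ex_mono (P01_const h0 h1) fun ω hω => ind_mono fun a b => a (h ω hω b)

theorem fl_mono {p : ℝ} (h0 : 0 ≤ p) (h1 : p ≤ 1) {x : V} {N r : ℕ} (hr : r ≤ N)
    {A A' T T' : Set V} (hA : ∀ y ∈ A, y ∈ c.Bl x N → y ∈ A')
    (hT : ∀ y ∈ T, y ∈ c.Bl x N → y ∈ T') : c.fl p x N r A' T' ≤ c.fl p x N r A T := by
  refine c.fl_le_of h0 h1 ?_
  rintro ω hω ⟨a, ha, b, hb, hc⟩
  refine ⟨a, ha, b, hT b hb ?_, hc.mono fun e he => ?_⟩
  · rcases conn_end hc with rfl | ⟨_, u, hu⟩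
    · exact c.Bl_mono x hr ha
    · exact c.mem_ballF'.1 (mk_mem_EG.1 (hω hu)).1.2
  · induction e using Sym2.ind with
    | h u v =>
      rw [mem_keep, mk_mem_ins] at he ⊢
      have := (mk_mem_EG.1 (hω he.1)).1
      exact ⟨he.1, hA _ he.2.1 (c.mem_ballF'.1 this.1), hA _ he.2.2 (c.mem_ballF'.1 this.2)⟩

theorem fl_anti_N {p : ℝ} (h0 : 0 ≤ p) (h1 : p ≤ 1) (x : V) {N N' : ℕ} (h : N ≤ N') (r : ℕ)
    (A T : Set V) : c.fl p x N' r A T ≤ c.fl p x N r A T := by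
  rw [← c.fl_eq (LatG_EG _ (c.ballF x N')) (FreshG_EG _ _ p fun y hy =>
    c.mem_ballF'.2 (c.Bl_mono x h hy)) r A T]
  exact Ex_mono (P01_const h0 h1) fun ω _ => ind_mono fun a b => a
    (b.mono (keep_mono subset_rfl (ins_mono Set.inter_subset_right)) subset_rfl subset_rfl)

/-- comparison with `fl` when the parameters are at least `p` on the region -/
theorem Ex_le_fl {F : Finset (Sym2 V)} {q : Sym2 V → ℝ} {p : ℝ} (h0 : 0 ≤ p) (h1 : p ≤ 1)
    (hq : P01 q) (hL : LatG c.G F) {x : V} {N : ℕ} {U : Set V}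
    (h : GeG c.G F q p (c.Bl x N ∩ U)) (r : ℕ) (T : Set V) :
    Ex F q (fun ω => ind (¬ link (keep ω (ins (c.Bl x N ∩ U))) (c.Bl x r) T)) ≤
      c.fl p x N r U T := by
  classical
  have hW : ∀ y, y ∈ (c.ballF x N).filter (· ∈ U) ↔ y ∈ c.Bl x N ∩ U := fun y => by
    simp [c.mem_ballF']
  have e1 := keep_ins_EG hW hL fun a ha b hb hab => (h a ha b hb hab).1
  have e2 := keep_ins_EG (F := EG c.G (c.ballF x N)) hW (LatG_EG _ _) fun a ha b hb hab =>
    mk_mem_EG.2 ⟨⟨c.mem_ballF'.2 ha.1, c.mem_ballF'.2 hb.1⟩, hab⟩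
  rw [← c.fl_eq (LatG_EG _ (c.ballF x N)) (FreshG_EG _ _ p fun y hy => c.mem_ballF'.2 hy) r U T,
    Ex_keep q _ F (fun ω => ind (¬ link ω (c.Bl x r) T)),
    Ex_keep _ _ _ (fun ω => ind (¬ link ω (c.Bl x r) T)), e1, e2]
  refine Ex_anti_p (P01_const h0 h1) hq _ (fun e he => ?_) _
    fun _ _ hh => ind_mono fun a b => a (b.mono hh subset_rfl subset_rfl)
  induction e using Sym2.ind with
  | h a b =>
    rw [mk_mem_EG, hW, hW] at he
    exact (h a he.1.1 b he.1.2 he.2).2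

theorem d_equiv (φ : V ≃ V) (hφ : ∀ a b, c.G.Adj (φ a) (φ b) ↔ c.G.Adj a b) (x y : V) :
    c.G.dist (φ x) (φ y) = c.G.dist x y := by
  have key : ∀ (ψ : V ≃ V), (∀ a b, c.G.Adj (ψ a) (ψ b) ↔ c.G.Adj a b) → ∀ x y,
      c.G.dist (ψ x) (ψ y) ≤ c.G.dist x y := by
    intro ψ hψ x y
    induction' h : c.G.dist x y with n ih generalizing y
    · rw [c.d_zero h]; simp
    · obtain ⟨z, h1, h2⟩ := c.d_step h
      have := c.d_tri (ψ x) (ψ z) (ψ y)
      have := c.d_adj ((hψ _ _).2 h1)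
      have := ih z h2
      omega
  refine le_antisymm (key φ hφ x y) ?_
  simpa using key φ.symm (fun a b => by rw [← hφ]; simp) (φ x) (φ y)

theorem fl_equiv (φ : V ≃ V) (hφ : ∀ a b, c.G.Adj (φ a) (φ b) ↔ c.G.Adj a b) (p : ℝ) (x : V)
    (N r : ℕ) {A A' T T' : Set V} (hA : ∀ v, φ v ∈ A' ↔ v ∈ A) (hT : ∀ v, φ v ∈ T' ↔ v ∈ T) :
    c.fl p (φ x) N r A' T' = c.fl p x N r A T := by
  have e : EG c.G (c.ballF (φ x) N) =
      (EG c.G (c.ballF x N)).map ⟨Sym2.map φ, Sym2.map.injective φ.injective⟩ := by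
    ext e
    induction e using Sym2.ind with
    | h a b =>
      obtain ⟨a, rfl⟩ := φ.surjective a
      obtain ⟨b, rfl⟩ := φ.surjective b
      have : s(φ a, φ b) = (⟨Sym2.map φ, Sym2.map.injective φ.injective⟩ : _ ↪ _) s(a, b) := rfl
      rw [mk_mem_EG, this, mem_map', mk_mem_EG, c.mem_ballF, c.mem_ballF, c.mem_ballF,
        c.mem_ballF, c.d_equiv φ hφ, c.d_equiv φ hφ, hφ]
  have k : ∀ ω : Finset (Sym2 V),
      keep (ω.map ⟨Sym2.map φ, Sym2.map.injective φ.injective⟩) (ins A') =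
        (keep ω (ins A)).map ⟨Sym2.map φ, Sym2.map.injective φ.injective⟩ := by
    intro ω
    ext e
    induction e using Sym2.ind with
    | h a b =>
      obtain ⟨a, rfl⟩ := φ.surjective a
      obtain ⟨b, rfl⟩ := φ.surjective b
      have : s(φ a, φ b) = (⟨Sym2.map φ, Sym2.map.injective φ.injective⟩ : _ ↪ _) s(a, b) := rfl
      rw [mem_keep, mk_mem_ins, hA, hA, this, mem_map', mem_map', mem_keep, mk_mem_ins]
  have hS : ∀ v, φ v ∈ c.Bl (φ x) r ↔ v ∈ c.Bl x r := fun v => by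
    simp only [Bl, Set.mem_setOf_eq, c.d_equiv φ hφ]
  unfold fl
  rw [e, Ex_map]
  refine Ex_congr fun ω _ => ind_congr (not_congr ?_)
  rw [k]
  constructor
  · rintro ⟨a, ha, b, hb, hc⟩
    exact ⟨_, (hS _).1 (by simpa using ha), _, (hT _).1 (by simpa using hb), conn_of_map φ _ hc⟩
  · rintro ⟨a, ha, b, hb, hc⟩
    exact ⟨_, (hS _).2 ha, _, (hT _).2 hb, conn_map φ _ hc⟩

theorem fl_cyl (p : ℝ) {x : V} (hx : x ∈ c.Ty) (N r : ℕ) (A T : Set (ℤ × ℤ)) :
    c.fl p x N r (c.cyl x A) (c.cyl x T) = c.fm p N r A T := by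
  obtain ⟨φ, h1, rfl, h3, h4⟩ := c.hom x hx
  exact c.fl_equiv φ h1 p c.o N r (fun v => by simp only [cyl, Set.mem_setOf_eq, h3, h4])
    fun v => by simp only [cyl, Set.mem_setOf_eq, h3, h4]

theorem fl_uu (p : ℝ) {x : V} (hx : x ∈ c.Ty) (r n : ℕ) :
    c.fl p x n r Set.univ {v | n ≤ c.G.dist x v} = c.uu p r n := by
  obtain ⟨φ, h1, rfl, -, -⟩ := c.hom x hx
  exact c.fl_equiv φ h1 p c.o n r (fun v => Iff.rfl)
    fun v => by simp only [Set.mem_setOf_eq, c.d_equiv φ h1]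

/-- leaving a ball: a path to distance `n` can be found inside the ball of radius `n` -/
theorem link_ball {ω : Finset (Sym2 V)} (hL : LatG c.G ω) {x : V} {n : ℕ} {S T : Set V}
    (hS : S ⊆ c.Bl x n) (h : link ω S T) (hT : ∀ y ∈ T, n ≤ c.G.dist x y) :
    link (keep ω (ins (c.Bl x n))) S {v | c.G.dist x v = n} := by
  rw [← keep_univ ω] at h
  refine first_hit (T := {v | n ≤ c.G.dist x v}) hL (h.mono subset_rfl subset_rfl hT)
    (fun y _ hy => ?_) (fun y _ hy z _ hz a => ?_) fun y hy hy' => le_antisymm (hS hy) hy'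
  · exact (not_le.1 (show ¬ n ≤ c.G.dist x y from hy)).le
  · have a1 := c.d_tri x y z
    have a2 := c.d_adj a
    have a3 : ¬ n ≤ c.G.dist x y := hy
    have a4 : n ≤ c.G.dist x z := hz
    exact ⟨show c.G.dist x z ≤ n by omega, show c.G.dist x z = n by omega⟩

/-- Harris: the square root trick for two link events -/
theorem fl_mul {p : ℝ} (h0 : 0 ≤ p) (h1 : p ≤ 1) {x : V} {N r : ℕ} {A A1 A2 T T1 T2 : Set V}
    (h : ∀ ω ⊆ EG c.G (c.ballF x N), link (keep ω (ins A)) (c.Bl x r) T →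
      link (keep ω (ins A1)) (c.Bl x r) T1 ∨ link (keep ω (ins A2)) (c.Bl x r) T2) :
    c.fl p x N r A1 T1 * c.fl p x N r A2 T2 ≤ c.fl p x N r A T := by
  refine (harris_anti (P01_const h0 h1) _ _ _ (nlink_anti _ _ _) (nlink_anti _ _ _)).trans
    (Ex_mono (P01_const h0 h1) fun ω hω => ?_)
  rw [← ind_and]
  exact ind_mono fun a b => (h ω hω b).elim a.1 a.2

/-- Harris: the square root trick for three link events -/
theorem fl_mul3 {p : ℝ} (h0 : 0 ≤ p) (h1 : p ≤ 1) {x : V} {N r : ℕ}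
    {A A1 A2 A3 T T1 T2 T3 : Set V}
    (h : ∀ ω ⊆ EG c.G (c.ballF x N), link (keep ω (ins A)) (c.Bl x r) T →
      link (keep ω (ins A1)) (c.Bl x r) T1 ∨ link (keep ω (ins A2)) (c.Bl x r) T2 ∨
        link (keep ω (ins A3)) (c.Bl x r) T3) :
    c.fl p x N r A1 T1 * (c.fl p x N r A2 T2 * c.fl p x N r A3 T3) ≤ c.fl p x N r A T := by
  have hp := P01_const (ι := Sym2 V) h0 h1
  refine (mul_le_mul_of_nonneg_left (harris_anti hp _ _ _ (nlink_anti A2 _ T2)
    (nlink_anti A3 _ T3)) (c.fl_nonneg h0 h1 _ _ _ _ _)).trans ?_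
  refine (harris_anti hp _ _ _ (nlink_anti A1 _ T1) ?_).trans (Ex_mono hp fun ω hω => ?_)
  · intro S T hST
    exact mul_le_mul (nlink_anti A2 _ T2 hST) (nlink_anti A3 _ T3 hST) (ind_nonneg _)
      (ind_nonneg _)
  · rw [← ind_and, ← ind_and]
    exact ind_mono fun a b => (h ω hω b).elim a.1 fun d => d.elim a.2.1 a.2.2

/-- with the seed ball open, the centre is linked at least as often as the ball was -/
theorem seed_le {p : ℝ} (h0 : 0 ≤ p) (h1 : p ≤ 1) {F η : Finset (Sym2 V)} (hL : LatG c.G F)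
    {x : V} {N r : ℕ} (hr : r ≤ N)
    (hF : ∀ a ∈ c.Bl x N, ∀ b ∈ c.Bl x N, c.G.Adj a b → s(a, b) ∈ F)
    (hη : EG c.G (c.ballF x r) ⊆ η) {A W T : Set V} (hW : c.Bl x r ⊆ W)
    (hA : ∀ y ∈ A, y ∈ c.Bl x N → y ∈ W) :
    Ex F (upd (fun _ => p) (ins (c.Bl x r)) η) (fun ω => ind (¬ RR ω W x T)) ≤
      c.fl p x N r A T := by
  rw [← c.fl_eq (q := fun _ => p) hL (fun a ha b hb hab => ⟨hF a ha b hb hab, rfl⟩) r A T, Ex_upd]
  refine Ex_mono (P01_const h0 h1) fun ω hω => ind_mono fun h ⟨a, ha, b, hb, hc⟩ => h ?_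
  have k : ∀ u ∈ c.Bl x r, ∀ v ∈ c.Bl x r, c.G.Adj u v →
      s(u, v) ∈ keep (η ∩ F) (ins (c.Bl x r)) := fun u hu v hv huv =>
    mem_keep.2 ⟨mem_inter.2 ⟨hη (mk_mem_EG.2 ⟨⟨c.mem_ballF'.2 hu, c.mem_ballF'.2 hv⟩, huv⟩),
      hF u (c.Bl_mono x hr hu) v (c.Bl_mono x hr hv) huv⟩, mk_mem_ins.2 ⟨hu, hv⟩⟩
  refine ⟨x, rfl, b, hb, (c.conn_ball (n := r) (fun e he => ?_) a ha).trans
    (hc.mono fun e he => ?_)⟩
  · induction e using Sym2.ind with
    | h u v =>
      have := mk_mem_EG.1 he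
      have hu := c.mem_ballF'.1 this.1.1
      have hv := c.mem_ballF'.1 this.1.2
      exact mem_keep.2 ⟨mem_union_left _ (k u hu v hv this.2), mk_mem_ins.2 ⟨hW hu, hW hv⟩⟩
  · induction e using Sym2.ind with
    | h u v =>
      have e1 := mem_keep.1 he
      have e2 := mk_mem_ins.1 e1.2
      refine mem_keep.2 ⟨?_, mk_mem_ins.2 ⟨hA u e2.1.2 e2.1.1, hA v e2.2.2 e2.2.1⟩⟩
      by_cases d : s(u, v) ∈ ins (c.Bl x r)
      · have d' := mk_mem_ins.1 d
        exact mem_union_left _ (k u d'.1 v d'.2 (hL _ _ (hω e1.1)))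
      · exact mem_union_right _ (mem_del.2 ⟨e1.1, d⟩)

/-- conversely the ball is linked whenever the centre is, whatever the state of the seed -/
theorem seed_ge {p : ℝ} (h0 : 0 ≤ p) (h1 : p ≤ 1) (η : Finset (Sym2 V)) (x : V) (N r : ℕ)
    (A T : Set V) :
    c.fl p x N r A T ≤ Ex (EG c.G (c.ballF x N)) (upd (fun _ => p) (ins (c.Bl x r)) η)
      (fun ω => ind (¬ RR ω A x T)) := by
  rw [Ex_upd]
  refine Ex_mono (P01_const h0 h1) fun ω _ => ind_mono fun h ⟨a, ha, b, hb, hc⟩ => h ?_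
  obtain rfl : a = x := ha
  have : ∃ y ∈ c.Bl a r, conn (keep ω (ins A)) y b := by
    clear hb
    induction hc with
    | refl => exact ⟨a, c.self_mem_Bl a r, conn_refl _ _⟩
    | @tail u v _ he ih =>
      obtain ⟨y, hy, k⟩ := ih
      have e1 := mem_keep.1 he
      rcases mem_union.1 e1.1 with d | d
      · exact ⟨v, (mk_mem_ins.1 (mem_keep.1 d).2).2, conn_refl _ _⟩
      · exact ⟨y, hy, k.trans (conn_edge (mem_keep.2 ⟨(mem_del.1 d).1, e1.2⟩))⟩
  obtain ⟨y, hy, k⟩ := this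
  exact ⟨y, hy, b, hb, k⟩

end Cfg

end Vale.Agent.P151Q
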