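import Vale.Agent.P151Q.Base

/-! The chain lemma on graphs. -/

set_option linter.unusedSectionVars false

namespace Vale.Agent.P151Q

open Finset Vale.Agent.P151

namespace ChainM

variable {V : Type} [DecidableEq V] (c : Cfg V)

theorem entry_bd {ω : Finset (Sym2 V)} (hL : LatG c.G ω) {S : Set V} {j : ℕ} {o z : V}
    (ho : o ∉ c.Th S (j + 1)) (h : conn (del ω (ins (c.Th S (j + 1)))) o z) : z ∉ c.Th S j := by
  intro hz'
  have hz := c.Th_mono S (Nat.le_succ j) hz'
  rcases Relation.ReflTransGen.cases_tail h with rfl | ⟨u, _, h2⟩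
  · exact ho hz
  · have h3 := mem_del.1 h2
    refine h3.2 (mk_mem_ins.2 ⟨?_, hz⟩)
    obtain ⟨y, hy, a1⟩ := hz'
    have a2 := c.d_adj (hL _ _ h3.1).symm
    have a3 := c.d_tri y z u
    exact ⟨y, hy, by omega⟩

open Classical in
noncomputable def Nf {S : Set V} (hS : S.Finite) (j : ℕ) (o : V) (ξ : Finset (Sym2 V)) : Finset V :=
  (c.Th_finite hS j).toFinset.filter fun z => conn ξ o z

variable {c} in
theorem mem_Nf {S : Set V} {hS : S.Finite} {j : ℕ} {o z : V} {ξ : Finset (Sym2 V)} :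
    z ∈ Nf c hS j o ξ ↔ z ∈ c.Th S j ∧ conn ξ o z := by
  simp [Nf]

theorem card_touch {F : Finset (Sym2 V)} (hL : LatG c.G F) (N : Finset V) :
    (keep F (touch (N : Set V))).card ≤ c.β 1 * N.card := by
  have : keep F (touch (N : Set V)) ⊆
      N.biUnion fun v => (c.ballF v 1).image fun u => s(v, u) := by
    intro e he
    obtain ⟨h1, v, hv, h2⟩ := mem_keep.1 he
    obtain ⟨u, rfl⟩ := Sym2.mem_iff_exists.1 h2
    exact mem_biUnion.2 ⟨v, hv, mem_image.2 ⟨u, (c.mem_ballF _ _ _).2 (c.d_adj (hL _ _ h1)), rfl⟩⟩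
  refine (card_le_card this).trans (card_biUnion_le.trans ?_)
  rw [mul_comm]
  exact sum_le_card_nsmul _ _ _ fun v _ => card_image_le.trans (c.card_ballF v 1)

/-- few entry points at some shell are unlikely -/
theorem shell {F : Finset (Sym2 V)} (hL : LatG c.G F) {q : Sym2 V → ℝ} (hq : P01 q) {p : ℝ}
    (hp0 : 0 ≤ p) (hp1 : p < 1) {S : Set V} (hS : S.Finite) (o : V) (r K M : ℕ) (hK : 0 < K)
    (ho : o ∉ c.Th S (r + K)) (hF : FreshG c.G F q p (c.Th S (r + K))) :
    ∃ j : ℕ, r < j ∧ j ≤ r + K ∧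
      Ex F q (fun ω => ind ((Nf c hS j o (del ω (ins (c.Th S j)))).Nonempty ∧
        (Nf c hS j o (del ω (ins (c.Th S j)))).card ≤ M)) ≤ 1 / ((1 - p) ^ (c.β 1 * M) * K) := by
  set R : ℕ → Finset (Sym2 V) → Prop := fun j ω => ∃ z ∈ c.Th S (r + j), conn ω o z
  set b : ℕ → ℝ := fun j => Ex F q (fun ω => ind ((Nf c hS (r + j + 1) o
    (del ω (ins (c.Th S (r + j + 1))))).Nonempty ∧
    (Nf c hS (r + j + 1) o (del ω (ins (c.Th S (r + j + 1))))).card ≤ M)) with hb
  have hc : 0 < (1 - p) ^ (c.β 1 * M) := pow_pos (by linarith) _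
  have key : ∀ j < K, (1 - p) ^ (c.β 1 * M) * b j ≤
      Ex F q (fun ω => ind (R (j + 1) ω) - ind (R j ω)) := by
    intro j hj
    set w' : ℕ := r + j + 1 with hw'
    have hsub : c.Th S w' ⊆ c.Th S (r + K) := c.Th_mono S (by omega)
    have h1 := indep2 q (ins (c.Th S w')) F (fun a ξ => ind ((Nf c hS w' o ξ).Nonempty ∧
      (Nf c hS w' o ξ).card ≤ M) *
        ind (Disjoint (keep (keep F (touch (Nf c hS w' o ξ : Set V))) (ins (c.Th S w'))) a))
    rw [Ex_comm] at h1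
    refine le_trans ?_ (le_trans h1.ge (Ex_mono hq fun ω hω => ?_))
    · rw [hb]
      dsimp only
      rw [← Ex_mul_left]
      refine Ex_mono hq fun ω _ => ?_
      rw [Ex_mul_left, mul_comm]
      by_cases c1 : (Nf c hS w' o (del ω (ins (c.Th S w')))).Nonempty ∧
        (Nf c hS w' o (del ω (ins (c.Th S w')))).card ≤ M
      · rw [ind_pos c1, one_mul, one_mul]
        set A := keep (keep F (touch (Nf c hS w' o (del ω (ins (c.Th S w'))) : Set V)))
          (ins (c.Th S w')) with hA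
        have e1 : ∀ η : Finset (Sym2 V),
            ind (Disjoint A (keep η (ins (c.Th S w')))) = ind (Disjoint A η) := by
          intro η
          refine ind_congr ⟨fun h => disjoint_left.2 fun e he he' =>
            disjoint_left.1 h he (mem_keep.2 ⟨he', (mem_keep.1 he).2⟩),
            fun h => h.mono_right (keep_subset _ _)⟩
        simp only [e1]
        rw [Ex_none q F A ((keep_subset _ _).trans (keep_subset _ _)),
          prod_congr rfl (g := fun _ => 1 - p), prod_const]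
        · refine pow_le_pow_of_le_one (by linarith) (by linarith) ?_
          exact (card_le_card (keep_subset _ _)).trans
            ((card_touch c hL _).trans (Nat.mul_le_mul_left _ c1.2))
        · intro e he
          induction e using Sym2.ind with
          | h x y =>
            have h2 := mem_keep.1 he
            have h3 := mk_mem_ins.1 h2.2
            rw [(hF _ (hsub h3.1) _ (hsub h3.2) (hL _ _ (mem_keep.1 h2.1).1)).2]
      · rw [ind_neg c1, zero_mul, zero_mul]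
    · have mono : ind (R j ω) ≤ ind (R (j + 1) ω) := ind_mono fun ⟨z, hz, h⟩ =>
        ⟨z, c.Th_mono S (by omega) hz, h⟩
      rw [← ind_and]
      by_cases c1 : ((Nf c hS w' o (del ω (ins (c.Th S w')))).Nonempty ∧
        (Nf c hS w' o (del ω (ins (c.Th S w')))).card ≤ M) ∧ Disjoint (keep (keep F
          (touch (Nf c hS w' o (del ω (ins (c.Th S w'))) : Set V))) (ins (c.Th S w')))
          (keep ω (ins (c.Th S w')))
      · have h2 : ∀ v, conn ω o v → conn (del ω (ins (c.Th S w'))) o v := by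
          intro v hv
          induction hv with
          | refl => exact conn_refl _ _
          | @tail u v _ h2 ih =>
            refine ih.trans (conn_edge (mem_del.2 ⟨h2, fun h3 => ?_⟩))
            exact disjoint_left.1 c1.2 (mem_keep.2 ⟨mem_keep.2 ⟨hω h2, u,
              mem_coe.2 (mem_Nf.2 ⟨(mk_mem_ins.1 h3).1, ih⟩), by simp⟩, h3⟩) (mem_keep.2 ⟨h2, h3⟩)
        obtain ⟨z, hz⟩ := c1.1.1
        rw [ind_pos c1, ind_pos (P := R (j + 1) ω)
          ⟨z, (mem_Nf.1 hz).1, (mem_Nf.1 hz).2.mono (del_subset _ _)⟩, ind_neg, sub_zero]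
        rintro ⟨y, hy, h3⟩
        exact entry_bd c (hL.mono hω) (fun h => ho (hsub h)) (h2 y h3) hy
      · rw [ind_neg c1]; linarith
  have tot : ∑ j ∈ range K, (1 - p) ^ (c.β 1 * M) * b j ≤ 1 := by
    refine (sum_le_sum fun j hj => key j (mem_range.1 hj)).trans ?_
    rw [← Ex_sum]
    refine Ex_le_const hq fun ω _ => ?_
    rw [sum_range_sub (fun j => ind (R j ω))]
    linarith [ind_le_one (R K ω), ind_nonneg (R 0 ω)]
  have : ∃ j ∈ range K, (1 - p) ^ (c.β 1 * M) * b j ≤ 1 / K := by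
    refine exists_le_of_sum_le (nonempty_range_iff.2 hK.ne') (tot.trans (le_of_eq ?_))
    rw [sum_const, card_range, nsmul_eq_mul]
    field_simp
  obtain ⟨j, hj, h⟩ := this
  refine ⟨r + j + 1, by omega, by have := mem_range.1 hj; omega, ?_⟩
  have hK' : (0 : ℝ) < K := by exact_mod_cast hK
  rw [le_div_iff₀ hK'] at h
  rw [le_div_iff₀ (mul_pos hc hK')]
  linarith

theorem exists_far (g M' : ℕ) : ∀ N : Finset V, c.β g * M' < N.card →
    ∃ N' ⊆ N, N'.card = M' ∧ ∀ z ∈ N', ∀ z' ∈ N', z ≠ z' → g < c.G.dist z z' := by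
  induction M' with
  | zero => exact fun N _ => ⟨∅, empty_subset _, rfl, by simp⟩
  | succ M' ih =>
    intro N h
    obtain ⟨z, hz⟩ := card_pos.1 (show 0 < N.card by omega)
    have h1 := le_card_sdiff (c.ballF z g) N
    have h2 := c.card_ballF z g
    rw [mul_add] at h
    obtain ⟨N', k1, k2, k3⟩ := ih (N \ c.ballF z g) (by omega)
    have k4 : ∀ y ∈ N', g < c.G.dist z y := fun y hy =>
      not_le.1 fun h => (mem_sdiff.1 (k1 hy)).2 ((c.mem_ballF _ _ _).2 h)
    refine ⟨insert z N', insert_subset hz (k1.trans sdiff_subset), ?_, fun a ha b hb hab => ?_⟩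
    · rw [card_insert_of_notMem fun h => by simpa using k4 z h, k2]
    · rcases mem_insert.1 ha with rfl | ha' <;> rcases mem_insert.1 hb with rfl | hb'
      · exact absurd rfl hab
      · exact k4 b hb'
      · rw [c.d_comm]; exact k4 a ha'
      · exact k3 a ha' b hb' hab

theorem exists_sub (f : V → ℝ) (hf : ∀ z, f z ≤ 1) (l : ℝ) (hl : 0 ≤ l) (A : Finset V)
    (h : l ≤ ∑ z ∈ A, f z) : ∃ B ⊆ A, l ≤ ∑ z ∈ B, f z ∧ ∑ z ∈ B, f z ≤ l + 1 := by
  induction A using Finset.induction_on with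
  | empty => exact ⟨∅, subset_rfl, h, by simp; linarith⟩
  | insert a A ha ih =>
    by_cases k : l ≤ ∑ z ∈ A, f z
    · obtain ⟨B, h1, h2⟩ := ih k
      exact ⟨B, h1.trans (subset_insert _ _), h2⟩
    · refine ⟨_, subset_rfl, h, ?_⟩
      rw [sum_insert ha]
      linarith [hf a]

theorem seed {S : Set V} {r j : ℕ} (hj : r + c.ρ ≤ j) (z : V) : ∃ x, z ∈ c.Th S j →
    x ∈ c.Ty ∧ x ∈ c.Th S j ∧ ∀ ω : Finset (Sym2 V), (∀ a ∈ c.Bl z (2 * r + 2 * c.ρ) ∩ c.Th S j,
      ∀ b ∈ c.Bl z (2 * r + 2 * c.ρ) ∩ c.Th S j, c.G.Adj a b → s(a, b) ∈ ω) →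
      ∀ v ∈ c.Bl x r, conn ω z v := by
  by_cases hz : z ∈ c.Th S j
  swap
  · exact ⟨z, fun h => absurd h hz⟩
  obtain ⟨y, hy, h1⟩ := hz
  obtain ⟨z', h2, h3⟩ : ∃ z', c.G.dist y z' + (r + c.ρ) ≤ j ∧ c.G.dist z' z ≤ r + c.ρ := by
    by_cases k : c.G.dist y z ≤ r + c.ρ
    · exact ⟨y, by simpa using hj, k⟩
    · obtain ⟨z', k1, k2⟩ := c.d_split y (c.G.dist y z - (r + c.ρ)) (r + c.ρ) z (by omega)
      exact ⟨z', by omega, k2.le⟩
  obtain ⟨x, hx, h4⟩ := c.dense z'
  have h5 := c.d_tri y z' x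
  have h6 := c.d_comm z z'
  have h7 := c.d_tri z z' x
  refine ⟨x, fun _ => ⟨hx, ⟨y, hy, by omega⟩, fun ω hω v hv => ?_⟩⟩
  have hv' : c.G.dist x v ≤ r := hv
  refine ((c.conn_geo hω z' fun w hw => ?_).trans (c.conn_geo hω x fun w hw => ?_)).trans
    (c.conn_geo hω v fun w hw => ?_)
  · have := c.d_tri y z' w
    have := c.d_comm w z'
    exact ⟨show c.G.dist z w ≤ _ by omega, y, hy, by omega⟩
  · have := c.d_tri y z' w
    have := c.d_tri z z' w
    exact ⟨show c.G.dist z w ≤ _ by omega, y, hy, by omega⟩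
  · have := c.d_tri y x w
    have := c.d_tri z x w
    exact ⟨show c.G.dist z w ≤ _ by omega, y, hy, by omega⟩

theorem chain0 {F : Finset (Sym2 V)} (hL : LatG c.G F) {q : Sym2 V → ℝ} (hq : P01 q) {p : ℝ}
    (hp0 : 0 ≤ p) (hp1 : p < 1) {S0 : Set V} (hS0 : S0.Finite) (o : V) (r n K M' : ℕ) (hK : 0 < K)
    {δ l : ℝ} (hδ : 0 < δ) (hl : 0 ≤ l) (hM' : l ≤ M' * p ^ (c.β (2 * r + 2 * c.ρ) ^ 2))
    (T W : Set V) (ho : o ∉ c.Th S0 (r + c.ρ + K)) (hF : FreshG c.G F q p (c.Th S0 (r + c.ρ + K)))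
    (hW : GeG c.G F q p W)
    (hT : ∀ x ∈ c.Ty, x ∈ c.Th S0 (r + c.ρ + K) → c.fl p x n r W T ≤ δ ^ 2) :
    Ex F q (fun ω => ind (link ω {o} S0 ∧ ¬ link ω {o} T)) ≤
      1 / ((1 - p) ^ (c.β 1 * (c.β (4 * r + 4 * c.ρ) * M')) * K) + Real.exp (-l) +
        (l + 1) * δ + δ := by
  classical
  obtain ⟨w', hj1, hj2, hj⟩ := shell c hL hq hp0 hp1 hS0 o (r + c.ρ) K
    (c.β (4 * r + 4 * c.ρ) * M') hK ho hF
  set M := c.β (4 * r + 4 * c.ρ) * M' with hM
  have hsub : c.Th S0 w' ⊆ c.Th S0 (r + c.ρ + K) := c.Th_mono S0 hj2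
  set U := ins (c.Th S0 w') with hU
  set bad : V → Finset (Sym2 V) → ℝ := fun z η =>
    Ex F (upd q U η) (fun ω => ind (¬ link ω {z} T)) with hbad
  set A : Finset (Sym2 V) → Finset V := fun η =>
    (c.Th_finite hS0 w').toFinset.filter fun z => bad z η ≤ δ with hA
  have h4 : Ex F q (fun ω => ind (∀ t ∈ T, t ∉ cl ω {o}) * ind (o ∈ cl ω (A (keep ω U)))) ≤ δ := by
    rw [tower q U F (fun η ω => ind (∀ t ∈ T, t ∉ cl ω {o}) * ind (o ∈ cl ω (A η)))]
    refine Ex_le_const hq fun η _ => ?_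
    have hq' := upd_P01 hq U η
    refine (glue F o hq' (g := fun K => ind (∀ t ∈ T, t ∉ K))
      (fun _ _ h => ind_mono fun h1 t ht h2 => h1 t ht (h h2)) (A (keep η U)) δ ?_ ?_).trans ?_
    · intro a ha
      have := (mem_filter.1 ha).2
      simp only [hbad, upd_keep] at this
      refine le_trans (le_of_eq (Ex_congr fun ω _ => ind_congr ?_)) this
      simp [link, mem_cl_single]
    · exact fun h => ho (hsub ((Set.Finite.mem_toFinset _).1 (mem_filter.1 h).1))
    · have : Ex F (upd q U η) (fun ω => ind (o ∈ cl ω (A (keep η U)))) ≤ 1 :=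
        Ex_le_const hq' fun _ _ => ind_le_one _
      nlinarith
  have h5 : Ex F q (fun ω => ind (M < (Nf c hS0 w' o (del ω U)).card ∧
      ∀ z ∈ Nf c hS0 w' o (del ω U), z ∉ A (keep ω U))) ≤ Real.exp (-l) + (l + 1) * δ := by
    rw [indep2 q U F (fun a ξ => ind (M < (Nf c hS0 w' o ξ).card ∧ ∀ z ∈ Nf c hS0 w' o ξ, z ∉ A a)),
      Ex_comm]
    refine Ex_le_const hq fun ω _ => ?_
    set N := Nf c hS0 w' o (del ω U) with hN
    by_cases c1 : M < N.card
    swap
    · refine Ex_le_const hq fun η _ => ?_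
      rw [ind_neg fun h => c1 h.1]
      positivity
    obtain ⟨N1, hN1', hN2, hN3⟩ := exists_far c (4 * r + 4 * c.ρ) M' N c1
    choose x hx using seed c (S := S0) hj1.le
    set S : V → Finset (Sym2 V) := fun z =>
      EG c.G ((c.ballF z (2 * r + 2 * c.ρ)).filter (· ∈ c.Th S0 w')) with hS
    have hS1 : ∀ z, ∀ e ∈ S z, e ∈ F ∧ q e = p ∧ e ∈ U := by
      intro z e he
      induction e using Sym2.ind with
      | h a b =>
        have h1 := mk_mem_EG.1 he
        have h2 := (mem_filter.1 h1.1.1).2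
        have h3 := (mem_filter.1 h1.1.2).2
        have := hF _ (hsub h2) _ (hsub h3) h1.2
        exact ⟨this.1, this.2, mk_mem_ins.2 ⟨h2, h3⟩⟩
    have hS2 : ∀ z, ∏ e ∈ S z, q e = p ^ (S z).card := fun z => by
      rw [prod_congr rfl fun e he => (hS1 z e he).2.1, prod_const]
    obtain ⟨N', hN0, hs1, hs2⟩ := exists_sub (fun z => p ^ (S z).card)
      (fun _ => pow_le_one₀ hp0 hp1.le) l hl N1 (by
        refine hM'.trans ?_
        rw [← hN2, ← nsmul_eq_mul]
        refine card_nsmul_le_sum _ _ _ fun z _ => pow_le_pow_of_le_one hp0 hp1.le ?_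
        exact (card_EG _ _).trans (Nat.pow_le_pow_left
          ((card_filter_le _ _).trans (c.card_ballF _ _)) 2))
    have hN1 := hN0.trans hN1'
    have hb : ∀ z ∈ N', Ex F q (fun η => ind (S z ⊆ η) * ind (z ∉ A (keep η U))) ≤
        p ^ (S z).card * δ := by
      intro z hz
      have hz' : z ∈ c.Th S0 w' := (mem_Nf.1 (hN1 hz)).1
      obtain ⟨x1, x2, x3⟩ := hx z hz'
      have a1 : Ex F q (fun η => ind (S z ⊆ η) * ind (z ∉ A (keep η U))) * δ ≤
          Ex F q (fun η => Ex F (upd q U η)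
            ((fun a ω => ind (S z ⊆ a) * ind (¬ link ω {z} T)) (keep η U))) := by
        rw [← Ex_mul_right]
        refine Ex_mono hq fun η _ => ?_
        dsimp only
        rw [Ex_mul_left, mul_assoc, ind_congr (P := S z ⊆ keep η U) (Q := S z ⊆ η)
          ⟨fun h => h.trans (keep_subset _ _),
            fun h e he => mem_keep.2 ⟨h he, (hS1 z e he).2.2⟩⟩]
        refine mul_le_mul_of_nonneg_left ?_ (ind_nonneg _)
        by_cases c2 : z ∈ A (keep η U)
        · rw [ind_neg (not_not.2 c2), zero_mul]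
          exact Ex_nonneg (upd_P01 hq _ _) fun _ _ => ind_nonneg _
        · rw [ind_pos c2, one_mul]
          have : ¬ bad z (keep η U) ≤ δ := fun h => c2 (mem_filter.2 ⟨(Set.Finite.mem_toFinset _).2 hz', h⟩)
          simp only [hbad, upd_keep] at this
          exact (not_le.1 this).le
      rw [← tower q U F (fun a ω => ind (S z ⊆ a) * ind (¬ link ω {z} T))] at a1
      have a2 : Ex F q (fun ω => ind (S z ⊆ keep ω U) * ind (¬ link ω {z} T)) ≤
          Ex F q (fun ω => ind (S z ⊆ ω) *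
            ind (¬ link (keep ω (ins (c.Bl (x z) n ∩ W))) (c.Bl (x z) r) T)) := by
        refine Ex_mono hq fun ω _ => ?_
        rw [← ind_and, ← ind_and]
        refine ind_mono fun h => ⟨h.1.trans (keep_subset _ _), ?_⟩
        rintro ⟨s, hs, t, ht, hc⟩
        have h1 := x3 ω (fun a ha b hb hab => keep_subset _ _ (h.1 (mk_mem_EG.2
          ⟨⟨mem_filter.2 ⟨c.mem_ballF'.2 ha.1, ha.2⟩, mem_filter.2 ⟨c.mem_ballF'.2 hb.1, hb.2⟩⟩,
            hab⟩))) s hs
        exact h.2 ⟨z, rfl, t, ht, h1.trans (hc.mono (keep_subset _ _))⟩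
      have a3 := harris_mixed hq F (fun ω => ind (S z ⊆ ω))
        (fun ω => ind (¬ link (keep ω (ins (c.Bl (x z) n ∩ W))) (c.Bl (x z) r) T))
        (fun _ _ h => ind_mono fun h1 => h1.trans h) (nlink_anti _ _ _)
      rw [Ex_all q F _ (fun e he => (hS1 z e he).1), hS2] at a3
      have a4 := (c.Ex_le_fl hp0 hp1.le hq hL (x := x z) (N := n)
        (hW.mono Set.inter_subset_right) r T).trans (hT (x z) x1 (hsub x2))
      have a5 := mul_le_mul_of_nonneg_left a4 (pow_nonneg hp0 (S z).card)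
      refine le_of_mul_le_mul_right (a1.trans (a2.trans (a3.trans (a5.trans (le_of_eq ?_))))) hδ
      ring
    have hpt : ∀ η : Finset (Sym2 V), ind (M < N.card ∧ ∀ z ∈ N, z ∉ A (keep η U)) ≤
        ∏ z ∈ N', (1 - ind (S z ⊆ η)) + ∑ z ∈ N', ind (S z ⊆ η) * ind (z ∉ A (keep η U)) := by
      intro η
      have n1 : 0 ≤ ∏ z ∈ N', (1 - ind (S z ⊆ η)) :=
        prod_nonneg fun _ _ => sub_nonneg.2 (ind_le_one _)
      have n2 : ∀ z ∈ N', 0 ≤ ind (S z ⊆ η) * ind (z ∉ A (keep η U)) :=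
        fun _ _ => mul_nonneg (ind_nonneg _) (ind_nonneg _)
      by_cases c2 : M < N.card ∧ ∀ z ∈ N, z ∉ A (keep η U)
      · rw [ind_pos c2]
        by_cases c3 : ∃ z ∈ N', S z ⊆ η
        · obtain ⟨z, hz, h⟩ := c3
          have := single_le_sum n2 hz
          rw [ind_pos h, ind_pos (c2.2 z (hN1 hz))] at this
          linarith
        · rw [prod_eq_one fun z hz => by rw [ind_neg fun h => c3 ⟨z, hz, h⟩, sub_zero]]
          linarith [sum_nonneg n2]
      · rw [ind_neg c2]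
        linarith [sum_nonneg n2]
    refine (Ex_mono hq fun η _ => hpt η).trans ?_
    rw [Ex_add, Ex_sum, Ex_prod_all q F S N' (fun z _ e he => (hS1 z e he).1),
      prod_congr rfl fun z _ => by rw [hS2 z]]
    · have k1 := sum_le_sum hb
      rw [← sum_mul] at k1
      have k2 : ∏ z ∈ N', (1 - p ^ (S z).card) ≤ Real.exp (-l) := by
        refine (prod_le_prod (fun _ _ => sub_nonneg.2 (pow_le_one₀ hp0 hp1.le))
          fun z _ => Real.one_sub_le_exp_neg _).trans ?_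
        rw [← Real.exp_sum, sum_neg_distrib]
        exact Real.exp_le_exp.2 (neg_le_neg hs1)
      nlinarith [mul_le_mul_of_nonneg_right hs2 hδ.le]
    · intro z hz z' hz' hne
      have hk := hN3 z (hN0 hz) z' (hN0 hz') hne
      refine disjoint_left.2 fun e he he' => ?_
      induction e using Sym2.ind with
      | h a b =>
        have b1 := (c.mem_ballF _ _ _).1 (mem_filter.1 (mk_mem_EG.1 he).1.1).1
        have b2 := (c.mem_ballF _ _ _).1 (mem_filter.1 (mk_mem_EG.1 he').1.1).1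
        have b3 := c.d_tri z a z'
        have b4 := c.d_comm a z'
        omega
  refine le_trans (Ex_mono hq (g := fun ω =>
    ind ((Nf c hS0 w' o (del ω U)).Nonempty ∧ (Nf c hS0 w' o (del ω U)).card ≤ M) +
    ind (M < (Nf c hS0 w' o (del ω U)).card ∧ ∀ z ∈ Nf c hS0 w' o (del ω U), z ∉ A (keep ω U)) +
    ind (∀ t ∈ T, t ∉ cl ω {o}) * ind (o ∈ cl ω (A (keep ω U)))) fun ω _ => ?_) ?_
  · have n1 := ind_nonneg ((Nf c hS0 w' o (del ω U)).Nonempty ∧ (Nf c hS0 w' o (del ω U)).card ≤ M)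
    have n2 := ind_nonneg (M < (Nf c hS0 w' o (del ω U)).card ∧
      ∀ z ∈ Nf c hS0 w' o (del ω U), z ∉ A (keep ω U))
    have n3 := mul_nonneg (ind_nonneg (∀ t ∈ T, t ∉ cl ω {o}))
      (ind_nonneg (o ∈ cl ω (A (keep ω U))))
    by_cases c1 : link ω {o} S0 ∧ ¬ link ω {o} T
    swap
    · rw [ind_neg c1]; linarith
    rw [ind_pos c1]
    obtain ⟨⟨s, hs, t, ht, hc⟩, c2⟩ := c1
    obtain rfl : s = o := hs
    obtain ⟨z, hz, hz'⟩ := entry (fun h => ho (hsub h)) hc (c.subset_Th S0 w' ht)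
    by_cases c3 : (Nf c hS0 w' s (del ω U)).card ≤ M
    · rw [ind_pos (P := _ ∧ _ ≤ M) ⟨⟨z, mem_Nf.2 ⟨hz, hz'⟩⟩, c3⟩]; linarith
    by_cases c4 : ∀ z ∈ Nf c hS0 w' s (del ω U), z ∉ A (keep ω U)
    · rw [ind_pos (P := M < _ ∧ _) ⟨not_le.1 c3, c4⟩]; linarith
    push Not at c4
    obtain ⟨y, hy, hy'⟩ := c4
    rw [ind_pos (P := ∀ t ∈ T, t ∉ cl ω {s})
      (fun t ht h => c2 ⟨s, rfl, t, ht, mem_cl_single.1 h⟩),
      ind_pos (P := s ∈ cl ω _) ⟨y, hy', ((mem_Nf.1 hy).2.mono (del_subset _ _)).symm⟩]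
    linarith
  · rw [Ex_add, Ex_add]
    linarith

end ChainM

open ChainM in
theorem chainS : StmtChain := by
  intro V _ c p0 ε h0 h1 hε
  have hl : 0 < 4 / ε := by positivity
  refine ⟨(ε / (4 * (4 / ε + 2))) ^ 2, by positivity, fun r => ?_⟩
  have hk : 0 < (p0 / 2) ^ (c.β (2 * r + 2 * c.ρ) ^ 2) := by positivity
  obtain ⟨M', hM'⟩ := exists_nat_ge (4 / ε / (p0 / 2) ^ (c.β (2 * r + 2 * c.ρ) ^ 2))
  rw [div_le_iff₀ hk] at hM'
  have hc : 0 < (1 - p0) ^ (c.β 1 * (c.β (4 * r + 4 * c.ρ) * M')) := pow_pos (by linarith) _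
  obtain ⟨K, hK⟩ := exists_nat_gt (4 / ε / (1 - p0) ^ (c.β 1 * (c.β (4 * r + 4 * c.ρ) * M')))
  have hK0 : (0 : ℝ) < K := lt_trans (by positivity) hK
  rw [div_lt_iff₀ hc, div_lt_iff₀ hε] at hK
  refine ⟨r + c.ρ + K, fun p a1 a2 F q o S T U N hL hq hS ho hF hU hT => ?_⟩
  refine (chain0 c hL hq (by linarith) (by linarith) hS o r N K M' (by exact_mod_cast hK0)
    (by positivity) hl.le (hM'.trans (mul_le_mul_of_nonneg_left
      (pow_le_pow_left₀ (by linarith) a1 _) (Nat.cast_nonneg _))) T U ho hF hU hT).trans ?_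
  have b1 : 1 / ((1 - p) ^ (c.β 1 * (c.β (4 * r + 4 * c.ρ) * M')) * K) ≤ ε / 4 := by
    refine (one_div_le_one_div_of_le (mul_pos hc hK0) (mul_le_mul_of_nonneg_right
      (pow_le_pow_left₀ (by linarith) (by linarith) _) hK0.le)).trans ?_
    rw [div_le_div_iff₀ (mul_pos hc hK0) (by norm_num)]
    linarith
  have b2 : Real.exp (-(4 / ε)) ≤ ε / 4 := by
    rw [Real.exp_neg, ← inv_div 4 ε]
    exact inv_anti₀ hl (by linarith [Real.add_one_le_exp (4 / ε)])
  have b3 : (4 / ε + 1) * (ε / (4 * (4 / ε + 2))) + ε / (4 * (4 / ε + 2)) = ε / 4 := by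
    field_simp
    ring
  linarith

end Vale.Agent.P151Q
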