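import Vale.Agent.P151Q.Base

/-! Many cluster points close to the target force a link to the target. -/

set_option linter.unusedSectionVars false

namespace Vale.Agent.P151Q

open Finset Vale.Agent.P151

namespace ExitM

variable {V : Type} [DecidableEq V]

theorem enter {ω : Finset (Sym2 V)} {S B : Set V} (h : link ω S B) :
    link (del ω (ins B)) S B := by
  obtain ⟨a, ha, b, hb, hc⟩ := h
  by_cases c : a ∈ B
  · exact ⟨a, ha, a, c, conn_refl _ _⟩
  · obtain ⟨z, hz, k⟩ := entry c hc hb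
    exact ⟨a, ha, z, hz, k⟩

def D' (c : Cfg V) (l : ℕ) (S X : Set V) (v : V) (ξ : Finset (Sym2 V)) : Prop :=
  link ξ S (c.Bl v l) ∧ ¬ link ξ S X

def DD (c : Cfg V) (l : ℕ) (S X : Set V) (v : V) (ω : Finset (Sym2 V)) : Prop :=
  EG c.G (c.ballF v l) ⊆ ω ∧ D' c l S X v (del ω (ins (c.Bl v l)))

theorem half (c : Cfg V) {l : ℕ} {S X : Set V} {v w : V} {ω : Finset (Sym2 V)}
    (hd : 2 * l < c.G.dist v w) (hX : ∃ x ∈ X, c.G.dist v x ≤ l)
    (hv : EG c.G (c.ballF v l) ⊆ ω) (h : link (del ω (ins (c.Bl w l))) S (c.Bl v l)) :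
    link (del ω (ins (c.Bl w l))) S X := by
  obtain ⟨x, hx, hx'⟩ := hX
  obtain ⟨a, ha, z, hz, k⟩ := h
  have : EG c.G (c.ballF v l) ⊆ del ω (ins (c.Bl w l)) := by
    intro e he
    refine mem_del.2 ⟨hv he, ?_⟩
    induction e using Sym2.ind with
    | h y y' =>
      intro d
      have a1 : c.G.dist w y ≤ l := (mk_mem_ins.1 d).1
      have a2 : c.G.dist v y ≤ l := (c.mem_ballF _ _ _).1 (mk_mem_EG.1 he).1.1
      have a3 := c.d_tri v y w
      have a4 := c.d_comm y w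
      omega
  exact ⟨a, ha, x, hx, k.trans ((c.conn_ball this z hz).symm.trans (c.conn_ball this x hx'))⟩

theorem incompat (c : Cfg V) {l : ℕ} {S X : Set V} {v w : V} {ω : Finset (Sym2 V)}
    (hXv : ∃ x ∈ X, c.G.dist v x ≤ l) (hXw : ∃ x ∈ X, c.G.dist w x ≤ l)
    (hv : DD c l S X v ω) (hw : DD c l S X w ω) : c.G.dist v w ≤ 2 * l := by
  by_contra hd
  have hd : 2 * l < c.G.dist v w := not_le.1 hd
  have h1 : link ω S (c.Bl v l ∪ c.Bl w l) :=
    hv.2.1.mono (del_subset _ _) subset_rfl Set.subset_union_left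
  obtain ⟨a, ha, z, hz, k⟩ := enter h1
  rcases hz with hz | hz
  · exact hw.2.2 (half c hd hXv hv.1 ⟨a, ha, z, hz,
      k.mono (del_mono subset_rfl (ins_mono Set.subset_union_right))⟩)
  · exact hv.2.2 (half c (by rwa [c.d_comm]) hXw hw.1 ⟨a, ha, z, hz,
      k.mono (del_mono subset_rfl (ins_mono Set.subset_union_left))⟩)

theorem sum_DD (c : Cfg V) {l : ℕ} {S X : Set V} {Gd : Finset V}
    (h : ∀ v ∈ Gd, ∃ x ∈ X, c.G.dist v x ≤ l) (ω : Finset (Sym2 V)) :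
    ∑ v ∈ Gd, ind (DD c l S X v ω) ≤ c.β (2 * l) := by
  classical
  have e : ∑ v ∈ Gd, ind (DD c l S X v ω) = ((Gd.filter fun v => DD c l S X v ω).card : ℝ) := by
    rw [card_filter]
    push_cast
    refine sum_congr rfl fun v _ => ?_
    by_cases d : DD c l S X v ω
    · rw [ind_pos d, if_pos d]
    · rw [ind_neg d, if_neg d]
  rw [e]
  rcases (Gd.filter fun v => DD c l S X v ω).eq_empty_or_nonempty with d | ⟨v, hv⟩
  · rw [d]; simp
  · have hv' := mem_filter.1 hv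
    have : (Gd.filter fun v => DD c l S X v ω) ⊆ c.ballF v (2 * l) := fun w hw =>
      (c.mem_ballF _ _ _).2 (incompat c (h v hv'.1) (h w (mem_filter.1 hw).1) hv'.2
        (mem_filter.1 hw).2)
    exact_mod_cast (card_le_card this).trans (c.card_ballF _ _)

theorem open_ball (c : Cfg V) {p : ℝ} (h0 : 0 < p) (h1 : p ≤ 1) {l : ℕ} {F : Finset (Sym2 V)}
    {q : Sym2 V → ℝ} (hq : P01 q) (S X : Set V) {v : V} (h : GeG c.G F q p (c.Bl v l)) :
    p ^ (c.β l ^ 2) * Ex F q (fun ω => ind (D' c l S X v (del ω (ins (c.Bl v l))))) ≤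
      Ex F q (fun ω => ind (DD c l S X v ω)) := by
  have k : ∀ e ∈ EG c.G (c.ballF v l), e ∈ ins (c.Bl v l) ∧ e ∈ F ∧ p ≤ q e := by
    intro e he
    induction e using Sym2.ind with
    | h y y' =>
      have a := mk_mem_EG.1 he
      have a1 := c.mem_ballF'.1 a.1.1
      have a2 := c.mem_ballF'.1 a.1.2
      exact ⟨mk_mem_ins.2 ⟨a1, a2⟩, h y a1 y' a2 a.2⟩
  have e1 : ∀ ω : Finset (Sym2 V), ind (EG c.G (c.ballF v l) ⊆ keep ω (ins (c.Bl v l))) =
      ind (EG c.G (c.ballF v l) ⊆ ω) := fun ω => ind_congr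
    ⟨fun d => d.trans (keep_subset _ _), fun d e he => mem_keep.2 ⟨d he, (k e he).1⟩⟩
  have e2 := indep q (ins (c.Bl v l)) F (fun ξ => ind (EG c.G (c.ballF v l) ⊆ ξ))
    (fun ξ => ind (D' c l S X v ξ))
  simp only [e1] at e2
  simp only [DD, ind_and]
  rw [e2, Ex_all _ _ _ fun e he => (k e he).2.1]
  refine mul_le_mul_of_nonneg_right ?_ (Ex_nonneg hq fun _ _ => ind_nonneg _)
  calc p ^ (c.β l ^ 2) ≤ p ^ (EG c.G (c.ballF v l)).card :=
        pow_le_pow_of_le_one h0.le h1 (c.card_EG_ball v l)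
    _ = ∏ _e ∈ EG c.G (c.ballF v l), p := (prod_const p).symm
    _ ≤ _ := prod_le_prod (fun _ _ => h0.le) fun e he => (k e he).2.2

end ExitM

open ExitM in
theorem exitS : StmtExit := by
  intro V _ c p η l h0 h1 hη
  have hk : 0 < p ^ (c.β l ^ 2) := pow_pos h0 _
  obtain ⟨M, hM⟩ := exists_nat_gt ((c.β (2 * l) : ℝ) / (p ^ (c.β l ^ 2) * η))
  have hM0 : (0 : ℝ) < M := lt_of_le_of_lt (by positivity) hM
  refine ⟨M, fun F q S X Gd _ hq h => ?_⟩
  have a1 : Ex F q (fun ω => (M : ℝ) *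
      ind (¬ link ω S X ∧ ∃ H ⊆ Gd, M ≤ H.card ∧ ∀ v ∈ H, v ∈ cl ω S)) ≤
      Ex F q (fun ω => ∑ v ∈ Gd, ind (D' c l S X v (del ω (ins (c.Bl v l))))) := by
    refine Ex_mono hq fun ω _ => ?_
    by_cases d : ¬ link ω S X ∧ ∃ H ⊆ Gd, M ≤ H.card ∧ ∀ v ∈ H, v ∈ cl ω S
    · rw [ind_pos d, mul_one]
      obtain ⟨d1, H, d2, d3, d4⟩ := d
      refine le_trans ?_ (sum_le_sum_of_subset_of_nonneg d2 fun _ _ _ => ind_nonneg _)
      have : ∀ v ∈ H, ind (D' c l S X v (del ω (ins (c.Bl v l)))) = 1 := by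
        intro v hv
        obtain ⟨b, hb, hc⟩ := d4 v hv
        exact ind_pos ⟨enter ⟨b, hb, v, c.self_mem_Bl v l, hc⟩,
          fun k => d1 (k.mono (del_subset _ _) subset_rfl subset_rfl)⟩
      rw [sum_congr rfl this]
      simpa using d3
    · rw [ind_neg d, mul_zero]
      exact sum_nonneg fun _ _ => ind_nonneg _
  have a2 : Ex F q (fun ω => ∑ v ∈ Gd, ind (DD c l S X v ω)) ≤ c.β (2 * l) :=
    Ex_le_const hq fun ω _ => sum_DD c (fun v hv => (h v hv).2) ω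
  rw [Ex_mul_left, Ex_sum] at a1
  rw [Ex_sum] at a2
  have a3 := sum_le_sum fun v (hv : v ∈ Gd) => open_ball c h0 h1 hq S X (h v hv).1
  rw [← mul_sum] at a3
  rw [div_lt_iff₀ (by positivity)] at hM
  have a4 := (mul_le_mul_of_nonneg_left a1 hk.le).trans (a3.trans a2)
  by_contra hc
  have hc := not_le.1 hc
  have a5 := mul_lt_mul_of_pos_left hc (mul_pos hk hM0)
  nlinarith

end Vale.Agent.P151Q
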