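import Vale.Agent.P151Q.Base

/-! The finite volume conclusion. -/

set_option linter.unusedSectionVars false

namespace Vale.Agent.P151Q

open Finset Vale.Agent.P151

namespace FinM

variable {V : Type} [DecidableEq V] (c : Cfg V)

theorem moves_near {p0 δ : ℝ} (h0 : 0 < p0) (hδ : 0 < δ) {r : ℕ} {A B W : ℤ} {a b N : ℕ}
    (h : c.MovesAt p0 δ r A B W a b N) :
    ∃ p, p0 / 2 < p ∧ p < p0 ∧ c.MovesAt p (2 * δ) r A B W a b N := by
  have k : ∀ S T : Set (ℤ × ℤ), c.fm p0 N r S T ≤ δ →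
      ∀ᶠ p in nhds p0, c.fm p N r S T ≤ 2 * δ := fun S T hST =>
    ((c.fl_continuous c.o N r _ _).continuousAt.eventually_lt continuousAt_const
      (show c.fm p0 N r S T < 2 * δ by linarith)).mono fun _ hp => hp.le
  have k1 := ((k _ _ h.1).and ((k _ _ h.2.1).and (k _ _ h.2.2))).filter_mono
    (nhdsWithin_le_nhds (s := Set.Iio p0))
  obtain ⟨p, hp, hp'⟩ := (k1.and (Ioo_mem_nhdsLT (show p0 / 2 < p0 by linarith))).exists
  exact ⟨p, hp'.1, hp'.2, hp⟩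

theorem lower {p : ℝ} (hp0 : 0 ≤ p) (hp1 : p ≤ 1) (r n R : ℕ) (hr : r ≤ R) (hn : n ≤ R)
    (T : Set V) (hT : ∀ y ∈ T, n ≤ c.G.dist c.o y)
    (h : ∀ η, EG c.G (c.ballF c.o r) ⊆ η → Ex (EG c.G (c.ballF c.o R))
      (upd (fun _ => p) (ins (c.Bl c.o r)) η) (fun ω => ind (¬ link ω {c.o} T)) ≤ 3 / 4) :
    c.uu p 0 n ≤ 1 - p ^ (EG c.G (c.ballF c.o r)).card / 4 := by
  have hp := P01_const (ι := Sym2 V) hp0 hp1
  rw [Cfg.uu, ← c.fl_eq (LatG_EG _ (c.ballF c.o R)) (FreshG_EG _ _ p fun y hy =>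
    c.mem_ballF'.2 (c.Bl_mono _ hn hy))]
  refine le_trans (Ex_mono hp (g := fun ω => ind (¬ link ω {c.o} T))
    fun ω hω => ind_mono fun a a' => a ?_) ?_
  · rw [Set.inter_univ]
    exact (c.link_ball ((LatG_EG _ _).mono hω) (by rintro _ rfl; exact c.self_mem_Bl _ _) a'
      hT).mono subset_rfl (by rintro _ rfl; exact c.self_mem_Bl _ _) fun y hy => hy.ge
  rw [tower' _ (ins (c.Bl c.o r))]
  refine le_trans (Ex_mono hp (g := fun η => 1 - ind (EG c.G (c.ballF c.o r) ⊆ η) * (1 / 4))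
    fun η _ => ?_) (le_of_eq ?_)
  · by_cases d : EG c.G (c.ballF c.o r) ⊆ η
    · rw [ind_pos d]
      linarith [h η d]
    · rw [ind_neg d, zero_mul, sub_zero]
      exact Ex_le_const (upd_P01 hp _ _) fun _ _ => ind_le_one _
  · rw [Ex_sub, Ex_const, Ex_mul_right, Ex_all, prod_const]
    · ring
    · exact EG_mono fun y hy => c.mem_ballF'.2 (c.Bl_mono _ hr (c.mem_ballF'.1 hy))

end FinM

open FinM

theorem finS (hM : StmtMacro) (hC : StmtChain) (hS : StmtSteer) : StmtFin := by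
  intro V _ c p0 h0 h1 hm
  obtain ⟨δ, hδ, hc⟩ := hC V c p0 (1 / 2 ^ 120 / 300) h0 h1 (by positivity)
  have hd : 0 < min δ (1 / 2 ^ 35) / 2 := by positivity
  obtain ⟨r, hr⟩ := hm 4000 _ hd
  obtain ⟨J, hJ⟩ := hc r
  obtain ⟨A, B, W, a, b, N, a1, a2, a3, a4, a5, a6⟩ := hr (100 * ((J + r + 1) * c.L))
  obtain ⟨p, b1, b2, b3⟩ := moves_near c h0 hd a6
  rw [mul_div_cancel₀ _ two_ne_zero] at b3
  have hp0 : 0 < p := by linarith
  have hp1 : p ≤ 1 := by linarith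
  have hch : c.ChainAt p (1 / 2 ^ 120 / 300) (min δ (1 / 2 ^ 35)) r J :=
    fun F q o S T U N k1 k2 k3 k4 k5 k6 k7 => hJ p b1.le b2.le F q o S T U N k1 k2 k3 k4 k5 k6
      fun x hx hx' => (k7 x hx hx').trans (min_le_left _ _)
  obtain ⟨Cell, Big, Big', A0, s1, s2, s3, s4, s5, s6, s7, s8⟩ := hS V c p _ _ r J A B W a b N
    hp0.le hp1 (by positivity) hch b3 a1 (by exact_mod_cast a2) (by omega) a4 a5
  rw [show (300 : ℝ) * (1 / 2 ^ 120 / 300) = 1 / 2 ^ 120 by ring] at s3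
  refine ⟨p, p ^ (EG c.G (c.ballF c.o r)).card / 4, hp0, b2, by positivity, fun n => ?_⟩
  obtain ⟨R, hR⟩ := s7 (2199023255552 * (n + 2))
  have hF : ∀ m, m ≤ R + N + n → ∀ x ∈ c.Bl c.o m, ∀ y ∈ c.Bl c.o m, c.G.Adj x y →
      s(x, y) ∈ EG c.G (c.ballF c.o (R + N + n)) := fun m h x hx y hy hxy =>
    mk_mem_EG.2 ⟨⟨c.mem_ballF'.2 (c.Bl_mono _ h hx), c.mem_ballF'.2 (c.Bl_mono _ h hy)⟩, hxy⟩
  refine lower c hp0.le hp1 r n (R + N + n) (by omega) (by omega)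
    {x | ∃ z : Z2, (n : ℤ) ≤ z.1 + z.2 ∧ x ∈ Cell z} ?_ fun η hη => ?_
  · rintro y ⟨z, k1, k2⟩
    exact_mod_cast k1.trans (s8 z y k2)
  refine hM V c.G p Cell Big Big' c.o (c.Bl c.o r) A0 _ _ n hp0.le hp1 s1 s2 s3
    (c.self_mem_Bl _ _) s4 s5 (LatG_EG _ _)
    (fun z _ _ hz x hx y hy => hF R (by omega) x (hR z hz hx) y (hR z hz hy))
    (fun e he => by rw [upd, if_neg he]) (fun e he => ?_) ?_
  · rw [upd, if_pos he]
    split_ifs <;> simp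
  · exact ((c.seed_le hp0.le hp1 (LatG_EG _ _) a5 (hF N (by omega)) hη Set.subset_union_left
      fun y hy _ => Or.inr hy).trans s6).trans (min_le_right _ _)

theorem openS (h1 : StmtSeeds) (h2 : StmtTop) (h3 : StmtTop2) (h4 : StmtMoves) (h5 : StmtFin) :
    StmtOpen := by
  intro V _ c p0 θ0 a1 a2 a3 a4
  rcases h2 V c p0 a1 a2.le (h1 V c p0 θ0 a1.le a2.le a3 a4) with h | h
  · exact h5 V c p0 a1 a2 (h4 V c p0 a1 a2.le (h3 V c p0 a1 a2 h))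
  · exact h5 V c.flip p0 a1 a2 (h4 V c.flip p0 a1 a2.le (h3 V c.flip p0 a1 a2 h))

end Vale.Agent.P151Q
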