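import Vale.Agent.P151Q.Base

/-! The oriented adaptive exploration of the coarse grid. -/

namespace Vale.Agent.P151Q

open Finset Vale.Agent.P151

namespace MacM

theorem d2 {u : Z2} (h : u ∈ dirs2) : u = (1, 0) ∨ u = (0, 1) := by simpa [dirs2] using h

theorem pos_succ (w u : Z2) (t : ℤ) : pos w u (t + 1) = pos w u t + u := by
  ext <;> simp [pos] <;> ring

theorem pos_end (v e : Z2) : pos v e 2199023255552 = pos (v + e) (1, 0) 0 := by
  ext <;> simp [pos] <;> ring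

theorem g1 {v e w' u' : Z2} {t t' : ℤ} (he : e ∈ dirs2) (hu' : u' ∈ dirs2) (h1 : 21 ≤ t)
    (h2 : t ≤ 2199023255552) (h3 : 0 ≤ t') (h4 : t' ≤ 2199023255552) (h5 : w' ≠ v + e)
    (h6 : w' + u' = v + e → t' + 21 ≤ 2199023255552 ∧ (w' = v → t' + 21 ≤ t)) :
    ¬ near (pos w' u' t') (pos v e t) := by
  obtain ⟨a, b⟩ := v
  obtain ⟨a', b'⟩ := w'
  rcases d2 he with rfl | rfl <;> rcases d2 hu' with rfl | rfl <;>
  simp only [near, pos, ne_eq, Prod.mk.injEq, Prod.mk_add_mk] at * <;> omega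

theorem g2 {w u w' u' : Z2} {t t' : ℤ} (hu : u ∈ dirs2) (hu' : u' ∈ dirs2) (h1 : 0 ≤ t)
    (h2 : t + 21 ≤ 2199023255552) (h3 : 0 ≤ t') (h4 : t' ≤ 2199023255552) (h5 : w' ≠ w)
    (h6 : w' + u' = w → t' + 21 ≤ 2199023255552) :
    ¬ near (pos w' u' t') (pos w u t) := by
  obtain ⟨a, b⟩ := w
  obtain ⟨a', b'⟩ := w'
  rcases d2 hu with rfl | rfl <;> rcases d2 hu' with rfl | rfl <;>
  simp only [near, pos, ne_eq, Prod.mk.injEq, Prod.mk_add_mk] at * <;> omega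

theorem g3 {w u w' u' : Z2} {t t' : ℤ} (hu : u ∈ dirs2) (hu' : u' ∈ dirs2) (h1 : 21 ≤ t)
    (h2 : t + 21 ≤ 2199023255552) (h3 : 0 ≤ t') (h4 : t' ≤ 2199023255552)
    (h5 : w' ≠ w ∨ w' + u' ≠ w + u) : ¬ near (pos w' u' t') (pos w u t) := by
  obtain ⟨a, b⟩ := w
  obtain ⟨a', b'⟩ := w'
  rcases d2 hu with rfl | rfl <;> rcases d2 hu' with rfl | rfl <;>
  simp only [near, pos, ne_eq, Prod.mk.injEq, Prod.mk_add_mk] at * <;> omega

structure Ctx (V : Type) [DecidableEq V] where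
  G : SimpleGraph V
  p : ℝ
  Cell : Z2 → Set V
  Big : Z2 → Set V
  Big' : Z2 → Set V
  o : V
  E0 : Set V
  F : Finset (Sym2 V)
  n : ℕ
  hp0 : 0 ≤ p
  hp1 : p ≤ 1
  hB : ∀ z, Big z ⊆ Big' z
  hN : ∀ z z' x, x ∈ Big' z → x ∈ Big z' → near z z'
  hS : ShG G Cell Big o p (1 / 2 ^ 120)
  hE : ∀ z : Z2, 0 ≤ z.1 → 0 ≤ z.2 → ∀ x ∈ E0, x ∉ Big z
  hL : LatG G F
  hF : ∀ z : Z2, 0 ≤ z.1 → 0 ≤ z.2 → z.1 + z.2 ≤ 2199023255552 * (n + 2) →
    ∀ x ∈ Big z, ∀ y ∈ Big z, G.Adj x y → s(x, y) ∈ F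

variable {V : Type} [DecidableEq V] (c : Ctx V)

def Arm (w u : Z2) (a b : ℤ) : Set V := {x | ∃ t, a ≤ t ∧ t ≤ b ∧ x ∈ c.Big (pos w u t)}

structure Inv (O C : Finset Z2) (E : Set V) (q : Sym2 V → ℝ) (s : Z2 → ℤ) : Prop where
  ho : c.o ∈ E
  q1 : ∀ e, e ∉ ins E → q e = c.p
  q2 : ∀ e ∈ ins E, q e = 0 ∨ q e = 1
  hs : ∀ w, 21 ≤ s w ∧ s w ≤ 721554505728
  desc : ∀ x ∈ E, x ∈ c.E0 ∨ ∃ w u t, (w ∈ O ∨ w ∈ C) ∧ u ∈ dirs2 ∧ 0 ≤ t ∧
    (t ≤ s w ∨ ((w + u ∈ O ∨ w + u ∈ C) ∧ t ≤ 2199023255552)) ∧ x ∈ c.Big' (pos w u t)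
  front : ∀ v ∈ O, ∀ e ∈ dirs2, ¬ (v + e ∈ O ∨ v + e ∈ C) →
    Ex c.F q (fun ω => ind (¬ RR ω (E ∪ Arm c v e (s v) (s v + 21)) c.o
      (c.Cell (pos v e (s v + 21))))) ≤ 1 / 2 ^ 35
  sure : ∀ v ∈ O, Ex c.F q (fun ω => ind (¬ RR ω E c.o (c.Cell (pos v (1, 0) 0)))) ≤ 0

def EE (E A : Set V) (w : Z2) (b : ℤ) : Set V := (E ∪ A) ∪ {x | ∃ u ∈ dirs2, x ∈ Arm c w u 0 b}

def Acc (O : Finset Z2) (w : Z2) (A : Set V) : Prop :=
  ∀ x ∈ A, ∃ w' u' t', u' ∈ dirs2 ∧ 0 ≤ t' ∧ t' ≤ 2199023255552 ∧ x ∈ c.Big' (pos w' u' t') ∧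
    ((w' = w ∧ t' = 0) ∨ (w' ∈ O ∧ w' + u' = w))

variable {c} {O C : Finset Z2} {E : Set V} {q : Sym2 V → ℝ} {s : Z2 → ℤ}

theorem Arm_mono {w u : Z2} {a b a' b' : ℤ} (h1 : a' ≤ a) (h2 : b ≤ b') :
    Arm c w u a b ⊆ Arm c w u a' b' :=
  fun _ ⟨t, h3, h4, h5⟩ => ⟨t, h1.trans h3, h4.trans h2, h5⟩

theorem arm_chain (hq : P01 q) {W : Set V} {w u : Z2}
    (hu : u ∈ dirs2) (a : ℤ) (n : ℕ) (hW : Arm c w u a (a + n) ⊆ W)
    (hF : ∀ t, a ≤ t → t ≤ a + n → FreshG c.G c.F q c.p (c.Big (pos w u t)) ∧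
      c.o ∉ c.Big (pos w u t)) :
    Ex c.F q (fun ω => ind (RR ω W c.o (c.Cell (pos w u a)) ∧
      ¬ RR ω W c.o (c.Cell (pos w u (a + n))))) ≤ n * (1 / 2 ^ 120) := by
  have := fun ω => ind_chain (P := fun t : ℕ => RR ω W c.o (c.Cell (pos w u (a + t)))) n
  simp only [Nat.cast_zero, add_zero] at this
  refine (Ex_mono hq fun ω _ => this ω).trans ?_
  rw [Ex_sum]
  refine (sum_le_card_nsmul _ _ (1 / 2 ^ 120) fun t ht => ?_).trans (by simp)
  have ht' := mem_range.1 ht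
  have h := hF (a + t) (by omega) (by omega)
  have := c.hS c.F q W (pos w u (a + t)) u hu c.hL hq
    (fun x hx => hW ⟨a + t, by omega, by omega, hx⟩) h.1 h.2
  rwa [Nat.cast_succ, ← add_assoc, pos_succ]

theorem Inv.p01 (h : Inv c O C E q s) : P01 q := by
  intro e
  by_cases a : e ∈ ins E
  · rcases h.q2 e a with b | b <;> simp [b]
  · rw [h.q1 e a]; exact ⟨c.hp0, c.hp1⟩

theorem Inv.fresh (h : Inv c O C E q s) {z : Z2} (h1 : 0 ≤ z.1) (h2 : 0 ≤ z.2)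
    (h3 : z.1 + z.2 ≤ 2199023255552 * (c.n + 2))
    (hg : ∀ w u t, (w ∈ O ∨ w ∈ C) → u ∈ dirs2 → 0 ≤ t →
      (t ≤ s w ∨ ((w + u ∈ O ∨ w + u ∈ C) ∧ t ≤ 2199023255552)) → ¬ near (pos w u t) z) :
    FreshG c.G c.F q c.p (c.Big z) ∧ c.o ∉ c.Big z := by
  have key : ∀ x ∈ c.Big z, x ∉ E := by
    intro x hx hE
    rcases h.desc x hE with a | ⟨w', u', t', a1, a2, a3, a4, a5⟩
    · exact c.hE z h1 h2 x a hx
    · exact hg w' u' t' a1 a2 a3 a4 (c.hN _ _ x a5 hx)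
  exact ⟨fun x hx y hy hxy => ⟨c.hF z h1 h2 h3 x hx y hy hxy,
    h.q1 _ fun a => key x hx (mk_mem_ins.1 a).1⟩, fun a => key _ a h.ho⟩

theorem Inv.step (h : Inv c O C E q s) {w : Z2} {A : Set V} (hA : Acc c O w A)
    (hw : ¬ (w ∈ O ∨ w ∈ C))
    {b : ℤ} (hb : 21 ≤ b ∧ b ≤ 721554505728) {η : Finset (Sym2 V)}
    (h1 : ∀ i ∈ η, q i ≠ 0) (h2 : ∀ i ∈ c.F, i ∉ η → q i ≠ 1) {O' C' : Finset Z2}
    (hO : ∀ x ∈ O', x ∈ O ∨ x = w) (hO' : O ⊆ O') (hC : C ⊆ C') (hOC : w ∈ O' ∨ w ∈ C')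
    (hnew : w ∈ O' → (∀ u ∈ dirs2,
      Ex c.F (upd q (ins (EE c E A w b)) η) (fun ω => ind (¬ RR ω
        (EE c E A w b ∪ Arm c w u b (b + 21)) c.o (c.Cell (pos w u (b + 21))))) ≤ 1 / 2 ^ 35) ∧
      Ex c.F (upd q (ins (EE c E A w b)) η) (fun ω => ind (¬ RR ω
        (EE c E A w b) c.o (c.Cell (pos w (1, 0) 0)))) ≤ 0) :
    Inv c O' C' (EE c E A w b) (upd q (ins (EE c E A w b)) η) (Function.update s w b) := by
  have sub : E ⊆ EE c E A w b := fun x hx => Or.inl (Or.inl hx)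
  have ne : ∀ z, (z ∈ O ∨ z ∈ C) → z ≠ w := fun z hz e' => hw (e' ▸ hz)
  have mo : ∀ z, (z ∈ O ∨ z ∈ C) → (z ∈ O' ∨ z ∈ C') := fun z hz =>
    hz.imp (fun a => hO' a) fun a => hC a
  have hq := upd_P01 h.p01 (ins (EE c E A w b)) η
  refine ⟨sub h.ho, fun i hi => ?_, fun i hi => ?_, fun w' => ?_, ?_, ?_, ?_⟩
  · rw [upd, if_neg hi]
    exact h.q1 i fun a => hi (ins_mono sub a)
  · rw [upd, if_pos hi]
    split_ifs <;> simp
  · by_cases a : w' = w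
    · rw [a, Function.update_self]; exact hb
    · rw [Function.update_of_ne a]; exact h.hs w'
  · rintro x ((hx | hx) | ⟨u, hu, t, a1, a2, a3⟩)
    · rcases h.desc x hx with a | ⟨w', u', t', a1, a2, a3, a4, a5⟩
      · exact Or.inl a
      refine Or.inr ⟨w', u', t', mo _ a1, a2, a3, ?_, a5⟩
      rw [Function.update_of_ne (ne _ a1)]
      exact a4.imp_right fun a => ⟨mo _ a.1, a.2⟩
    · obtain ⟨w', u', t', a1, a2, a3, a4, a5⟩ := hA x hx
      rcases a5 with ⟨rfl, rfl⟩ | ⟨a5, a6⟩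
      · exact Or.inr ⟨w', u', 0, hOC, a1, le_rfl,
          Or.inl (by rw [Function.update_self]; omega), a4⟩
      · exact Or.inr ⟨w', u', t', mo _ (Or.inl a5), a1, a2, Or.inr ⟨a6 ▸ hOC, a3⟩, a4⟩
    · exact Or.inr ⟨w, u, t, hOC, hu, a1, Or.inl (by rwa [Function.update_self]), c.hB _ a3⟩
  · intro v' hv' u hu hd
    rcases hO v' hv' with a | rfl
    · have n1 := ne _ (Or.inl a)
      have n2 : v' + u ≠ w := fun a => hd (a ▸ hOC)
      have hd' : ¬ (v' + u ∈ O ∨ v' + u ∈ C) := fun a => hd (mo _ a)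
      rw [Function.update_of_ne n1]
      refine le_trans ?_ (h.front v' a u hu hd')
      have := Ex_inv (F := c.F) (E' := EE c E A w b)
        (A := Arm c v' u (s v') (s v' + 21)) h.q2 h1 h2 ?_
        (fun ω => ind (¬ link ω {c.o} (c.Cell (pos v' u (s v' + 21)))))
      · refine le_trans ?_ this.le
        exact Ex_mono hq fun ω _ => ind_mono fun a a' =>
          a (RR.mono a' (Set.union_subset_union_left _ sub) subset_rfl)
      · have b1 := h.hs v'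
        rintro x ((hx | hx) | ⟨u', hu', t, a1, a2, a3⟩) ⟨t', a4, a5, a6⟩
        · exact hx
        · exfalso
          obtain ⟨w', u', t, a1, a2, a3, a7, a8⟩ := hA x hx
          refine g3 hu a1 (by omega) (by omega) a2 a3 ?_ (c.hN _ _ x a7 a6)
          rcases a8 with ⟨rfl, -⟩ | ⟨-, a8⟩
          · exact Or.inl n1.symm
          · exact Or.inr (a8 ▸ n2.symm)
        · exact absurd (c.hN _ _ x (c.hB _ a3) a6)
            (g3 hu hu' (by omega) (by omega) a1 (by omega) (Or.inl n1.symm))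
    · rw [Function.update_self]
      exact (hnew hv').1 u hu
  · intro v' hv'
    rcases hO v' hv' with a | rfl
    · refine le_trans ?_ (h.sure v' a)
      have := Ex_inv (F := c.F) (E' := EE c E A w b) (A := E) h.q2 h1 h2
        (fun _ _ a => a) (fun ω => ind (¬ link ω {c.o} (c.Cell (pos v' (1, 0) 0))))
      rw [Set.union_self] at this
      refine le_trans ?_ this.le
      exact Ex_mono hq fun ω _ => ind_mono fun a a' => a (RR.mono a' sub subset_rfl)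
    · exact (hnew hv').2

def HU (c : Ctx V) (E A : Set V) (w : Z2) (j : ℕ) (u : Z2) (ω : Finset (Sym2 V)) : Prop :=
  RR ω (EE c E A w (21 * j + 21) ∪ Arm c w u (21 * j + 21) (21 * j + 21 + 21)) c.o
    (c.Cell (pos w u (21 * j + 21 + 21)))

theorem Inv.stub (h : Inv c O C E q s) {w : Z2} (A : Set V) (hw : ¬ (w ∈ O ∨ w ∈ C))
    (w1 : 0 ≤ w.1) (w2 : 0 ≤ w.2) (w3 : w.1 + w.2 ≤ c.n) {j : ℕ} (hj : j < 2 ^ 35) {u : Z2}
    (hu : u ∈ dirs2) :
    Ex c.F q (fun ω => ind (RR ω (E ∪ A) c.o (c.Cell (pos w (1, 0) 0)) ∧ ¬ HU c E A w j u ω)) ≤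
      2 ^ 41 * (1 / 2 ^ 120) := by
  have hq := h.p01
  have := arm_chain (c := c) hq
    (W := EE c E A w (21 * j + 21) ∪ Arm c w u (21 * j + 21) (21 * j + 21 + 21)) (w := w) hu 0
    (21 * j + 21 + 21) (by
      rintro x ⟨t, t1, t2, t3⟩
      by_cases a : t ≤ 21 * j + 21
      · exact Or.inl (Or.inr ⟨u, hu, t, t1, a, t3⟩)
      · exact Or.inr ⟨t, by omega, by omega, t3⟩) (fun t t1 t2 => by
      refine h.fresh ?_ ?_ ?_ fun w' u' t' a1 a2 a3 a4 => ?_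
      · rcases d2 hu with rfl | rfl <;> simp only [pos] <;> omega
      · rcases d2 hu with rfl | rfl <;> simp only [pos] <;> omega
      · rcases d2 hu with rfl | rfl <;> simp only [pos] <;> omega
      · have := h.hs w'
        refine g2 hu a2 t1 (by omega) a3 (by omega) (fun e => hw (e ▸ a1)) fun e => ?_
        rcases a4 with a4 | a4
        · omega
        · exact absurd (e ▸ a4.1) hw)
  have a2 : ((21 * j + 21 + 21 : ℕ) : ℝ) ≤ 2 ^ 41 := by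
    exact_mod_cast (show 21 * j + 21 + 21 ≤ 2 ^ 41 by omega)
  rw [pos_zero _ _ (1, 0), zero_add] at this
  refine le_trans (Ex_mono hq fun ω _ => ind_mono fun a => ⟨?_, ?_⟩) (this.trans (by gcongr))
  · exact a.1.mono (fun x hx => Or.inl (Or.inl hx)) subset_rfl
  · push_cast; exact a.2

theorem union_bound {F : Finset (Sym2 V)} (hq : P01 q) (K : Finset (Sym2 V) → Prop)
    (H : ℕ → Z2 → Finset (Sym2 V) → Prop)
    (k1 : Ex F q (fun ω => ind (¬ K ω)) ≤ 1 / 2 ^ 35 + 2 ^ 41 * (1 / 2 ^ 120))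
    (k2 : ∀ j < 2 ^ 35, ∀ u ∈ dirs2, Ex F q (fun ω => ind (K ω ∧ ¬ H j u ω)) ≤
      2 ^ 41 * (1 / 2 ^ 120)) :
    Ex F q (fun ω => ind (¬ (K ω ∧ ∀ j < 2 ^ 35, ∀ u ∈ dirs2, H j u ω))) ≤ 2 / 2 ^ 35 := by
  refine le_trans (Ex_mono hq (g := fun ω => ind (¬ K ω) +
    ∑ j ∈ range (2 ^ 35), ∑ u ∈ dirs2, ind (K ω ∧ ¬ H j u ω)) fun ω _ => ?_) ?_
  · have nn : ∀ j ∈ range (2 ^ 35), 0 ≤ ∑ u ∈ dirs2, ind (K ω ∧ ¬ H j u ω) :=
      fun j _ => sum_nonneg fun _ _ => ind_nonneg _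
    by_cases a : K ω
    · by_cases a' : ∀ j < 2 ^ 35, ∀ u ∈ dirs2, H j u ω
      · rw [ind_neg (not_not.2 ⟨a, a'⟩)]
        exact add_nonneg (ind_nonneg _) (sum_nonneg nn)
      · simp only [not_forall] at a'
        obtain ⟨j, hj, u, hu, a'⟩ := a'
        have a1 := single_le_sum nn (mem_range.2 hj)
        have a2 := single_le_sum (f := fun u => ind (K ω ∧ ¬ H j u ω))
          (fun _ _ => ind_nonneg _) hu
        rw [ind_pos ⟨a, a'⟩] at a2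
        linarith [ind_le_one (¬ (K ω ∧ ∀ j < 2 ^ 35, ∀ u ∈ dirs2, H j u ω)), ind_nonneg (¬ K ω)]
    · rw [ind_pos a]
      linarith [ind_le_one (¬ (K ω ∧ ∀ j < 2 ^ 35, ∀ u ∈ dirs2, H j u ω)), sum_nonneg nn]
  · rw [Ex_add, Ex_sum]
    have := sum_le_card_nsmul (range (2 ^ 35))
      (fun j => Ex F q fun ω => ∑ u ∈ dirs2, ind (K ω ∧ ¬ H j u ω)) (2 * (2 ^ 41 * (1 / 2 ^ 120)))
      fun j hj => by
        rw [Ex_sum]
        refine (sum_le_card_nsmul _ _ _ (k2 j (mem_range.1 hj))).trans ?_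
        rw [show dirs2.card = 2 by decide]; simp
    rw [card_range, nsmul_eq_mul] at this
    push_cast at this
    linarith

theorem Inv.core (h : Inv c O C E q s) {w : Z2} {A : Set V} (hA : Acc c O w A)
    (hw : ¬ (w ∈ O ∨ w ∈ C)) (w1 : 0 ≤ w.1) (w2 : 0 ≤ w.2) (w3 : w.1 + w.2 ≤ c.n)
    (k1 : Ex c.F q (fun ω => ind (¬ RR ω (E ∪ A) c.o (c.Cell (pos w (1, 0) 0)))) ≤
      1 / 2 ^ 35 + 2 ^ 41 * (1 / 2 ^ 120))
    (f : Finset (Sym2 V) → ℝ) {a b : ℝ} (hab : a ≤ b)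
    (ha : ∀ E q s, Inv c (insert w O) C E q s → Ex c.F q f ≤ a)
    (hb : ∀ E q s, Inv c O (insert w C) E q s → Ex c.F q f ≤ b) :
    Ex c.F q f ≤ (1 - 1 / 2 ^ 33) * a + 1 / 2 ^ 33 * b := by
  have hq := h.p01
  set K : Finset (Sym2 V) → Prop := fun ω => RR ω (E ∪ A) c.o (c.Cell (pos w (1, 0) 0)) with hK
  have k3 := union_bound hq K (HU c E A w) k1 fun j hj u hu => h.stub A hw w1 w2 w3 hj hu
  obtain ⟨j, hj, k4⟩ := layer (F := c.F) hq (fun j => ins (EE c E A w (21 * j + 21)))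
    (fun j ω => ∀ u ∈ dirs2, HU c E A w j u ω)
    (fun i j hij ω => forall₂_congr fun u hu => RR_keep (by
      rintro x ((hx | ⟨u', hu', hx⟩) | hx)
      · exact Or.inl hx
      · exact Or.inr ⟨u', hu', Arm_mono le_rfl (by omega) hx⟩
      · exact Or.inr ⟨u, hu, Arm_mono (by omega) (by omega) hx⟩))
    (2 ^ 35) (by positivity) (δ := 1 / 2 ^ 35) (by positivity)
    (le_trans (Ex_mono hq fun ω _ => ind_mono fun a (a' : K ω ∧ _) => a a'.2) k3)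
  set Bad : Finset (Sym2 V) → Prop := fun η => 1 / 2 ^ 35 <
    Ex c.F (upd q (ins (EE c E A w (21 * j + 21))) η)
      (fun ω => ind (¬ ∀ u ∈ dirs2, HU c E A w j u ω)) with hBad
  have k5 : Ex c.F q (fun η => ind (¬ (K η ∧ ¬ Bad η))) ≤ 1 / 2 ^ 33 := by
    refine le_trans (Ex_mono hq fun ω _ => le_trans (ind_mono ?_) (ind_or_le _ _))
      (le_trans (Ex_add _ _ _ _).le (le_trans (add_le_add k3 k4) (by norm_num)))
    intro d
    by_contra d'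
    rw [not_or, not_not, not_and] at d'
    exact d ⟨d'.1.1, d'.2 fun i hi => d'.1.2 i (hi.trans hj)⟩
  rw [tower' q (ins (EE c E A w (21 * j + 21)))]
  refine le_trans (Ex_mono_supp hq (g := fun η => a + (b - a) * ind (¬ (K η ∧ ¬ Bad η)))
    fun η hη h1 h2 => ?_) ?_
  · by_cases d : K η ∧ ¬ Bad η
    · rw [ind_neg (not_not.2 d), mul_zero, add_zero]
      refine ha _ _ _ (h.step hA hw (b := 21 * j + 21) (by omega) h1 h2
        (fun x hx => (mem_insert.1 hx).symm) (subset_insert _ _) subset_rfl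
        (Or.inl (mem_insert_self _ _)) fun _ => ⟨fun u hu => ?_, ?_⟩)
      · refine le_trans ?_ (not_lt.1 d.2)
        exact Ex_mono (upd_P01 hq _ _) fun ω _ => ind_mono fun a a' => a (a' u hu)
      · rw [Ex_upd_eq hη _ fun ω => ind_congr (not_congr (RR_keep subset_rfl))]
        exact (ind_neg (not_not.2 (d.1.mono (fun x hx => Or.inl hx) subset_rfl))).le
    · rw [ind_pos d, mul_one, add_sub_cancel]
      exact hb _ _ _ (h.step hA hw (b := 21 * j + 21) (by omega) h1 h2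
        (fun x hx => Or.inl hx) subset_rfl (subset_insert _ _)
        (Or.inr (mem_insert_self _ _)) fun d => absurd (Or.inl d) hw)
  · rw [Ex_add, Ex_const, Ex_mul_left]
    nlinarith [mul_le_mul_of_nonneg_left k5 (sub_nonneg.2 hab)]

theorem Inv.arm (h : Inv c O C E q s) {v e : Z2} (hv : v ∈ O) (he : e ∈ dirs2)
    (hw : ¬ (v + e ∈ O ∨ v + e ∈ C)) (v1 : 0 ≤ v.1) (v2 : 0 ≤ v.2) (v3 : v.1 + v.2 < c.n) :
    Ex c.F q (fun ω => ind (¬ RR ω (E ∪ Arm c v e (s v) 2199023255552) c.o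
      (c.Cell (pos (v + e) (1, 0) 0)))) ≤ 1 / 2 ^ 35 + 2 ^ 41 * (1 / 2 ^ 120) := by
  have hq := h.p01
  have b1 := h.hs v
  obtain ⟨n, hn⟩ := Int.eq_ofNat_of_zero_le (show 0 ≤ 2199023255552 - (s v + 21) by omega)
  have e1 : s v + 21 + n = 2199023255552 := by omega
  have := arm_chain (c := c) hq
    (W := E ∪ Arm c v e (s v) 2199023255552) (w := v) he (s v + 21) n
    (fun x hx => Or.inr (Arm_mono (by omega) (by omega) hx)) (fun t t1 t2 => by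
      refine h.fresh ?_ ?_ ?_ fun w' u' t' a1 a2 a3 a4 => ?_
      · rcases d2 he with rfl | rfl <;> simp only [pos] <;> omega
      · rcases d2 he with rfl | rfl <;> simp only [pos] <;> omega
      · rcases d2 he with rfl | rfl <;> simp only [pos] <;> omega
      · have := h.hs w'
        refine g1 he a2 (by omega) (by omega) a3 (by omega) (fun e => hw (e ▸ a1)) fun e => ?_
        rcases a4 with a4 | a4
        · exact ⟨by omega, fun e' => by subst e'; omega⟩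
        · exact absurd (e ▸ a4.1) hw)
  rw [e1, pos_end] at this
  have a2 : (n : ℝ) ≤ 2 ^ 41 := by exact_mod_cast (show n ≤ 2 ^ 41 by omega)
  refine le_trans (Ex_mono hq fun ω _ => le_trans (ind_mono ?_) (ind_or_le _ _))
    (le_trans (Ex_add _ _ _ _).le (add_le_add (h.front v hv e he hw) (this.trans (by gcongr))))
  intro d
  by_contra d'
  rw [not_or, not_not, not_and, not_not] at d'
  exact d (d'.2 (d'.1.mono (Set.union_subset_union_right _ (Arm_mono le_rfl (by omega)))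
    subset_rfl))

theorem Inv.examine (h : Inv c O C E q s) {v e : Z2} (hv : v ∈ O) (he : e ∈ dirs2)
    (hw : ¬ (v + e ∈ O ∨ v + e ∈ C)) (v1 : 0 ≤ v.1) (v2 : 0 ≤ v.2) (v3 : v.1 + v.2 < c.n)
    (f : Finset (Sym2 V) → ℝ) {a b : ℝ} (hab : a ≤ b)
    (ha : ∀ E q s, Inv c (insert (v + e) O) C E q s → Ex c.F q f ≤ a)
    (hb : ∀ E q s, Inv c O (insert (v + e) C) E q s → Ex c.F q f ≤ b) :
    Ex c.F q f ≤ (1 - 1 / 2 ^ 33) * a + 1 / 2 ^ 33 * b := by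
  have b1 := h.hs v
  refine h.core (A := Arm c v e (s v) 2199023255552) ?_ hw ?_ ?_ ?_ (h.arm hv he hw v1 v2 v3)
    f hab ha hb
  · rintro x ⟨t, t1, t2, t3⟩
    exact ⟨v, e, t, he, by omega, t2, c.hB _ t3, Or.inr ⟨hv, rfl⟩⟩
  · rcases d2 he with rfl | rfl <;> simp only [Prod.fst_add] <;> omega
  · rcases d2 he with rfl | rfl <;> simp only [Prod.snd_add] <;> omega
  · rcases d2 he with rfl | rfl <;> simp only [Prod.fst_add, Prod.snd_add] <;> omega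

theorem main (hP : StmtPeierls) (c : Ctx V) {A0 : Set V} {q0 : Sym2 V → ℝ} (ho : c.o ∈ c.E0)
    (hA : A0 ⊆ c.Big' (0, 0)) (q1 : ∀ e, e ∉ ins c.E0 → q0 e = c.p)
    (q2 : ∀ e ∈ ins c.E0, q0 e = 0 ∨ q0 e = 1)
    (h0 : Ex c.F q0 (fun ω => ind (¬ RR ω (c.E0 ∪ A0) c.o (c.Cell (0, 0)))) ≤ 1 / 2 ^ 35) :
    Ex c.F q0 (fun ω => ind (¬ link ω {c.o}
      {x | ∃ z : Z2, (c.n : ℤ) ≤ z.1 + z.2 ∧ x ∈ c.Cell z})) ≤ 3 / 4 := by
  set f : Finset (Sym2 V) → ℝ := fun ω => ind (¬ link ω {c.o}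
      {x | ∃ z : Z2, (c.n : ℤ) ≤ z.1 + z.2 ∧ x ∈ c.Cell z}) with hf
  set St : Finset Z2 → Finset Z2 → Set ℝ := fun O C =>
    {a | ∃ E q s, Inv c O C E q s ∧ a = Ex c.F q f} with hSt
  have one : ∀ O C, ∀ a ∈ St O C, a ≤ 1 := by
    rintro O C _ ⟨E, q, s, h, rfl⟩
    exact Ex_le_const h.p01 fun _ _ => ind_le_one _
  have nn : ∀ O C, 0 ≤ sSup (St O C) := fun O C => Real.sSup_nonneg (by
    rintro _ ⟨E, q, s, h, rfl⟩
    exact Ex_nonneg h.p01 fun _ _ => ind_nonneg _)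
  have le : ∀ O C E q s, Inv c O C E q s → Ex c.F q f ≤ sSup (St O C) :=
    fun O C E q s h => le_csSup ⟨1, one O C⟩ ⟨E, q, s, h, rfl⟩
  have key := hP c.n (fun O C => sSup (St O C)) (1 / 2 ^ 33) (by positivity) le_rfl
    (fun O C => Real.sSup_le (one O C) zero_le_one) (fun O C ⟨v, hv, hfar⟩ => Real.sSup_le (by
      rintro _ ⟨E, q, s, h, rfl⟩
      refine le_trans (Ex_mono h.p01 fun ω _ => ind_mono fun d d' => d
        (link.mono d' (keep_subset _ _) subset_rfl fun y hy => ⟨_, ?_, hy⟩)) (h.sure v hv)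
      simp only [pos]
      omega) le_rfl)
    (fun O C v hv e he v1 v2 v3 n1 n2 a b hab h1 h2 => Real.sSup_le (by
      rintro _ ⟨E, q, s, h, rfl⟩
      exact h.examine hv he (not_or.2 ⟨n1, n2⟩) v1 v2 v3 f hab
        (fun E q s h => (le _ _ E q s h).trans h1) (fun E q s h => (le _ _ E q s h).trans h2))
      (by
        have := (nn _ _).trans h1
        have := (nn _ _).trans h2
        positivity))
  have hI : Inv c ∅ ∅ c.E0 q0 (fun _ => 21) :=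
    ⟨ho, q1, q2, fun _ => by omega, fun x hx => Or.inl hx, fun v hv => absurd hv (notMem_empty _),
      fun v hv => absurd hv (notMem_empty _)⟩
  have e0 : pos (0, 0) (1, 0) 0 = (0, 0) := by simp [pos]
  have := hI.core (w := (0, 0)) (A := A0) (fun x hx => ⟨(0, 0), (1, 0), 0, by decide, le_rfl,
      by omega, by rw [e0]; exact hA hx, Or.inl ⟨rfl, rfl⟩⟩) (by simp) le_rfl le_rfl (by simp)
    (by rw [e0]; exact h0.trans (le_add_of_nonneg_right (by positivity))) f (a := 1 / 2) (b := 1)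
    (by norm_num) (fun E q s h => (le _ _ E q s h).trans key)
    (fun E q s h => Ex_le_const h.p01 fun _ _ => ind_le_one _)
  refine this.trans (by norm_num)

end MacM

theorem macroS (hP : StmtPeierls) : StmtMacro :=
  fun _ _ G p Cell Big Big' o E0 _ F _ n h1 h2 h3 h4 h5 h6 h7 h8 h9 h10 h11 h12 h13 =>
    MacM.main hP ⟨G, p, Cell, Big, Big', o, E0, F, n, h1, h2, h3, h4, h5, h8, h9, h10⟩
      h6 h7 h11 h12 h13

end Vale.Agent.P151Q
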