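import Vale.Agent.P151Q.Base

/-! Passing between the product measure and finite volume expectations. -/

set_option linter.unusedSectionVars false

namespace Vale.Agent.P151Q

open Finset MeasureTheory ProbabilityTheory unitInterval Vale.Agent.P151

namespace MeasM

variable {V : Type} [DecidableEq V] (c : Cfg V)

include c in
theorem cnt : Countable V := by
  rw [← Set.countable_univ_iff]
  refine (Set.countable_iUnion fun n : ℕ => (c.Bl_finite c.o n).countable).mono fun y _ => ?_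
  exact Set.mem_iUnion.2 ⟨c.G.dist c.o y, le_refl (c.G.dist c.o y)⟩

theorem real_link (p : I) (n : ℕ) : (setBernoulli c.G.edgeSet p).real
    {ω | link (keep (EG c.G (c.ballF c.o n)) ω) (c.Bl c.o 0) {v | n ≤ c.G.dist c.o v}} =
      1 - c.uu p 0 n := by
  rw [real_ev c.G.edgeSet p (F := EG c.G (c.ballF c.o n)) (fun e he => (mem_keep.1 he).2)
    (fun S => link S (c.Bl c.o 0) {v | n ≤ c.G.dist c.o v}), Cfg.uu, Cfg.fl]
  simp only [keep_univ, ind_not, Ex_sub, Ex_const]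
  ring

theorem to_finite (p : I)
    (h : setBernoulli c.G.edgeSet p
      {ω | {y | (SimpleGraph.fromEdgeSet ω).Reachable c.o y}.Infinite} ≠ 0) :
    ∃ θ, 0 < θ ∧ ∀ n : ℕ, c.uu p 0 n ≤ 1 - θ := by
  have := cnt c
  refine ⟨_, ENNReal.toReal_pos h (measure_ne_top _ _), fun n => ?_⟩
  rw [le_sub_comm, ← real_link c p n]
  refine ENNReal.toReal_mono (measure_ne_top _ _) (measure_mono_ae ?_)
  filter_upwards [setBernoulli_ae_subset (u := c.G.edgeSet) (p := p)] with ω hω h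
  obtain ⟨y, hy, hy'⟩ := Set.Infinite.exists_notMem_finset h (c.ballF c.o n)
  obtain ⟨η, h1, h2⟩ := reach_iff.1 hy
  have hL : LatG c.G η := fun a b hab => hω (h1 hab)
  rw [c.mem_ballF] at hy'
  obtain ⟨a, ha, z, hz, h3⟩ := c.link_ball hL (x := c.o) (n := n) (S := c.Bl c.o 0) (T := {y})
    (c.Bl_mono _ (Nat.zero_le _)) ⟨c.o, c.self_mem_Bl _ _, y, rfl, h2⟩
    (fun w hw => by rw [Set.mem_singleton_iff.1 hw]; omega)
  refine ⟨a, ha, z, Eq.ge hz, h3.mono fun e he => ?_⟩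
  induction e using Sym2.ind with
  | h a b =>
    rw [mem_keep, mk_mem_ins] at he
    exact mem_keep.2 ⟨mk_mem_EG.2 ⟨⟨c.mem_ballF'.2 he.2.1, c.mem_ballF'.2 he.2.2⟩, hL _ _ he.1⟩,
      h1 he.1⟩

theorem of_finite (p : I) {θ : ℝ} (hθ : 0 < θ) (h : ∀ n : ℕ, c.uu p 0 n ≤ 1 - θ) :
    0 < setBernoulli c.G.edgeSet p
      {ω | ∃ x, {y | (SimpleGraph.fromEdgeSet ω).Reachable x y}.Infinite} := by
  set A : ℕ → Set (Set (Sym2 V)) := fun n =>
    {ω | link (keep (EG c.G (c.ballF c.o n)) ω) (c.Bl c.o 0) {v | n ≤ c.G.dist c.o v}} with hA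
  have mA : ∀ n, MeasurableSet (A n) := fun n =>
    meas_ev _ (fun S => link S (c.Bl c.o 0) {v | n ≤ c.G.dist c.o v})
  have lim := tendsto_measure_iInter_atTop (μ := setBernoulli c.G.edgeSet p)
    (s := fun N => ⋃ n ≥ N, A n)
    (fun N => (MeasurableSet.iUnion fun n => MeasurableSet.iUnion fun _ => mA n).nullMeasurableSet)
    (fun N N' hN => Set.biUnion_subset_biUnion_left fun n (hn : N' ≤ n) => hN.trans hn)
    ⟨0, measure_ne_top _ _⟩
  have := ge_of_tendsto' (b := ENNReal.ofReal θ) lim fun N => by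
    refine le_trans ?_ (measure_mono (Set.subset_biUnion_of_mem (u := A) (le_refl N)))
    rw [ENNReal.ofReal_le_iff_le_toReal (measure_ne_top _ _), ← measureReal_def, real_link c]
    linarith [h N]
  refine ((ENNReal.ofReal_pos.2 hθ).trans_le this).trans_le (measure_mono fun ω hω => ⟨c.o, ?_⟩)
  intro hfin
  obtain ⟨N, hN⟩ := (hfin.image fun y => c.G.dist c.o y).bddAbove
  obtain ⟨n, hn, a, ha, b, hb, hc⟩ := Set.mem_iUnion₂.1 (Set.mem_iInter.1 hω (N + 1))
  obtain rfl : c.o = a := c.d_zero (Nat.le_zero.1 ha)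
  have a1 : c.G.dist c.o b ≤ N := hN ⟨b, reach_iff.2 ⟨_, fun e he => (mem_keep.1 he).2, hc⟩, rfl⟩
  have a2 : n ≤ c.G.dist c.o b := hb
  have a3 : N + 1 ≤ n := hn
  omega

theorem uu_zero : 1 ≤ c.uu 0 0 1 := by
  refine le_trans ?_ (Ex_ge_empty (P01_const le_rfl zero_le_one) fun _ _ => ind_nonneg _)
  rw [ind_pos]
  · simp
  · rintro ⟨a, ha, b, hb, h⟩
    rw [keep_univ] at h
    obtain rfl := conn_empty h
    have a1 : c.G.dist c.o a ≤ 0 := ha
    have a2 : 1 ≤ c.G.dist c.o a := hb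
    omega

end MeasM

theorem measS (h : StmtOpen) : StmtMeas := by
  classical
  intro V G hc h1
  by_contra k
  have k' := k
  have cV : Countable V := by
    rcases isEmpty_or_nonempty V with e | ⟨⟨x⟩⟩
    · infer_instance
    · obtain ⟨c, -⟩ := hc x
      exact MeasM.cnt c
  set p0 := sInf {p : I | 0 < setBernoulli G.edgeSet p
      {ω | ∃ x, {y | (SimpleGraph.fromEdgeSet ω).Reachable x y}.Infinite}} with hp0
  rw [Set.ofPred_exists, measure_iUnion_null_iff, not_forall] at k'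
  obtain ⟨x, hx⟩ := k'
  obtain ⟨c, rfl, rfl⟩ := hc x
  obtain ⟨θ, hθ, a⟩ := MeasM.to_finite c p0 hx
  have h1' : (p0 : ℝ) < 1 := h1
  have h0 : (0 : ℝ) < p0 := by
    refine lt_of_le_of_ne p0.2.1 fun e => ?_
    have := a 1
    rw [← e] at this
    linarith [MeasM.uu_zero c]
  obtain ⟨p, θ', a1, a2, a3, a4⟩ := h V c p0 θ h0 h1' hθ a
  have : p0 ≤ ⟨p, a1.le, (a2.trans h1').le⟩ :=
    sInf_le (MeasM.of_finite c ⟨p, a1.le, (a2.trans h1').le⟩ a3 a4)
  exact absurd (show (p0 : ℝ) ≤ p from this) (not_le.2 a2)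

end Vale.Agent.P151Q
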