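import Vale.Agent.P151Q.Base

/-! Parallelograms: three moves from one axis. -/

namespace Vale.Agent.P151Q

open Finset Vale.Agent.P151

namespace MovesM

variable {V : Type} [DecidableEq V]

theorem first_edge {ω : Finset (Sym2 V)} {A S T : Set V} (h : link (keep ω (ins A)) S T) :
    (∃ a ∈ S, a ∈ T) ∨ ∃ a ∈ S, ∃ u v, conn (keep ω (ins (A \ T))) a u ∧ u ∈ A ∧ u ∉ T ∧
      v ∈ A ∧ v ∈ T ∧ s(u, v) ∈ ω := by
  obtain ⟨a, ha, b, hb, hc⟩ := h
  by_cases c0 : a ∈ T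
  · exact Or.inl ⟨a, ha, c0⟩
  refine Or.inr ⟨a, ha, ?_⟩
  have : (∃ u v, conn (keep ω (ins (A \ T))) a u ∧ u ∈ A ∧ u ∉ T ∧ v ∈ A ∧ v ∈ T ∧ s(u, v) ∈ ω) ∨
      (b ∉ T ∧ conn (keep ω (ins (A \ T))) a b) := by
    clear hb
    induction hc with
    | refl => exact Or.inr ⟨c0, conn_refl _ _⟩
    | @tail u v _ he ih =>
      rcases ih with ih | ⟨k1, k2⟩
      · exact Or.inl ih
      · have e1 := mem_keep.1 he
        have e2 := mk_mem_ins.1 e1.2
        by_cases c : v ∈ T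
        · exact Or.inl ⟨u, v, k2, e2.1, k1, e2.2, c, e1.1⟩
        · exact Or.inr ⟨c, k2.trans (conn_edge (mem_keep.2
            ⟨e1.1, mk_mem_ins.2 ⟨⟨e2.1, k1⟩, ⟨e2.2, c⟩⟩⟩))⟩
  exact this.resolve_right fun h => h.1 hb

theorem split3 {ω : Finset (Sym2 V)} {A S T X A1 T1 A2 T2 A3 T3 : Set V}
    (h : link (keep ω (ins A)) S T) (hX : T ⊆ X)
    (h1 : ∀ x ∈ A, x ∉ X → x ∈ A1 ∧ x ∈ A2 ∧ x ∈ A3)
    (h2 : ∀ x ∈ A, x ∉ X → ∀ y ∈ A, y ∈ X →
      (y ∈ A1 ∧ y ∈ T1) ∨ (y ∈ A2 ∧ y ∈ T2) ∨ (y ∈ A3 ∧ y ∈ T3))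
    (h3 : ∀ y ∈ S, y ∈ X → y ∈ T1 ∨ y ∈ T2 ∨ y ∈ T3) :
    link (keep ω (ins A1)) S T1 ∨ link (keep ω (ins A2)) S T2 ∨ link (keep ω (ins A3)) S T3 := by
  rcases first_edge (h.mono subset_rfl subset_rfl hX) with ⟨a, ha, hb⟩ |
    ⟨a, ha, u, v, k1, k2, k3, k4, k5, k6⟩
  · exact (h3 a ha hb).imp (fun k => ⟨a, ha, a, k, conn_refl _ _⟩)
      (Or.imp (fun k => ⟨a, ha, a, k, conn_refl _ _⟩) fun k => ⟨a, ha, a, k, conn_refl _ _⟩)
  · have key : ∀ B T' : Set V, (∀ x ∈ A, x ∉ X → x ∈ B) → v ∈ B ∧ v ∈ T' →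
        link (keep ω (ins B)) S T' := fun B T' m1 m2 =>
      ⟨a, ha, v, m2.2, (k1.mono (keep_mono subset_rfl (ins_mono fun x hx => m1 x hx.1 hx.2))).trans
        (conn_edge (mem_keep.2 ⟨k6, mk_mem_ins.2 ⟨m1 u k2 k3, m2.1⟩⟩))⟩
    exact (h2 u k2 k3 v k4 k5).imp (key _ _ fun x a b => (h1 x a b).1)
      (Or.imp (key _ _ fun x a b => (h1 x a b).2.1) (key _ _ fun x a b => (h1 x a b).2.2))

theorem small (c : Cfg V) {r : ℕ} {y : V} (hy : y ∈ c.Bl c.o r) :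
    |c.s y - c.s c.o| ≤ c.L * r ∧ |c.t y - c.t c.o| ≤ c.L * r := by
  have a1 := c.lip_s y c.o
  have a2 := c.lip_t y c.o
  have a3 : (c.G.dist y c.o : ℤ) ≤ r := by rw [c.d_comm]; exact_mod_cast hy
  have a4 : (c.L : ℤ) * c.G.dist y c.o ≤ c.L * r := mul_le_mul_of_nonneg_left a3 (by positivity)
  exact ⟨a1.trans a4, a2.trans a4⟩

theorem side (c : Cfg V) {p : ℝ} (h0 : 0 ≤ p) (h1 : p ≤ 1) {N r : ℕ} {A T A' T' : Set (ℤ × ℤ)}
    (k1 : ∀ x ∈ A, x ∉ T → x ∈ A')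
    (k2 : ∀ x ∈ A, x ∉ T → ∀ y ∈ A, y ∈ T → |x.1 - y.1| ≤ c.L → |x.2 - y.2| ≤ c.L →
      y ∈ A' ∧ y ∈ T')
    (k3 : ∀ x ∈ T, |x.1| ≤ c.L * r → |x.2| ≤ c.L * r → x ∈ T') :
    c.fm p N r A' T' ≤ c.fm p N r A T := by
  refine c.fl_le_of h0 h1 fun ω hω h => first_hit ((LatG_EG _ _).mono hω) h
    (fun x a b => k1 _ a b) (fun x a b y a' b' e => k2 _ a b _ a' b' ?_ ?_)
    fun x a b => k3 _ b (small c a).1 (small c a).2
  · simpa using c.lipS x y e
  · simpa using c.lipT x y e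

theorem lin_le (A B u v K : ℤ) (h1 : |u| ≤ K) (h2 : |v| ≤ K) :
    |A * u + B * v| ≤ K * (|A| + |B|) := by
  refine (abs_add_le _ _).trans ?_
  rw [abs_mul, abs_mul]
  nlinarith [mul_le_mul_of_nonneg_left h1 (abs_nonneg A),
    mul_le_mul_of_nonneg_left h2 (abs_nonneg B)]

def Sg (c : Cfg V) (a b : ℕ) : Set (ℤ × ℤ) := {z | -(a : ℤ) ≤ z.2 ∧ z.2 ≤ b + c.L}

def lam (b : ℕ) (z : ℤ) (x : ℤ × ℤ) : ℤ := (b : ℤ) * x.1 + (-z) * x.2

noncomputable def fT (c : Cfg V) (p : ℝ) (N r a b : ℕ) (z α β : ℤ) : ℝ :=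
  c.fm p N r {x | x ∈ Sg c a b ∧ -α ≤ lam b z x ∧ lam b z x ≤ β} {x | (b : ℤ) < x.2}

noncomputable def fL (c : Cfg V) (p : ℝ) (N r a b : ℕ) (z α β : ℤ) : ℝ :=
  c.fm p N r {x | x ∈ Sg c a b ∧ lam b z x ≤ β} {x | x ∈ Sg c a b ∧ lam b z x < -α}

noncomputable def fR (c : Cfg V) (p : ℝ) (N r a b : ℕ) (z α β : ℤ) : ℝ :=
  c.fm p N r {x | x ∈ Sg c a b ∧ -α ≤ lam b z x} {x | x ∈ Sg c a b ∧ β < lam b z x}

theorem small_Sg (c : Cfg V) {r a b : ℕ} (ha : (c.L : ℤ) * r ≤ a) (hab : a ≤ b) {x : ℤ × ℤ}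
    (h : |x.2| ≤ c.L * r) : x ∈ Sg c a b := by
  rw [abs_le] at h
  constructor <;> omega

theorem mul3 (c : Cfg V) {p : ℝ} (h0 : 0 ≤ p) (h1 : p ≤ 1) {N r a b : ℕ}
    (ha : (c.L : ℤ) * r ≤ a) (hab : a ≤ b) (z α β : ℤ) :
    fT c p N r a b z α β * (fL c p N r a b z α β * fR c p N r a b z α β) ≤
      c.fm p N r (Sg c a b) {x | (b : ℤ) < x.2} := by
  refine c.fl_mul3 h0 h1 fun ω _ h => split3
    (X := c.cyl c.o {x | (b : ℤ) < x.2 ∨ lam b z x < -α ∨ β < lam b z x}) h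
    (fun x hx => Or.inl hx) (fun x a b => ?_) (fun x a b y a' b' => ?_) fun y a b => ?_
  · simp only [Cfg.cyl, Set.mem_ofPred_eq, not_or, not_lt] at *
    tauto
  · simp only [Cfg.cyl, Set.mem_ofPred_eq, not_or, not_lt] at a a' b b' ⊢
    simp only [a', true_and]
    omega
  · have := small_Sg c ha hab (x := (c.s y - c.s c.o, c.t y - c.t c.o)) (small c a).2
    simp only [Cfg.cyl, Set.mem_ofPred_eq, this, true_and] at *
    exact b

theorem mul2 (c : Cfg V) {p : ℝ} (h0 : 0 ≤ p) (h1 : p ≤ 1) {N r a b : ℕ} (z α β : ℤ) :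
    fL c p N r a b z α β * fR c p N r a b z α β ≤
      c.fm p N r (Sg c a b) {x | x ∈ Sg c a b ∧ (lam b z x < -α ∨ β < lam b z x)} := by
  refine c.fl_mul h0 h1 fun ω _ h => Or.imp_right (fun k => k.elim id id) (split3 h
    subset_rfl (fun x a b => ?_) (fun x a b y a' b' => ?_) fun y a b => ?_)
  · simp only [Cfg.cyl, Set.mem_ofPred_eq, not_or, not_lt, not_and] at *
    tauto
  · have b2 := b
    simp only [Cfg.cyl, Set.mem_ofPred_eq, not_or, not_lt, not_and] at a a' b b' ⊢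
    have := b a
    simp only [a', true_and] at b' ⊢
    omega
  · simp only [Cfg.cyl, Set.mem_ofPred_eq] at *
    tauto

theorem core (c : Cfg V) {p δ : ℝ} (h0 : 0 ≤ p) (h1 : p ≤ 1) {N r a b : ℕ} {E W zs αs : ℤ}
    (hE : (r + 1) * c.L ≤ E) (hab : a ≤ b) (hb : 96 * E ≤ b)
    (hW : 12 * (E * (b + |zs|)) ≤ W) (hα0 : 0 ≤ αs) (hα1 : αs ≤ W)
    (hT : fT c p N r a b zs αs (W - αs) ≤ δ)
    (hLR : ∀ z α : ℤ, 0 ≤ α → α ≤ W - 1 →
      fL c p N r a b z α (W - 1 - α) ≤ δ ∨ fR c p N r a b z α (W - 1 - α) ≤ δ) :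
    ∃ z : ℤ, E * (|(b : ℤ)| + |-z|) ≤ W ∧ c.MovesAt p δ r b (-z) W a b N := by
  have L1 : (1 : ℤ) ≤ c.L := by exact_mod_cast c.L_pos
  have r0 : (0 : ℤ) ≤ c.L * r := by positivity
  have E1 : (c.L : ℤ) ≤ E := by linarith
  have E2 : (c.L : ℤ) * r ≤ E := by linarith
  have b0 : (0 : ℤ) < b := by linarith
  have W1 : 12 * (b : ℤ) ≤ W := by nlinarith [abs_nonneg zs]
  obtain ⟨k, k0, k1, k2⟩ : ∃ k : ℤ, 0 ≤ k ∧ 2 * W < k * b ∧ k * b ≤ 2 * W + b := by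
    refine ⟨2 * W / b + 1, ?_, ?_, ?_⟩
    · have : 0 ≤ 2 * W / b := Int.ediv_nonneg (by linarith) b0.le
      linarith
    · exact Int.lt_ediv_add_one_mul_self _ b0
    · have := Int.ediv_mul_le (2 * W) b0.ne'
      linarith
  have k3 : 96 * (E * k) ≤ k * b := by nlinarith
  have k4 : k * c.L ≤ E * k := by nlinarith
  have hG : ∀ z, |z - zs| ≤ k → 4 * (E * (|(b : ℤ)| + |-z|)) ≤ W := by
    intro z hz
    have a1 : |z| ≤ |zs| + k := by have := abs_sub_abs_le_abs_sub z zs; linarith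
    rw [abs_neg, abs_of_pos b0]
    have := mul_le_mul_of_nonneg_left a1 (show 0 ≤ E by linarith)
    linarith
  have hK : ∀ z, |z - zs| ≤ k → ∀ (K : ℤ) (x : ℤ × ℤ), K ≤ E → |x.1| ≤ K → |x.2| ≤ K →
      4 * |lam b z x| ≤ W := by
    intro z hz K x a1 a2 a3
    have := lin_le b (-z) x.1 x.2 E (a2.trans a1) (a3.trans a1)
    have := hG z hz
    unfold lam
    linarith
  have hA : ∀ z, |z - zs| ≤ k → ∀ x y : ℤ × ℤ, |x.1 - y.1| ≤ c.L → |x.2 - y.2| ≤ c.L →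
      4 * |lam b z x - lam b z y| ≤ W := by
    intro z hz x y a2 a3
    have := hK z hz c.L (x.1 - y.1, x.2 - y.2) E1 a2 a3
    rwa [show lam b z (x.1 - y.1, x.2 - y.2) = lam b z x - lam b z y by simp only [lam]; ring]
      at this
  have mR : ∀ z x, x ∈ c.Rg b (-z) W a b ↔ |lam b z x| ≤ 4 * W ∧ x ∈ Sg c a b := fun _ _ => Iff.rfl
  have mS : ∀ x, x ∈ Sg c a b → |x.2| ≤ b + c.L := fun x hx => by
    have := hx.1
    have := hx.2
    rw [abs_le]; constructor <;> omega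
  have up : ∀ z, |z - zs| ≤ k → ∀ Tg : Set (ℤ × ℤ),
      (∀ x, -W ≤ lam b zs x → lam b zs x ≤ W → (b : ℤ) < x.2 → x ∈ Tg) →
      c.fm p N r (c.Rg b (-z) W a b) (c.Rg b (-z) W a b ∩ Tg) ≤ δ := by
    intro z hz Tg hTg
    have key : ∀ x, x ∈ Sg c a b ∧ -αs ≤ lam b zs x ∧ lam b zs x ≤ W - αs →
        x ∈ c.Rg b (-z) W a b := by
      intro x hx
      refine (mR z x).2 ⟨?_, hx.1⟩
      have a1 : |(z - zs) * x.2| ≤ k * (b + c.L) := by
        rw [abs_mul]; exact mul_le_mul hz (mS x hx.1) (abs_nonneg _) k0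
      have a2 : lam b z x = lam b zs x - (z - zs) * x.2 := by simp only [lam]; ring
      rw [abs_le] at a1 ⊢
      constructor <;> linarith [hx.2.1, hx.2.2, a1.1, a1.2]
    refine le_trans (side c h0 h1 (fun x hx _ => key x hx) (fun x _ _ y hy hy' _ _ => ?_)
      fun x hx _ h => ?_) hT
    · exact ⟨key y hy, key y hy, hTg y (by linarith [hy.2.1]) (by linarith [hy.2.2]) hy'⟩
    · have : (b : ℤ) < x.2 := hx
      rw [abs_le] at h
      linarith [h.2]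
  obtain ⟨a1, w1, w2⟩ : ∃ a1 : ℤ, 3 * a1 ≤ W ∧ W < 3 * a1 + 3 := ⟨W / 3, by omega, by omega⟩
  have left : ∀ z, |z - zs| ≤ k → fL c p N r a b z a1 (W - 1 - a1) ≤ δ →
      c.fm p N r (c.Rg b (-z) W a b)
        (c.Rg b (-z) W a b ∩ {x | 4 * ((b : ℤ) * x.1 + -z * x.2) ≤ -W}) ≤ δ := by
    intro z hz h
    refine le_trans (side c h0 h1 (fun x hx hx' => ?_) (fun x hx hx' y hy hy' e1 e2 => ?_)
      fun x hx e1 e2 => ?_) h
    · have a2 : ¬ lam b z x < -a1 := fun d => hx' ⟨hx.1, d⟩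
      have := hx.2
      exact (mR z x).2 ⟨abs_le.2 ⟨by omega, by omega⟩, hx.1⟩
    · have a2 : ¬ lam b z x < -a1 := fun d => hx' ⟨hx.1, d⟩
      have a3 := hA z hz x y e1 e2
      have a4 := le_abs_self (lam b z x - lam b z y)
      have a5 := hy'.2
      have a6 : y ∈ c.Rg b (-z) W a b := (mR z y).2 ⟨abs_le.2 ⟨by omega, by omega⟩, hy.1⟩
      exact ⟨a6, a6, show 4 * lam b z y ≤ -W by omega⟩
    · have a3 := hK z hz _ x E2 e1 e2
      have a5 := hx.2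
      exact ⟨(mR z x).2 ⟨by omega, hx.1⟩, show 4 * lam b z x ≤ -W by omega⟩
  have right : ∀ z z', |z - zs| ≤ k → |z' - zs| ≤ k → ∀ α β : ℤ, α ≤ W → β ≤ W →
      (∀ x ∈ Sg c a b, |lam b z x - lam b z' x| ≤ W) →
      (∀ x ∈ Sg c a b, β < lam b z' x → W ≤ 4 * lam b z x) → fR c p N r a b z' α β ≤ δ →
      c.fm p N r (c.Rg b (-z) W a b)
        (c.Rg b (-z) W a b ∩ {x | W ≤ 4 * ((b : ℤ) * x.1 + -z * x.2)}) ≤ δ := by
    intro z z' hz hz' α β m1 m2 m3 m4 h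
    refine le_trans (side c h0 h1 (fun x hx hx' => ?_) (fun x hx hx' y hy hy' e1 e2 => ?_)
      fun x hx e1 e2 => ?_) h
    · have a2 : ¬ β < lam b z' x := fun d => hx' ⟨hx.1, d⟩
      have a3 := hx.2
      have a4 := abs_le.1 (m3 x hx.1)
      exact (mR z x).2 ⟨abs_le.2 ⟨by omega, by omega⟩, hx.1⟩
    · have a2 : ¬ β < lam b z' x := fun d => hx' ⟨hx.1, d⟩
      have a3 := hA z' hz' x y e1 e2
      have a4 := neg_abs_le (lam b z' x - lam b z' y)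
      have a5 := hy.2
      have a7 := abs_le.1 (m3 y hy.1)
      have a6 : y ∈ c.Rg b (-z) W a b := (mR z y).2 ⟨abs_le.2 ⟨by omega, by omega⟩, hy.1⟩
      exact ⟨a6, a6, m4 y hy.1 hy'.2⟩
    · have a3 := hK z hz _ x E2 e1 e2
      exact ⟨(mR z x).2 ⟨by omega, hx.1⟩, m4 x hx.1 hx.2⟩
  have fin : ∀ z, |z - zs| ≤ k → c.MovesAt p δ r b (-z) W a b N →
      ∃ z : ℤ, E * (|(b : ℤ)| + |-z|) ≤ W ∧ c.MovesAt p δ r b (-z) W a b N := fun z hz h =>
    ⟨z, by linarith [hG z hz], h⟩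
  have z1 : |zs - k - zs| ≤ k := by rw [abs_le]; constructor <;> linarith
  have z2 : |zs + k - zs| ≤ k := by rw [abs_le]; constructor <;> linarith
  by_cases c1 : fR c p N r a b (zs + k) (W - 1 - a1) a1 ≤ δ
  · refine fin _ z2 ⟨up _ z2 _ fun x _ _ h => h, right _ _ z2 z2 _ _ (by omega) (by omega)
      (fun x _ => by simp only [sub_self, abs_zero]; omega) (fun x _ h => by omega) c1,
      up _ z2 _ fun x _ m h => ?_⟩
    have a2 : (b : ℤ) * x.1 + -(zs + k) * x.2 = lam b zs x - k * x.2 := by simp only [lam]; ring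
    have a3 := mul_le_mul_of_nonneg_left h.le k0
    show 4 * ((b : ℤ) * x.1 + -(zs + k) * x.2) ≤ -W
    linarith
  by_cases c2 : fL c p N r a b (zs - k) a1 (W - 1 - a1) ≤ δ
  · refine fin _ z1 ⟨up _ z1 _ fun x _ _ h => h, up _ z1 _ fun x m _ h => ?_, left _ z1 c2⟩
    have a2 : (b : ℤ) * x.1 + -(zs - k) * x.2 = lam b zs x + k * x.2 := by simp only [lam]; ring
    have a3 := mul_le_mul_of_nonneg_left h.le k0
    show W ≤ 4 * ((b : ℤ) * x.1 + -(zs - k) * x.2)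
    linarith
  have c3 : fL c p N r a b (zs + k) a1 (W - 1 - a1) ≤ δ := by
    have := hLR (zs + k) (W - 1 - a1) (by omega) (by omega)
    rw [show W - 1 - (W - 1 - a1) = a1 by ring] at this
    refine le_trans (side c h0 h1 (fun x hx _ => ?_) (fun x _ _ y hy hy' _ _ => ?_)
      fun x hx _ _ => ?_) (this.resolve_right c1)
    · exact ⟨hx.1, by have := hx.2; omega⟩
    · exact ⟨⟨hy.1, by have := hy.2; omega⟩, hy.1, by have := hy'.2; omega⟩
    · exact ⟨hx.1, by have := hx.2; omega⟩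
  obtain ⟨z, q1, q2, q3, q4⟩ : ∃ z, zs - k ≤ z ∧ z < zs + k ∧
      ¬ fL c p N r a b z a1 (W - 1 - a1) ≤ δ ∧ fL c p N r a b (z + 1) a1 (W - 1 - a1) ≤ δ := by
    by_contra d
    push Not at d
    have : ∀ z, zs - k ≤ z → z ≤ zs + k → δ < fL c p N r a b z a1 (W - 1 - a1) := by
      intro z hz
      induction z, hz using Int.leInduction with
      | base => exact fun _ => not_le.1 c2
      | succ n hn ih => exact fun e => d n hn (by omega) (ih (by omega))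
    exact absurd c3 (not_le.2 (this _ (by omega) le_rfl))
  have z3 : |z - zs| ≤ k := by rw [abs_le]; constructor <;> linarith
  have z4 : |z + 1 - zs| ≤ k := by rw [abs_le]; constructor <;> linarith
  have e : ∀ x, lam b (z + 1) x = lam b z x - x.2 := fun x => by simp only [lam]; ring
  refine fin _ z4 ⟨up _ z4 _ fun x _ _ h => h, right _ _ z4 z3 a1 (W - 1 - a1) (by omega)
    (by omega) (fun x hx => ?_) (fun x hx h => ?_)
    ((hLR z a1 (by omega) (by omega)).resolve_left q3), left _ z4 q4⟩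
  · have := abs_le.1 (mS x hx)
    rw [e, abs_le]; constructor <;> omega
  · have := abs_le.1 (mS x hx)
    rw [e]; omega

end MovesM

open MovesM in
theorem movesS (hT : StmtThin) : StmtMoves := by
  classical
  intro V _ c p h0 h1 htop n0 δ hδ
  obtain ⟨d, d0, d1, d2⟩ : ∃ d : ℝ, 0 < d ∧ d ≤ δ ∧ d ≤ 1 := ⟨min δ 1, by positivity,
    min_le_left _ _, min_le_right _ _⟩
  have d3 : 0 < d ^ 3 / 2 := by positivity
  have d4 : d ^ 3 ≤ d * d := by nlinarith [mul_pos d0 d0]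
  obtain ⟨r, hr⟩ := htop (max n0 1) _ d3
  refine ⟨r, fun D => ?_⟩
  obtain ⟨E, hE⟩ : ∃ E : ℕ, E = (D + r + 1) * c.L := ⟨_, rfl⟩
  obtain ⟨g0, l, hth⟩ := hT V c p _ r (12 * E) h0 h1 d3
  obtain ⟨a, b, N, m1, m2, m3, m4⟩ := hr (g0 + 96 * E)
  have L1 := c.L_pos
  have hab : a ≤ b := by nlinarith [le_max_right n0 1]
  have hn : n0 * a ≤ b := (Nat.mul_le_mul_right a (le_max_left n0 1)).trans m2
  have E1 : D ≤ E := by nlinarith
  have E2 : (r + 1) * c.L ≤ E := by nlinarith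
  have E3 : (c.L : ℤ) * r ≤ a := by
    have : c.L * r ≤ a := by nlinarith
    exact_mod_cast this
  have t1 : c.fm p N r (Sg c a b) {x | (b : ℤ) < x.2} ≤ d ^ 3 / 2 := by
    refine le_trans (side c h0.le h1 (fun x hx hx' => ?_) (fun x _ hx' y hy hy' _ e => ?_)
      fun x hx _ _ => hx) m4
    · have : ¬ (b : ℤ) < x.2 := hx'
      exact ⟨hx, by omega⟩
    · have : ¬ (b : ℤ) < x.2 := hx'
      rw [abs_le] at e
      exact ⟨⟨hy, by omega⟩, hy'⟩
  have t2 : c.fm p (N + l) r (Sg c a b) {x | (b : ℤ) < x.2} ≤ d ^ 3 / 2 :=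
    (c.fl_anti_N h0.le h1 _ (Nat.le_add_right N l) _ _ _).trans t1
  have ex : ∃ W : ℕ, ∃ z α : ℤ, 0 ≤ α ∧ α ≤ W ∧ 12 * (E * (b + |z|)) ≤ W ∧
      fT c p (N + l) r a b z α (W - α) ≤ d := by
    refine ⟨2 * (b * (c.L * (N + l) + 12 * E)), 0, b * (c.L * (N + l) + 12 * E), by positivity,
      ?_, ?_, le_trans ?_ (t2.trans (by nlinarith))⟩
    · push_cast
      have : (0 : ℤ) ≤ b * (c.L * (N + l) + 12 * E) := by positivity
      linarith
    · push_cast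
      have : (0 : ℤ) ≤ b * (c.L * (N + l)) := by positivity
      have : (0 : ℤ) ≤ b * E := by positivity
      simp only [abs_zero]
      linarith
    · refine c.fl_mono h0.le h1 (by omega) (fun y hy hy' => ⟨hy, ?_⟩) fun y hy _ => hy
      have a1 := abs_le.1 (small c hy').1
      have a2 := mul_le_mul_of_nonneg_left a1.1 (show (0 : ℤ) ≤ b by positivity)
      have a3 := mul_le_mul_of_nonneg_left a1.2 (show (0 : ℤ) ≤ b by positivity)
      have : (0 : ℤ) ≤ b * E := by positivity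
      simp only [lam]
      push_cast at *
      constructor <;> linarith
  obtain ⟨zs, αs, w1, w2, w3, w4⟩ := Nat.find_spec ex
  have hmin := fun m => Nat.find_min ex (m := m)
  generalize Nat.find ex = W at *
  have E0 : 0 < E := by nlinarith
  have W0 : (0 : ℤ) < W := by
    have a1 : (0 : ℤ) < E * (b + |zs|) := by
      have : (0 : ℤ) < b := by omega
      positivity
    linarith
  obtain ⟨z, k1, k2⟩ := core c (δ := d) (N := N + l) (E := E) (W := W) h0.le h1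
    (by exact_mod_cast E2) hab (by omega) w3 w1 w2 w4 (by
      intro z α a1 a2
      by_contra hc
      push Not at hc
      have a3 := mul_lt_mul'' hc.1 hc.2 d0.le d0.le
      by_cases q : W - 1 < 12 * (E * (b + |z|) : ℤ)
      · have b1 := hth a b N b (-z) α (W - 1 - α) (by omega) hab (by
          rw [abs_neg, abs_of_nonneg (by positivity : (0 : ℤ) ≤ b)]; push_cast; linarith)
        have b2 := (mul2 c h0.le h1 (N := N + l) (r := r) (a := a) (b := b) z α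
          (W - 1 - α)).trans b1
        have b3 : c.fm p N r {z | -(a : ℤ) ≤ z.2 ∧ z.2 ≤ b + c.L} {z | (b : ℤ) < z.2} ≤ _ := t1
        linarith
      · have b1 := hmin (W - 1) (by omega)
        push Not at b1
        have e : ((W - 1 : ℕ) : ℤ) = W - 1 := by omega
        rw [e] at b1
        have b2 := b1 z α a1 a2 (not_lt.1 q)
        have b3 := (mul3 c h0.le h1 (N := N + l) E3 hab z α (W - 1 - α)).trans t2
        have b4 := mul_lt_mul'' b2 a3 d0.le (mul_pos d0 d0).le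
        nlinarith)
  refine ⟨b, -z, W, a, b, N + l, W0, le_trans ?_ k1, by omega, hn, by omega,
    k2.1.trans d1, k2.2.1.trans d1, k2.2.2.trans d1⟩
  exact mul_le_mul_of_nonneg_right (by exact_mod_cast E1) (by positivity)

end Vale.Agent.P151Q
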