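import Vale.Agent.P151Q.Base

/-! The oriented adaptive Peierls argument. -/

namespace Vale.Agent.P151Q

open Finset Vale.Agent.P151

namespace PeierlsM

def NW (s : Z2 × Z2) : Prop := s.2 = (0, 1) ∨ s.2 = (-1, 0)

open Classical in
noncomputable def ad (s : Z2 × Z2) (K : Finset Z2) : Finset Z2 :=
  if NW s then insert (bb s) K else K

open Classical in
noncomputable def Fam : ℕ → Finset ((Z2 × Z2) × Finset Z2)
  | 0 => {(s2, ∅)}
  | t + 1 => (Fam t).biUnion fun x => {((x.1.1, lt x.1.2), ad x.1 x.2),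
      ((x.1.1 + x.1.2, x.1.2), ad x.1 x.2), ((x.1.1 + x.1.2 + rt x.1.2, rt x.1.2), ad x.1 x.2)}

theorem card_Fam (t : ℕ) : (Fam t).card ≤ 3 ^ t := by
  induction t with
  | zero => simp [Fam]
  | succ t ih =>
    rw [Fam]
    refine card_biUnion_le.trans ((sum_le_card_nsmul _ _ 3 fun x _ => card_le_three).trans ?_)
    rw [smul_eq_mul, pow_succ]
    omega

noncomputable def gg (ε : ℝ) (K O C : Finset Z2) : ℝ := ind (Disjoint K O) * ε ^ (K \ C).card

theorem gg_nonneg {ε : ℝ} (h : 0 ≤ ε) (K O C : Finset Z2) : 0 ≤ gg ε K O C :=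
  mul_nonneg (ind_nonneg _) (pow_nonneg h _)

theorem gg_step {ε : ℝ} (h : 0 ≤ ε) (K O C : Finset Z2) {x : Z2} (hx : x ∉ C) :
    gg ε K (insert x O) C ≤ gg ε K O (insert x C) ∧
      (1 - ε) * gg ε K (insert x O) C + ε * gg ε K O (insert x C) = gg ε K O C := by
  by_cases c : x ∈ K
  · have e1 : gg ε K (insert x O) C = 0 := by
      rw [gg, ind_neg, zero_mul]
      exact fun d => disjoint_left.1 d c (mem_insert_self _ _)
    have e2 : K \ C = insert x (K \ insert x C) := by
      ext y; simp only [mem_sdiff, mem_insert]; grind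
    refine ⟨e1 ▸ gg_nonneg h _ _ _, ?_⟩
    rw [e1, gg, gg, e2, card_insert_of_notMem (by simp)]
    ring
  · have e1 : gg ε K (insert x O) C = gg ε K O C := by
      rw [gg, gg, ind_congr (P := Disjoint K (insert x O)) (Q := Disjoint K O) (by simp [c])]
    have e2 : K \ insert x C = K \ C := by
      ext y; simp only [mem_sdiff, mem_insert]; grind
    have e3 : gg ε K O (insert x C) = gg ε K O C := by rw [gg, gg, e2]
    rw [e1, e3]
    exact ⟨le_rfl, by ring⟩

noncomputable def FF (ε : ℝ) (T : ℕ) (O C : Finset Z2) : ℝ :=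
  ∑ t ∈ range T, ∑ x ∈ (Fam (t + 1)).filter (fun x => t + 1 ≤ 4 * x.2.card), gg ε x.2 O C

theorem FF_nonneg {ε : ℝ} (h : 0 ≤ ε) (T : ℕ) (O C : Finset Z2) : 0 ≤ FF ε T O C :=
  sum_nonneg fun _ _ => sum_nonneg fun _ _ => gg_nonneg h _ _ _

theorem gg_le_FF {ε : ℝ} (h : 0 ≤ ε) {T t : ℕ} (O C : Finset Z2) (ht : t < T)
    {x : (Z2 × Z2) × Finset Z2} (h1 : x ∈ Fam (t + 1)) (h2 : t + 1 ≤ 4 * x.2.card) :
    gg ε x.2 O C ≤ FF ε T O C := by
  have a1 : gg ε x.2 O C ≤
      ∑ x ∈ (Fam (t + 1)).filter (fun x => t + 1 ≤ 4 * x.2.card), gg ε x.2 O C :=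
    single_le_sum (f := fun x : (Z2 × Z2) × Finset Z2 => gg ε x.2 O C)
      (fun _ _ => gg_nonneg h _ _ _) (mem_filter.2 ⟨h1, h2⟩)
  exact a1.trans (single_le_sum (f := fun t => ∑ x ∈ (Fam (t + 1)).filter
    (fun x => t + 1 ≤ 4 * x.2.card), gg ε x.2 O C)
    (fun _ _ => sum_nonneg fun _ _ => gg_nonneg h _ _ _) (mem_range.2 ht))

theorem FF_step {ε : ℝ} (h : 0 ≤ ε) (T : ℕ) (O C : Finset Z2) {x : Z2} (hx : x ∉ C) :
    FF ε T (insert x O) C ≤ FF ε T O (insert x C) ∧
      (1 - ε) * FF ε T (insert x O) C + ε * FF ε T O (insert x C) = FF ε T O C := by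
  refine ⟨sum_le_sum fun _ _ => sum_le_sum fun y _ => (gg_step h y.2 O C hx).1, ?_⟩
  simp only [FF, mul_sum, ← sum_add_distrib]
  exact sum_congr rfl fun _ _ => sum_congr rfl fun y _ => (gg_step h y.2 O C hx).2

theorem FF_init {ε : ℝ} (h : 0 ≤ ε) (h1 : ε ≤ 1 / 2 ^ 33) (T : ℕ) (O : Finset Z2) :
    FF ε T O ∅ ≤ 1 / 2 := by
  have key : ∀ t : ℕ, ∑ x ∈ (Fam (t + 1)).filter (fun x => t + 1 ≤ 4 * x.2.card), gg ε x.2 O ∅ ≤
      (1 / 4) * (1 / 2 : ℝ) ^ t := by
    intro t
    have a1 : ∀ x ∈ (Fam (t + 1)).filter (fun x => t + 1 ≤ 4 * x.2.card),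
        gg ε x.2 O ∅ ≤ (1 / 2 ^ 8 : ℝ) ^ (t + 1) := by
      intro x hx
      have b1 := (mem_filter.1 hx).2
      rw [gg, sdiff_empty]
      refine (mul_le_of_le_one_left (pow_nonneg h _) (ind_le_one _)).trans ?_
      refine (pow_le_pow_left₀ h h1 _).trans ?_
      rw [one_div, one_div, inv_pow, inv_pow, ← pow_mul, ← pow_mul]
      exact inv_anti₀ (by positivity) (pow_le_pow_right₀ (by norm_num) (by omega))
    refine (sum_le_card_nsmul _ _ _ a1).trans ?_
    rw [nsmul_eq_mul]
    have a2 : (((Fam (t + 1)).filter (fun x => t + 1 ≤ 4 * x.2.card)).card : ℝ) ≤ 3 ^ (t + 1) := by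
      exact_mod_cast (card_filter_le _ _).trans (card_Fam _)
    refine (mul_le_mul_of_nonneg_right a2 (by positivity)).trans ?_
    rw [← mul_pow, pow_succ, mul_comm]
    exact mul_le_mul (by norm_num) (pow_le_pow_left₀ (by norm_num) (by norm_num) _)
      (by positivity) (by norm_num)
  refine (sum_le_sum fun t _ => key t).trans ?_
  rw [← mul_sum]
  linarith [sum_geometric_two_le T]

def ph (s : Z2 × Z2) : ℤ :=
  (2 * s.1.2 + (rt s.2).2 - s.2.2) - (2 * s.1.1 + (rt s.2).1 - s.2.1)

theorem ph_nxt (O : Finset Z2) (s : Z2 × Z2) : ph (nxt O s) = ph s + 2 * (s.2.2 - s.2.1) := by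
  unfold nxt
  split_ifs <;> simp only [ph, rt, lt, Prod.fst_add, Prod.snd_add] <;> ring

def tt (O : Finset Z2) (i : ℕ) : Z2 × Z2 := (nxt O)^[i] s2

theorem tt_succ (O : Finset Z2) (i : ℕ) : tt O (i + 1) = nxt O (tt O i) :=
  Function.iterate_succ_apply' _ _ _

open Classical in
noncomputable def II (O : Finset Z2) (i : ℕ) : Finset ℕ := (range i).filter fun j => NW (tt O j)

theorem II_zero (O : Finset Z2) : II O 0 = ∅ := by
  rw [II, range_zero]; rfl

theorem II_succ (O : Finset Z2) (i : ℕ) :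
    (NW (tt O i) → II O (i + 1) = insert i (II O i)) ∧ (¬ NW (tt O i) → II O (i + 1) = II O i) := by
  classical
  constructor <;> intro h <;> ext j <;> simp only [II, mem_filter, mem_range, mem_insert] <;> grind

theorem mem_Fam (O : Finset Z2) (i : ℕ) :
    (tt O i, (II O i).image fun j => bb (tt O j)) ∈ Fam i := by
  induction i with
  | zero => rw [II_zero]; simp [Fam, tt]
  | succ i ih =>
    rw [Fam, mem_biUnion]
    refine ⟨_, ih, ?_⟩
    have e : ((II O (i + 1)).image fun j => bb (tt O j)) =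
        ad (tt O i) ((II O i).image fun j => bb (tt O j)) := by
      by_cases c : NW (tt O i)
      · rw [(II_succ O i).1 c, ad, if_pos c, image_insert]
      · rw [(II_succ O i).2 c, ad, if_neg c]
    rw [e, tt_succ, nxt]
    split_ifs <;> simp

theorem terminal {O : Finset Z2} (h0 : ((0, 0) : Z2) ∈ O) (h1 : ((0, -1) : Z2) ∉ O) :
    ∃ t, t + 1 ≤ 4 * O.card ∧ ∃ x ∈ Fam (t + 1), t + 1 ≤ 4 * x.2.card ∧
      ∀ y ∈ x.2, y ∉ O ∧ ∃ v ∈ O, ∃ e ∈ dirs2, y = v + e := by
  classical
  have val : ∀ i, Val O (tt O i) := by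
    intro i
    induction i with
    | zero => exact ⟨h0, h1, (by decide : ((1, 0) : Z2) ∈ dirs)⟩
    | succ i ih => rw [tt_succ]; exact ih.nxt
  have canc : ∀ i k, tt O (i + k) = tt O i → tt O k = tt O 0 := by
    intro i k
    induction i with
    | zero => rw [zero_add]; exact id
    | succ i ih =>
      intro e
      refine ih ?_
      rw [← prv_nxt (val (i + k)), ← prv_nxt (val i), ← tt_succ, ← tt_succ, ← e]
      congr 2; omega
  have mem : ∀ i, tt O i ∈ O ×ˢ dirs := fun i => mem_product.2 ⟨(val i).1, (val i).2.2⟩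
  obtain ⟨i, -, j, -, hij, e⟩ := Set.infinite_univ.exists_lt_map_eq_of_mapsTo
    (f := tt O) (t := ↑(O ×ˢ dirs)) (fun i _ => mem_coe.2 (mem i)) (finite_toSet _)
  have per : s2 ∈ Function.periodicPts (nxt O) := by
    refine Function.mk_mem_periodicPts (n := j - i) (by omega) ?_
    exact canc i (j - i) (by rw [e]; congr 1; omega)
  have pos := Function.minimalPeriod_pos_of_mem_periodicPts per
  obtain ⟨t, ht⟩ : ∃ t, Function.minimalPeriod (nxt O) s2 = t + 1 := ⟨_, (Nat.succ_pred_eq_of_pos pos).symm⟩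
  have inj : ∀ a < t + 1, ∀ b < t + 1, tt O a = tt O b → a = b := fun a ha b hb e =>
    Function.iterate_injOn_Iio_minimalPeriod (f := nxt O) (x := s2) (by rw [ht]; exact ha)
      (by rw [ht]; exact hb) e
  have ret : tt O (t + 1) = s2 := by rw [← ht]; exact Function.iterate_minimalPeriod
  have cnt : ∀ i, ph (tt O i) = ph s2 + 4 * (II O i).card - 2 * i := by
    intro i
    induction i with
    | zero => rw [II_zero]; simp [tt]
    | succ i ih =>
      rw [tt_succ, ph_nxt, ih]
      have d := (val i).2.2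
      simp only [dirs, mem_insert, mem_singleton] at d
      by_cases c : NW (tt O i)
      · rw [(II_succ O i).1 c, card_insert_of_notMem (by simp [II])]
        rcases c with c | c <;> rw [c] <;> push_cast <;> ring
      · rw [(II_succ O i).2 c]
        simp only [NW, not_or] at c
        rcases d with d | d | d | d
        · rw [d]; push_cast; ring
        · exact absurd d c.1
        · exact absurd d c.2
        · rw [d]; push_cast; ring
  refine ⟨t, ?_, _, mem_Fam O (t + 1), ?_, ?_⟩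
  · have := card_le_card_of_injOn (s := range (t + 1)) (t := O ×ˢ dirs) (tt O)
      (fun i _ => mem_coe.2 (mem i)) (fun a ha b hb e => inj a (mem_range.1 (mem_coe.1 ha)) b
        (mem_range.1 (mem_coe.1 hb)) e)
    rw [card_range, card_product, show dirs.card = 4 by decide] at this
    omega
  · have a1 := cnt (t + 1)
    rw [ret] at a1
    have := card_le_card_of_injOn (s := II O (t + 1))
      (t := ((II O (t + 1)).image fun j => bb (tt O j)) ×ˢ ({(0, 1), (-1, 0)} : Finset Z2))
      (fun j => (bb (tt O j), (tt O j).2)) (fun j hj => by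
        have hj' := mem_coe.1 hj
        refine mem_coe.2 (mem_product.2 ⟨mem_image_of_mem _ hj', ?_⟩)
        have := (mem_filter.1 hj').2
        simpa [NW] using this) (fun a ha b hb e => by
        have ha' := mem_range.1 (mem_filter.1 (mem_coe.1 ha)).1
        have hb' := mem_range.1 (mem_filter.1 (mem_coe.1 hb)).1
        refine inj a ha' b hb' ?_
        have e2 : (tt O a).2 = (tt O b).2 := (Prod.ext_iff.1 e).2
        have e1 : bb (tt O a) = bb (tt O b) := (Prod.ext_iff.1 e).1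
        rw [bb, bb, e2] at e1
        exact Prod.ext (add_right_cancel e1) e2)
    rw [card_product, show ({(0, 1), (-1, 0)} : Finset Z2).card = 2 by decide] at this
    dsimp only
    omega
  · intro y hy
    obtain ⟨j, hj, rfl⟩ := mem_image.1 hy
    refine ⟨(val j).2.1, _, (val j).1, rt (tt O j).2, ?_, rfl⟩
    rcases (mem_filter.1 hj).2 with c | c <;> rw [c] <;> decide

end PeierlsM

open PeierlsM in
theorem peierlsS : StmtPeierls := by
  intro N Dv ε h0 h1 H1 H2 H3
  set B : Finset Z2 := Icc (0 : ℤ) N ×ˢ Icc (0 : ℤ) N with hB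
  have main : ∀ (m : ℕ) (O C : Finset Z2), (B \ (O ∪ C)).card = m → ((0, 0) : Z2) ∈ O →
      (∀ v ∈ O, 0 ≤ v.1 ∧ 0 ≤ v.2 ∧ v.1 + v.2 ≤ N) →
      Dv O C ≤ PeierlsM.FF ε (4 * B.card) O C := by
    intro m
    induction m using Nat.strong_induction_on with
    | _ m ih =>
      intro O C hm hz hO
      by_cases c1 : ∃ v ∈ O, (N : ℤ) ≤ v.1 + v.2
      · exact (H2 O C c1).trans (FF_nonneg h0 _ _ _)
      push Not at c1
      by_cases c2 : ∃ v ∈ O, ∃ e ∈ dirs2, v + e ∉ O ∧ v + e ∉ C
      · obtain ⟨v, hv, e, he, d1, d2⟩ := c2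
        have b1 := hO v hv
        have b2 := c1 v hv
        have b3 : 0 ≤ (v + e).1 ∧ 0 ≤ (v + e).2 ∧ (v + e).1 + (v + e).2 ≤ N := by
          simp only [dirs2, mem_insert, mem_singleton] at he
          rcases he with rfl | rfl <;> simp only [Prod.fst_add, Prod.snd_add] <;> omega
        have b4 : v + e ∈ B \ (O ∪ C) := by
          refine mem_sdiff.2 ⟨mem_product.2 ⟨mem_Icc.2 ?_, mem_Icc.2 ?_⟩, by simp [d1, d2]⟩ <;> omega
        have b5 : ((B \ (O ∪ C)).erase (v + e)).card < m := hm ▸ card_erase_lt_of_mem b4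
        have st := FF_step h0 (4 * B.card) O C d2
        rw [← st.2]
        refine H3 O C v hv e he b1.1 b1.2.1 b2 d1 d2 _ _ st.1
          (ih _ b5 _ _ ?_ (mem_insert_of_mem hz) ?_) (ih _ b5 _ _ ?_ hz hO)
        · congr 1; ext y; simp only [mem_sdiff, mem_union, mem_insert, mem_erase]; tauto
        · intro w hw
          rcases mem_insert.1 hw with rfl | hw
          · exact b3
          · exact hO w hw
        · congr 1; ext y; simp only [mem_sdiff, mem_union, mem_insert, mem_erase]; tauto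
      push Not at c2
      obtain ⟨t, t1, x, t2, t3, t4⟩ := terminal hz fun d => by have := (hO _ d).2.1; simp at this
      have b1 : O.card ≤ B.card := card_le_card fun v hv => by
        have := hO v hv
        refine mem_product.2 ⟨mem_Icc.2 ?_, mem_Icc.2 ?_⟩ <;> omega
      have b2 : gg ε x.2 O C = 1 := by
        have : x.2 \ C = ∅ := sdiff_eq_empty_iff_subset.2 fun y hy => by
          obtain ⟨k1, v, hv, e, he, rfl⟩ := t4 y hy
          exact c2 v hv e he k1
        rw [gg, this, ind_pos (disjoint_left.2 fun y hy => (t4 y hy).1)]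
        simp
      refine (H1 O C).trans ?_
      rw [← b2]
      exact gg_le_FF h0 O C (by omega) t2 t3
  exact (main _ _ _ rfl (mem_singleton_self _) (by simp)).trans (FF_init h0 h1 _ _)

end Vale.Agent.P151Q
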