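import Vale.Agent.P151Q.Base

/-! Coordinates from a group of automorphisms with a quotient onto the plane lattice. -/

set_option linter.unusedSectionVars false

namespace Vale.Agent.P151Q

open Finset Vale.Agent.P151

namespace RedM

variable {V : Type} {G : SimpleGraph V}

theorem dist_map_le (hc : G.Connected) (γ : G ≃g G) (x y : V) :
    G.dist (γ x) (γ y) ≤ G.dist x y := by
  obtain ⟨w, hw⟩ := hc.exists_walk_length_eq_dist x y
  have := SimpleGraph.dist_le (w.map γ.toHom)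
  rw [SimpleGraph.Walk.length_map, hw] at this
  exact this

theorem inv_app (γ : G ≃g G) (v : V) : (γ⁻¹ : G ≃g G) (γ v) = v := γ.symm_apply_apply v

theorem app_inv (γ : G ≃g G) (v : V) : γ ((γ⁻¹ : G ≃g G) v) = v := γ.apply_symm_apply v

theorem ball_finite (hf : ∀ v, (G.neighborSet v).Finite) (hc : G.Connected) (x : V) (n : ℕ) :
    {y | G.dist x y ≤ n}.Finite := by
  induction n with
  | zero =>
    refine (Set.finite_singleton x).subset fun y hy => ?_
    exact (hc.dist_eq_zero_iff.1 (Nat.le_zero.1 hy)).symm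
  | succ n ih =>
    refine (ih.union (ih.biUnion fun z _ => hf z)).subset fun y hy => ?_
    obtain ⟨w, hw⟩ := hc.exists_walk_length_eq_dist y x
    have hy' : G.dist x y ≤ n + 1 := hy
    rw [SimpleGraph.dist_comm, ← hw] at hy'
    cases w with
    | nil => exact Or.inl (by simp)
    | @cons _ z _ ha w =>
      refine Or.inr (Set.mem_biUnion (x := z) ?_ ha.symm)
      have := SimpleGraph.dist_le w
      rw [SimpleGraph.Walk.length_cons] at hy'
      show G.dist x z ≤ n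
      rw [SimpleGraph.dist_comm]
      omega

/-- invariant bounds are uniform when there are finitely many orbits -/
theorem unif {Γ : Subgroup (G ≃g G)} {R : Finset V} (hR : ∀ v, ∃ γ ∈ Γ, γ v ∈ R)
    (P : V → ℕ → Prop) (mono : ∀ v n m, n ≤ m → P v n → P v m)
    (inv : ∀ (γ : Γ) v n, P v n → P ((γ : G ≃g G) v) n) (ex : ∀ v, ∃ n, P v n) :
    ∃ n, ∀ v, P v n := by
  choose f hf using ex
  refine ⟨R.sup f, fun v => ?_⟩
  obtain ⟨γ, hγ, h⟩ := hR v
  have := inv (⟨γ, hγ⟩⁻¹) _ _ (mono _ _ _ (le_sup h) (hf (γ v)))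
  rwa [Subgroup.coe_inv, inv_app] at this

theorem exists_pi {Γ : Subgroup (G ≃g G)} (φ : Γ →* Multiplicative (ℤ × ℤ))
    (hφ : ∀ γ : Γ, (∃ v, (γ : G ≃g G) v = v) → φ γ = 1) :
    ∃ π : V → ℤ × ℤ, ∀ (γ : Γ) v, π ((γ : G ≃g G) v) = (φ γ).toAdd + π v := by
  have ex : ∀ v : V, ∃ w, ∃ γ : Γ, (γ : G ≃g G) w = v := fun v => ⟨v, 1, rfl⟩
  let rep : V → V := fun v => @Classical.epsilon V ⟨v⟩ fun w => ∃ γ : Γ, (γ : G ≃g G) w = v
  have h1 : ∀ v, ∃ γ : Γ, (γ : G ≃g G) (rep v) = v := fun v => Classical.epsilon_spec (ex v)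
  have h2 : ∀ (γ : Γ) v, rep ((γ : G ≃g G) v) = rep v := by
    intro γ v
    have : (fun w => ∃ γ' : Γ, (γ' : G ≃g G) w = (γ : G ≃g G) v) =
        fun w => ∃ γ' : Γ, (γ' : G ≃g G) w = v := by
      funext w
      refine propext ⟨fun ⟨γ', h⟩ => ⟨γ⁻¹ * γ', ?_⟩, fun ⟨γ', h⟩ => ⟨γ * γ', ?_⟩⟩
      · show ((γ : G ≃g G)⁻¹ : G ≃g G) ((γ' : G ≃g G) w) = v
        rw [h, inv_app]
      · show (γ : G ≃g G) ((γ' : G ≃g G) w) = _
        rw [h]
    simp only [rep, this]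
  choose g hg using h1
  refine ⟨fun v => (φ (g v)).toAdd, fun γ v => ?_⟩
  have := hφ ((g ((γ : G ≃g G) v))⁻¹ * (γ * g v)) ⟨rep v, by
    show ((g ((γ : G ≃g G) v) : G ≃g G)⁻¹ : G ≃g G)
      ((γ : G ≃g G) ((g v : G ≃g G) (rep v))) = rep v
    rw [hg, ← h2 γ v]
    nth_rewrite 2 [← hg ((γ : G ≃g G) v)]
    rw [inv_app]⟩
  rw [map_mul, map_inv, inv_mul_eq_one] at this
  show (φ (g ((γ : G ≃g G) v))).toAdd = _
  rw [this, map_mul, toAdd_mul]

end RedM

open RedM in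
theorem redS : StmtRed := by
  rintro V G hf hc Γ ⟨R, hR⟩ φ hs hφ x
  obtain ⟨π, hπ⟩ := exists_pi φ hφ
  have p1 : ∀ (γ : Γ) v w, (π ((γ : G ≃g G) v)).1 - (π ((γ : G ≃g G) w)).1 =
      (π v).1 - (π w).1 := fun γ v w => by simp [hπ]
  have p2 : ∀ (γ : Γ) v w, (π ((γ : G ≃g G) v)).2 - (π ((γ : G ≃g G) w)).2 =
      (π v).2 - (π w).2 := fun γ v w => by simp [hπ]
  obtain ⟨L, hL⟩ := unif hR
    (fun v n => ∀ w, G.Adj v w → |(π v).1 - (π w).1| ≤ n ∧ |(π v).2 - (π w).2| ≤ n)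
    (fun v n m h a w hw => ⟨(a w hw).1.trans (by exact_mod_cast h),
      (a w hw).2.trans (by exact_mod_cast h)⟩)
    (fun γ v n a w hw => by
      rw [← app_inv (γ : G ≃g G) w] at hw ⊢
      rw [p1, p2]
      exact a _ ((γ : G ≃g G).map_adj_iff.1 hw))
    (fun v => by
      obtain ⟨n, hn⟩ := ((hf v).image fun w =>
        ((π v).1 - (π w).1).natAbs + ((π v).2 - (π w).2).natAbs).bddAbove
      refine ⟨n, fun w hw => ?_⟩
      have : ((π v).1 - (π w).1).natAbs + ((π v).2 - (π w).2).natAbs ≤ n := hn ⟨w, hw, rfl⟩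
      rw [abs_le, abs_le]
      omega)
  obtain ⟨ρ, hρ⟩ := unif hR
    (fun v n => ∃ y ∈ {y | ∃ γ : Γ, (γ : G ≃g G) x = y}, G.dist v y ≤ n)
    (fun v n m h ⟨y, hy, a⟩ => ⟨y, hy, a.trans h⟩)
    (fun γ v n ⟨_, ⟨γ', rfl⟩, a⟩ => ⟨_, ⟨γ * γ', rfl⟩, (dist_map_le hc γ _ _).trans a⟩)
    (fun v => ⟨_, x, ⟨1, rfl⟩, le_rfl⟩)
  have hβ : ∀ n : ℕ, ∃ m, ∀ v, (ball_finite hf hc v n).toFinset.card ≤ m := fun n => unif hR
    (fun v m => (ball_finite hf hc v n).toFinset.card ≤ m) (fun v n m h a => a.trans h)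
    (fun γ v m a => by
      refine le_trans (card_le_card_of_injOn ((γ : G ≃g G)⁻¹ : G ≃g G) (fun y hy => ?_)
        (RelIso.injective _).injOn) a
      simp only [Set.Finite.coe_toFinset, Set.mem_ofPred_eq] at hy ⊢
      have := dist_map_le hc ((γ : G ≃g G)⁻¹) ((γ : G ≃g G) v) y
      rw [inv_app] at this
      exact this.trans hy)
    (fun v => ⟨_, le_rfl⟩)
  choose β hβ using hβ
  have esc : ∀ D : ℕ, ∃ l : ℕ, ∀ v : V, ∀ A B : ℤ, ∃ w, G.dist v w ≤ l ∧
      D * (|A| + |B|) ≤ A * ((π w).1 - (π v).1) + B * ((π w).2 - (π v).2) := fun D => unif hR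
    (fun v l => ∀ A B : ℤ, ∃ w, G.dist v w ≤ l ∧
      D * (|A| + |B|) ≤ A * ((π w).1 - (π v).1) + B * ((π w).2 - (π v).2))
    (fun v n m h a A B => let ⟨w, h1, h2⟩ := a A B; ⟨w, h1.trans h, h2⟩)
    (fun γ v n a A B => let ⟨w, h1, h2⟩ := a A B
      ⟨(γ : G ≃g G) w, (dist_map_le hc γ _ _).trans h1, by rw [p1, p2]; exact h2⟩)
    (fun v => by
      have k : ∀ z : ℤ × ℤ, ∃ w, π w = z + π v := fun z => by
        obtain ⟨γ, hγ⟩ := hs (Multiplicative.ofAdd z)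
        exact ⟨(γ : G ≃g G) v, by rw [hπ, hγ, toAdd_ofAdd]⟩
      choose w hw using k
      refine ⟨G.dist v (w (D, D)) + G.dist v (w (D, -D)) + G.dist v (w (-D, D)) +
        G.dist v (w (-D, -D)), fun A B => ?_⟩
      rcases le_total 0 A with a | a <;> rcases le_total 0 B with b | b
      · exact ⟨w (D, D), by omega, by
          rw [hw, abs_of_nonneg a, abs_of_nonneg b]; simp; linarith⟩
      · exact ⟨w (D, -D), by omega, by
          rw [hw, abs_of_nonneg a, abs_of_nonpos b]; simp; linarith⟩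
      · exact ⟨w (-D, D), by omega, by
          rw [hw, abs_of_nonpos a, abs_of_nonneg b]; simp; linarith⟩
      · exact ⟨w (-D, -D), by omega, by
          rw [hw, abs_of_nonpos a, abs_of_nonpos b]; simp; linarith⟩)
  exact ⟨{
    G := G
    con := hc
    s := fun v => (π v).1
    t := fun v => (π v).2
    L := L + 1
    L_pos := Nat.succ_pos _
    lipS := fun a b h => (hL a b h).1.trans (by push_cast; omega)
    lipT := fun a b h => (hL a b h).2.trans (by push_cast; omega)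
    o := x
    Ty := {y | ∃ γ : Γ, (γ : G ≃g G) x = y}
    o_mem := ⟨1, rfl⟩
    hom := fun _ ⟨γ, h⟩ => ⟨(γ : G ≃g G).toEquiv, fun _ _ => (γ : G ≃g G).map_adj_iff, h,
      fun v => h ▸ p1 γ v x, fun v => h ▸ p2 γ v x⟩
    ρ := ρ
    dense := hρ
    ballF := fun v n => (ball_finite hf hc v n).toFinset
    mem_ballF := fun _ _ _ => Set.Finite.mem_toFinset _
    β := β
    card_ballF := fun v n => hβ n v
    esc := fun D => let ⟨l, h⟩ := esc D; ⟨l, fun A B v => h v A B⟩ }, rfl, rfl⟩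

end Vale.Agent.P151Q
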