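import Vale.Agent.P151Q.Base

/-! Seeds: large balls are linked to every distance with probability close to one. -/

set_option linter.unusedSectionVars false

namespace Vale.Agent.P151Q

open Finset Vale.Agent.P151

namespace SeedsM

variable {V : Type} [DecidableEq V] (c : Cfg V)

theorem far (n : ℕ) : ∃ x ∈ c.Ty, 2 * n < c.G.dist c.o x := by
  obtain ⟨l, hl⟩ := c.esc (c.L * (2 * n + 1 + c.ρ))
  obtain ⟨w, -, hw⟩ := hl 1 0 c.o
  obtain ⟨x, hx, hd⟩ := c.dense w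
  refine ⟨x, hx, ?_⟩
  have a1 := c.lip_s w c.o
  have a2 := c.d_tri c.o x w
  rw [c.d_comm x w] at a2
  rw [c.d_comm w c.o] at a1
  have a3 : (c.L : ℤ) * (2 * n + 1 + c.ρ) ≤ c.L * c.G.dist c.o w := by
    have := le_abs_self (c.s w - c.s c.o)
    simp only [abs_one, abs_zero, add_zero, mul_one, one_mul, zero_mul] at hw
    push_cast at hw
    linarith
  have a4 : (0 : ℤ) < c.L := by exact_mod_cast c.L_pos
  have a5 := le_of_mul_le_mul_left a3 a4
  omega

theorem Ex_uu (p : ℝ) {x : V} (hx : x ∈ c.Ty) {W : Finset V} (r n : ℕ)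
    (h : ∀ y ∈ c.Bl x n, y ∈ W) :
    Ex (EG c.G W) (fun _ => p) (fun ω => ind (¬ link (keep ω (ins (c.Bl x n))) (c.Bl x r)
      {v | n ≤ c.G.dist x v})) = c.uu p r n := by
  rw [← c.fl_uu p hx, ← c.fl_eq (LatG_EG _ W) (FreshG_EG _ W p h), Set.inter_univ]

theorem uu_square {p : ℝ} (h0 : 0 ≤ p) (h1 : p ≤ 1) {x2 : V} (hx2 : x2 ∈ c.Ty) (r n N D : ℕ)
    (hr : r ≤ n) (hD : c.G.dist c.o x2 = D) (hn : 2 * n < D) (hN : D + n ≤ N) :
    c.uu p (D + n) N ≤ c.uu p r n ^ 2 + 2 * (c.uu p r (N + D) - c.uu p r n) := by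
  have hp : P01 (fun _ : Sym2 V => p) := P01_const h0 h1
  set W := c.ballF c.o (N + 2 * D) with hW
  have b1 : c.G.dist c.o c.o ≤ D := by simp
  have b2 : c.G.dist c.o x2 ≤ D := hD.le
  have sub : ∀ (x : V) (a b : ℕ), c.G.dist c.o x ≤ D → a + D ≤ b → c.Bl x a ⊆ c.Bl c.o b := by
    intro x a b hx h y hy
    have a1 := c.d_tri c.o x y
    have a2 : c.G.dist x y ≤ a := hy
    show c.G.dist c.o y ≤ b
    omega
  have subW : ∀ (x : V) (a : ℕ), c.G.dist c.o x ≤ D → a ≤ N + D →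
      ∀ y ∈ c.Bl x a, y ∈ W := fun x a hx h y hy => c.mem_ballF'.2 (sub x a _ hx (by omega) hy)
  set A : V → ℕ → Finset (Sym2 V) → Prop := fun x a ω =>
    ¬ link (keep ω (ins (c.Bl x a))) (c.Bl x r) {v | a ≤ c.G.dist x v} with hA
  have e0 := Ex_uu c p c.o_mem (W := W) (D + n) N (subW c.o N b1 (by omega))
  have e1 := Ex_uu c p c.o_mem r n (subW c.o n b1 (by omega))
  have e2 := Ex_uu c p hx2 r n (subW x2 n b2 (by omega))
  have e3 := Ex_uu c p c.o_mem r (N + D) (subW c.o _ b1 (by omega))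
  have e4 := Ex_uu c p hx2 r (N + D) (subW x2 _ b2 (by omega))
  have e5 := indep (fun _ => p) (ins (c.Bl c.o n)) (EG c.G W)
    (fun ω => ind (¬ link ω (c.Bl c.o r) {v | n ≤ c.G.dist c.o v})) (fun ω => ind (A x2 n ω))
  have e6 : ∀ ω : Finset (Sym2 V),
      keep (del ω (ins (c.Bl c.o n))) (ins (c.Bl x2 n)) = keep ω (ins (c.Bl x2 n)) := by
    intro ω
    ext e
    induction e using Sym2.ind with
    | h a b =>
      simp only [mem_keep, mem_del, mk_mem_ins]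
      refine ⟨fun h => ⟨h.1.1, h.2⟩, fun h => ⟨⟨h.1, fun h' => ?_⟩, h.2⟩⟩
      have a1 : c.G.dist x2 a ≤ n := h.2.1
      have a2 : c.G.dist c.o a ≤ n := h'.1
      have a3 := c.d_tri c.o a x2
      rw [c.d_comm a x2] at a3
      omega
  simp only [hA, e6, e1, e2] at e5
  have pt : ∀ (x : V), c.G.dist c.o x ≤ D → ∀ ω ⊆ EG c.G W,
      (¬ link (keep ω (ins (c.Bl c.o N))) (c.Bl c.o (D + n)) {v | N ≤ c.G.dist c.o v} →
        A x (N + D) ω) ∧ (A x n ω → A x (N + D) ω) := by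
    intro x hx ω hω
    have hL : LatG c.G (keep ω (ins (c.Bl x (N + D)))) :=
      (LatG_EG _ W).mono ((keep_subset _ _).trans hω)
    refine ⟨fun h h' => h ?_, fun h h' => h ?_⟩
    · refine (c.link_ball hL (sub x r N hx (by omega)) h' fun t ht => ?_).mono
        (keep_mono (keep_subset _ _) subset_rfl) (sub x r _ hx (by omega)) fun v hv => hv.ge
      have a1 : N + D ≤ c.G.dist x t := ht
      have a2 := c.d_tri x c.o t
      rw [c.d_comm x c.o] at a2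
      omega
    · exact (c.link_ball hL (c.Bl_mono x hr) h' fun t ht =>
        le_trans (by omega) (show N + D ≤ c.G.dist x t from ht)).mono
        (keep_mono (keep_subset _ _) subset_rfl) subset_rfl fun v hv => hv.ge
  rw [← e0]
  refine (Ex_mono hp (g := fun ω => ind (A c.o n ω) * ind (A x2 n ω) +
    (ind (A c.o (N + D) ω) - ind (A c.o n ω)) +
    (ind (A x2 (N + D) ω) - ind (A x2 n ω))) fun ω hω => ?_).trans (le_of_eq ?_)
  · have a1 := ind_mono (pt c.o b1 ω hω).2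
    have a2 := ind_mono (pt x2 b2 ω hω).2
    have a3 := mul_nonneg (ind_nonneg (A c.o n ω)) (ind_nonneg (A x2 n ω))
    by_cases k : ¬ link (keep ω (ins (c.Bl c.o N))) (c.Bl c.o (D + n)) {v | N ≤ c.G.dist c.o v}
    · rw [ind_pos k, ind_pos ((pt c.o b1 ω hω).1 k), ind_pos ((pt x2 b2 ω hω).1 k)]
      nlinarith [mul_nonneg (sub_nonneg.2 (ind_le_one (A c.o n ω)))
        (sub_nonneg.2 (ind_le_one (A x2 n ω)))]
    · rw [ind_neg k]; linarith
  · simp only [hA, Ex_add, Ex_sub, e1, e2, e3, e4, e5]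
    ring

end SeedsM

theorem seedsS : StmtSeeds := by
  intro V _ c p θ h0 h1 hθ h δ hδ
  have nn : ∀ r n, 0 ≤ c.uu p r n := fun r n => c.fl_nonneg h0 h1 _ _ _ _ _
  have step : ∀ t η : ℝ, 0 < η → (∃ r : ℕ, ∀ n : ℕ, r ≤ n → c.uu p r n ≤ t) →
      ∃ r : ℕ, ∀ n : ℕ, r ≤ n → c.uu p r n ≤ t ^ 2 + η := by
    rintro t η hη ⟨r, hr⟩
    have bdd : BddAbove (Set.range fun n : ℕ => c.uu p r (r + n)) :=
      ⟨1, by rintro _ ⟨n, rfl⟩; exact c.fl_le_one h0 h1 _ _ _ _ _⟩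
    obtain ⟨n, hn⟩ := exists_lt_of_lt_ciSup (f := fun n : ℕ => c.uu p r (r + n))
      (sub_lt_self _ (half_pos hη))
    obtain ⟨x2, hx2, hd⟩ := SeedsM.far c (r + n)
    refine ⟨c.G.dist c.o x2 + (r + n), fun N hN =>
      (SeedsM.uu_square c h0 h1 hx2 r (r + n) N _ (by omega) rfl hd hN).trans ?_⟩
    have a1 := le_ciSup bdd (N + c.G.dist c.o x2 - r)
    have a2 := hr (r + n) (by omega)
    have a3 := nn r (r + n)
    rw [show N + c.G.dist c.o x2 = r + (N + c.G.dist c.o x2 - r) by omega]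
    nlinarith
  have hθ1 : θ ≤ 1 := by linarith [h 0, nn 0 0]
  have it : ∀ k : ℕ, ∃ r : ℕ, ∀ n : ℕ, r ≤ n → c.uu p r n ≤ (1 - θ / 2) * (1 - θ / 4) ^ k := by
    intro k
    induction k with
    | zero => exact ⟨0, fun n _ => by have := h n; rw [pow_zero]; linarith⟩
    | succ k ih =>
      have a1 : 0 < (1 - θ / 4) ^ k := pow_pos (by linarith) _
      have a2 : (1 - θ / 4) ^ k ≤ 1 := pow_le_one₀ (by linarith) (by linarith)
      have a3 : 0 < (1 - θ / 2) * (1 - θ / 4) ^ k := mul_pos (by linarith) a1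
      obtain ⟨r, hr⟩ := step _ (θ / 4 * ((1 - θ / 2) * (1 - θ / 4) ^ k)) (by positivity) ih
      refine ⟨r, fun n hn => (hr n hn).trans ?_⟩
      have a4 : (1 - θ / 2) * (1 - θ / 4) ^ k ≤ 1 - θ / 2 := by nlinarith
      rw [pow_succ (1 - θ / 4)]
      nlinarith
  obtain ⟨k, hk⟩ := exists_pow_lt_of_lt_one hδ (show 1 - θ / 4 < 1 by linarith)
  obtain ⟨r, hr⟩ := it k
  refine ⟨r, fun n hn => (hr n hn).trans ?_⟩
  have a1 : 0 < (1 - θ / 4) ^ k := pow_pos (by linarith) _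
  nlinarith

end Vale.Agent.P151Q
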