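import Vale.Agent.P151Q.Base

/-! Steering from one cell to the next by three hundred elementary moves. -/

set_option linter.unusedSectionVars false

namespace Vale.Agent.P151Q

open Finset Vale.Agent.P151

namespace SteerM

def cellP (P c k R x y d : ℤ) : Prop :=
  c - 10 * P ≤ x ∧ x ≤ c + 10 * P ∧ k ≤ y ∧ y ≤ k + 2 * P ∧ d ≤ R

def bigP (P c k lo R x y d : ℤ) : Prop :=
  c - 17 * P ≤ x ∧ x ≤ c + 17 * P ∧ lo ≤ 2 * y ∧ y ≤ k + 11 * P ∧ d ≤ R

def qP (P c k m1 m2 R x y d : ℤ) : Prop :=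
  c - 11 * P ≤ x ∧ x ≤ c + 11 * P ∧ k - m1 ≤ y ∧ d ≤ R ∧
    m2 ≤ 25 * (y - k) - 5 * (x - c) ∧ m2 ≤ 25 * (y - k) + 5 * (x - c) ∧
    ((c - 10 * P ≤ x ∧ x ≤ c + 10 * P ∧ y < k + 7 * P) ∨
      (c + 10 * P < x ∧ y + 5 * (x - c - 10 * P) ≤ k + 7 * P) ∨
      (x < c - 10 * P ∧ y + 5 * (c - x - 10 * P) ≤ k + 7 * P))

/-- closeness of two points in the scaled coordinates -/
def nr (P α J x y d x' y' d' : ℤ) : Prop :=
  100 * (x' - x) ≤ P ∧ 100 * (x - x') ≤ P ∧ y' - y ≤ α ∧ y - y' ≤ α ∧ d' ≤ d + J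

/-- the region of one move -/
def mv (P α N x y d x' y' d' : ℤ) : Prop :=
  x' - x ≤ 4 * P ∧ x - x' ≤ 4 * P ∧ -α ≤ y' - y ∧ y' - y ≤ P + α ∧ d' ≤ d + N

variable {P α c c' k m1 m2 R R' J N x y d x1 y1 d1 x2 y2 d2 : ℤ}

theorem th_big (_hα : 0 ≤ α) (hP : 4000 * α ≤ P) (hc : c - P ≤ c' ∧ c' ≤ c + P)
    (hm : m1 ≤ 600 * α) (hR : R + J ≤ R') (h : qP P c' k m1 m2 R x y d)
    (h1 : nr P α J x y d x1 y1 d1) : bigP P c k (2 * k - P) R' x1 y1 d1 := by
  unfold qP nr bigP at *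
  omega

theorem mv_big (_hα : 0 ≤ α) (hP : 4000 * α ≤ P) (hc : c - P ≤ c' ∧ c' ≤ c + P)
    (hm : m1 ≤ 600 * α) (hR : R + J + N ≤ R') (h : qP P c' k m1 m2 R x y d)
    (h1 : nr P α J x y d x1 y1 d1) (h2 : mv P α N x1 y1 d1 x2 y2 d2) :
    bigP P c k (2 * k - P) R' x2 y2 d2 := by
  unfold qP nr mv bigP at *
  omega

theorem step (hα : 0 ≤ α) (hP : 4000 * α ≤ P) (hR : R + J + N ≤ R')
    (h : qP P c k m1 m2 R x y d) (h1 : nr P α J x y d x1 y1 d1)
    (h2 : mv P α N x1 y1 d1 x2 y2 d2)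
    (h3 : (c - 5 * P ≤ x1 ∧ x1 ≤ c + 5 * P ∧ P ≤ y2 - y1) ∨
      (x1 < c - 5 * P ∧ P ≤ 4 * (x2 - x1)) ∨ (c + 5 * P < x1 ∧ 4 * (x2 - x1) ≤ -P)) :
    cellP P c (k + 7 * P) R' x2 y2 d2 ∨
      qP P c k (m1 + 2 * α) (m2 + P) (R + (N + J)) x2 y2 d2 := by
  obtain ⟨a1, a2, a3, a4, a5, a6, a7⟩ := h
  obtain ⟨b1, b2, b3, b4, b5⟩ := h1
  obtain ⟨c1, c2, c3, c4, c5⟩ := h2
  by_cases e : c - 10 * P ≤ x2 ∧ x2 ≤ c + 10 * P ∧ k + 7 * P ≤ y2
  · left
    unfold cellP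
    omega
  · right
    refine ⟨by omega, by omega, by omega, by omega, by omega, by omega, ?_⟩
    omega

theorem start (hc : c - P ≤ c' ∧ c' ≤ c + P) (hP' : 0 < P)
    (h : cellP P c k R x y d) : qP P c' k 0 (-55 * P) R x y d := by
  unfold qP cellP at *
  omega

theorem stop (_hP : 0 < P) (h : qP P c k m1 (245 * P) R x y d) : False := by
  unfold qP at h
  omega

variable {V : Type} [DecidableEq V]

def XX (g : Cfg V) (A B : ℤ) (b : ℕ) (v : V) : ℤ :=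
  b * (A * (g.s v - g.s g.o) + B * (g.t v - g.t g.o))

def YY (g : Cfg V) (W : ℤ) (b : ℕ) (v : V) : ℤ := W * (g.t v - g.t g.o - b)

noncomputable def DD (g : Cfg V) (v : V) : ℤ := g.G.dist g.o v

theorem eX (g : Cfg V) (A B : ℤ) (b : ℕ) (x v : V) :
    XX g A B b v - XX g A B b x = b * (A * (g.s v - g.s x) + B * (g.t v - g.t x)) := by
  simp only [XX]; ring

theorem eY (g : Cfg V) (W : ℤ) (b : ℕ) (x v : V) :
    YY g W b v - YY g W b x = W * (g.t v - g.t x) := by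
  simp only [YY]; ring

theorem hnr (g : Cfg V) {A B W : ℤ} {a b r J : ℕ} (hW : 0 < W)
    (hD : 100 * ((J + r + 1) * g.L) * (|A| + |B|) ≤ W) (ha : ((J : ℤ) + r + 1) * g.L ≤ a)
    (y x : V) (h : g.G.dist y x ≤ J) : nr (b * W) (W * a) J (XX g A B b y) (YY g W b y) (DD g y)
      (XX g A B b x) (YY g W b x) (DD g x) := by
  have h0 : (g.G.dist x y : ℤ) ≤ J + r + 1 := by rw [g.d_comm]; omega
  have h3 : (g.L : ℤ) * g.G.dist x y ≤ (J + r + 1) * g.L := by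
    rw [mul_comm]; exact mul_le_mul_of_nonneg_right h0 (by positivity)
  have h4 := mul_le_mul_of_nonneg_right h3 (add_nonneg (abs_nonneg A) (abs_nonneg B))
  have h5 := abs_le.1 ((g.lip_lin A B x y).trans h4)
  have h6 := abs_le.1 ((g.lip_t x y).trans (h3.trans ha))
  have h7 := g.d_tri g.o y x
  have e1 := eX g A B b y x
  have e2 := eY g W b y x
  have hb : (0 : ℤ) ≤ b := by positivity
  have k1 := mul_le_mul_of_nonneg_left
    (show 100 * (A * (g.s x - g.s y) + B * (g.t x - g.t y)) ≤ W by linarith) hb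
  have k2 := mul_le_mul_of_nonneg_left
    (show -W ≤ 100 * (A * (g.s x - g.s y) + B * (g.t x - g.t y)) by linarith) hb
  have k3 := mul_le_mul_of_nonneg_left h6.1 hW.le
  have k4 := mul_le_mul_of_nonneg_left h6.2 hW.le
  refine ⟨by linarith, by linarith, by linarith, by linarith, ?_⟩
  simp only [DD]
  omega

theorem hmv (g : Cfg V) {A B W : ℤ} {a b N : ℕ} (hW : 0 < W) (ha : (g.L : ℤ) ≤ a) (x v : V)
    (h : v ∈ g.cyl x (g.Rg A B W a b)) (h' : v ∈ g.Bl x N) :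
    mv (b * W) (W * a) N (XX g A B b x) (YY g W b x) (DD g x)
      (XX g A B b v) (YY g W b v) (DD g v) := by
  obtain ⟨h1, h2, h3⟩ := h
  have h4 := abs_le.1 h1
  have h5 : g.G.dist x v ≤ N := h'
  have h7 := g.d_tri g.o x v
  have e1 := eX g A B b x v
  have e2 := eY g W b x v
  dsimp only at h2 h3 h4
  have hb : (0 : ℤ) ≤ b := by positivity
  have k1 := mul_le_mul_of_nonneg_left h4.1 hb
  have k2 := mul_le_mul_of_nonneg_left h4.2 hb
  have k3 := mul_le_mul_of_nonneg_left h2 hW.le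
  have k4 := mul_le_mul_of_nonneg_left (show g.t v - g.t x ≤ b + a by linarith) hW.le
  refine ⟨by linarith, by linarith, by linarith, by linarith, ?_⟩
  simp only [DD]
  omega

theorem one {g : Cfg V} {p δ : ℝ} {A B W : ℤ} {a b r J N : ℕ} (hp0 : 0 ≤ p) (hp1 : p ≤ 1)
    (hM : g.MovesAt p δ r A B W a b N) (hW : 0 < W) (ha : (g.L : ℤ) ≤ a)
    (hP : 4000 * (W * a) ≤ b * W) (hr : r ≤ N) {c0 c1 k m1 m2 R R' x y d : ℤ}
    (hc : c0 - b * W ≤ c1 ∧ c1 ≤ c0 + b * W) (hm : m1 ≤ 600 * (W * a)) (hR : R + J + N ≤ R')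
    (hy : qP (b * W) c1 k m1 m2 R x y d) {v0 : V} (hx : v0 ∈ g.Ty)
    (hn : nr (b * W) (W * a) J x y d (XX g A B b v0) (YY g W b v0) (DD g v0)) :
    g.fl p v0 N r {v | bigP (b * W) c0 k (2 * k - b * W) R' (XX g A B b v) (YY g W b v) (DD g v)}
      ({v | cellP (b * W) c1 (k + 7 * (b * W)) R' (XX g A B b v) (YY g W b v) (DD g v)} ∪
        {v | qP (b * W) c1 k (m1 + 2 * (W * a)) (m2 + b * W) (R + (N + J))
          (XX g A B b v) (YY g W b v) (DD g v)}) ≤ δ := by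
  have hα : 0 ≤ W * a := mul_nonneg hW.le (by positivity)
  have hb : (0 : ℤ) ≤ b := by positivity
  have fin : ∀ T : Set (ℤ × ℤ), g.fm p N r (g.Rg A B W a b) (g.Rg A B W a b ∩ T) ≤ δ →
      (∀ v ∈ g.cyl v0 T, (c1 - 5 * (b * W) ≤ XX g A B b v0 ∧ XX g A B b v0 ≤ c1 + 5 * (b * W) ∧
          b * W ≤ YY g W b v - YY g W b v0) ∨
        (XX g A B b v0 < c1 - 5 * (b * W) ∧ b * W ≤ 4 * (XX g A B b v - XX g A B b v0)) ∨
        (c1 + 5 * (b * W) < XX g A B b v0 ∧ 4 * (XX g A B b v - XX g A B b v0) ≤ -(b * W))) →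
      _ ≤ δ := fun T h1 h2 =>
    le_trans (g.fl_mono hp0 hp1 hr
      (A' := {v | bigP (b * W) c0 k (2 * k - b * W) R' (XX g A B b v) (YY g W b v) (DD g v)})
      (T' := {v | cellP (b * W) c1 (k + 7 * (b * W)) R' (XX g A B b v) (YY g W b v) (DD g v)} ∪
        {v | qP (b * W) c1 k (m1 + 2 * (W * a)) (m2 + b * W) (R + (N + J))
          (XX g A B b v) (YY g W b v) (DD g v)})
      (fun v h h' => mv_big hα hP hc hm hR hy hn (hmv g hW ha v0 v h h'))
      fun v h h' => step hα hP hR hy hn (hmv g hW ha v0 v h.1 h') (h2 v h.2))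
      ((g.fl_cyl p hx N r _ _).trans_le h1)
  by_cases d1 : XX g A B b v0 < c1 - 5 * (b * W)
  · refine fin _ hM.2.1 fun v hv => Or.inr (Or.inl ⟨d1, ?_⟩)
    have := mul_le_mul_of_nonneg_left
      (show W ≤ 4 * (A * (g.s v - g.s v0) + B * (g.t v - g.t v0)) from hv) hb
    rw [eX]; linarith
  by_cases d2 : c1 + 5 * (b * W) < XX g A B b v0
  · refine fin _ hM.2.2 fun v hv => Or.inr (Or.inr ⟨d2, ?_⟩)
    have := mul_le_mul_of_nonneg_left
      (show 4 * (A * (g.s v - g.s v0) + B * (g.t v - g.t v0)) ≤ -W from hv) hb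
    rw [eX]; linarith
  · refine fin _ hM.1 fun v hv => Or.inl ⟨not_lt.1 d1, not_lt.1 d2, ?_⟩
    have := mul_le_mul_of_nonneg_left (show (b : ℤ) < g.t v - g.t v0 from hv).le hW.le
    rw [eY]; linarith

theorem chain {g : Cfg V} {p ε δ : ℝ} {A B W : ℤ} {a b r J N : ℕ} (hp0 : 0 ≤ p) (hp1 : p ≤ 1)
    (hC : g.ChainAt p ε δ r J) (hM : g.MovesAt p δ r A B W a b N) (hW : 0 < W)
    (hD : 100 * ((J + r + 1) * g.L) * (|A| + |B|) ≤ W) (ha : ((J : ℤ) + r + 1) * g.L ≤ a)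
    (hLa : (g.L : ℤ) ≤ a) (hP : 4000 * (W * a) ≤ b * W) (hP0 : 0 < b * W) (hr : r ≤ N)
    {c0 c1 k R : ℤ} (hc : c0 - b * W ≤ c1 ∧ c1 ≤ c0 + b * W) {F : Finset (Sym2 V)}
    {q : Sym2 V → ℝ} {W0 Bg : Set V} (hBg : Bg = {v | bigP (b * W) c0 k (2 * k - b * W)
      (R + 300 * (N + J)) (XX g A B b v) (YY g W b v) (DD g v)}) (hF : LatG g.G F) (hq : P01 q)
    (hW0 : Bg ⊆ W0) (hfr : FreshG g.G F q p Bg) (ho : g.o ∉ Bg) :
    Ex F q (fun ω => ind (RR ω W0 g.o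
      {v | cellP (b * W) c0 k R (XX g A B b v) (YY g W b v) (DD g v)} ∧ ¬ RR ω W0 g.o
      {v | cellP (b * W) c1 (k + 7 * (b * W)) (R + 300 * (N + J))
        (XX g A B b v) (YY g W b v) (DD g v)})) ≤ 300 * ε := by
  have hα : 0 ≤ W * a := mul_nonneg hW.le (by positivity)
  obtain ⟨Tg, hTg⟩ : ∃ Tg : Set V, Tg = {v | cellP (b * W) c1 (k + 7 * (b * W))
    (R + 300 * (N + J)) (XX g A B b v) (YY g W b v) (DD g v)} := ⟨_, rfl⟩
  obtain ⟨Q, hQ⟩ : ∃ Q : ℕ → Set V, ∀ j, Q j = {v | qP (b * W) c1 k (2 * (W * a) * j)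
    ((j - 55) * (b * W)) (R + j * (N + J)) (XX g A B b v) (YY g W b v) (DD g v)} :=
    ⟨_, fun _ => rfl⟩
  rw [← hTg]
  have key : ∀ j ∈ range 300, Ex F q (fun ω => ind (RR ω W0 g.o (Tg ∪ Q j) ∧
      ¬ RR ω W0 g.o (Tg ∪ Q (j + 1)))) ≤ ε := by
    intro j hj
    have hj' : (j : ℤ) ≤ 299 := by have := mem_range.1 hj; omega
    have hN0 : (0 : ℤ) ≤ N := by positivity
    have m1 : 2 * (W * a) * j ≤ 600 * (W * a) := by
      linarith [mul_le_mul_of_nonneg_left hj' hα]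
    have m3 : R + j * (N + J) + J + N ≤ R + 300 * (N + J) := by
      linarith [mul_le_mul_of_nonneg_right hj' (show (0 : ℤ) ≤ N + J by positivity)]
    have hth : g.Th (Q j) J ⊆ Bg := by
      rintro v ⟨y, hy, hv⟩
      rw [hQ] at hy
      rw [hBg]
      exact th_big hα hP hc m1 (by linarith) hy (hnr g hW hD ha y v hv)
    have hfin : (Q j).Finite := (g.Bl_finite g.o (R + j * (N + J)).toNat).subset fun v hv => by
      rw [hQ] at hv
      have : (g.G.dist g.o v : ℤ) ≤ R + j * (N + J) := hv.2.2.2.1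
      show g.G.dist g.o v ≤ _
      omega
    refine le_trans ?_ (hC (keep F (ins W0)) q g.o (Q j) (Tg ∪ Q (j + 1)) Bg N
      (hF.mono (keep_subset _ _)) hq hfin (fun h => ho (hth h))
      ((hfr.keep hW0).mono hth) (hfr.keep hW0).ge ?_)
    · rw [← Ex_keep q (ins W0) F (fun ω => ind (link ω {g.o} (Q j) ∧
        ¬ link ω {g.o} (Tg ∪ Q (j + 1))))]
      refine Ex_mono hq fun ω _ => ind_mono ?_
      rintro ⟨⟨s, hs, t, ht | ht, hc⟩, h2⟩
      · exact absurd ⟨s, hs, t, Or.inl ht, hc⟩ h2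
      · exact ⟨⟨s, hs, t, ht, hc⟩, h2⟩
    · rintro x hx ⟨y, hy, hv⟩
      rw [hQ] at hy
      have := one hp0 hp1 hM hW hLa hP hr hc m1 m3 hy hx (hnr g hW hD ha y x hv)
      rw [hBg, hTg, hQ]
      convert this using 5 <;> push_cast <;> ring
  refine le_trans (Ex_mono hq (g := fun ω => ∑ j ∈ range 300, ind (RR ω W0 g.o (Tg ∪ Q j) ∧
      ¬ RR ω W0 g.o (Tg ∪ Q (j + 1)))) fun ω _ => ?_) ?_
  · refine le_trans (ind_mono fun h => ⟨h.1.mono subset_rfl ?_, fun h' => h.2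
      (h'.mono subset_rfl ?_)⟩) (ind_chain (P := fun j => RR ω W0 g.o (Tg ∪ Q j)) 300)
    · intro v hv
      refine Or.inr ?_
      rw [hQ]
      have := start hc hP0 hv
      show qP _ _ _ _ _ _ _ _ _
      convert this using 1 <;> push_cast <;> ring
    · rintro v (hv | hv)
      · exact hv
      · rw [hQ] at hv
        have : qP _ _ _ _ _ _ _ _ _ := hv
        exact (stop hP0 (by convert this using 1; push_cast; ring)).elim
  · rw [Ex_sum]
    refine (sum_le_sum key).trans (le_of_eq ?_)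
    rw [sum_const, card_range, nsmul_eq_mul]
    norm_num

end SteerM

open SteerM in
theorem steerS : StmtSteer := by
  intro V _ c p ε δ r J A B W a b N hp0 hp1 _ hC hM hW hD ha hb hr
  have hL : (0 : ℤ) < c.L := by exact_mod_cast c.L_pos
  have ha' : ((J : ℤ) + r + 1) * c.L ≤ a := by exact_mod_cast ha
  have hb' : 4000 * (a : ℤ) ≤ b := by exact_mod_cast hb
  have hJL : (0 : ℤ) ≤ J * c.L := by positivity
  have hrL : (0 : ℤ) ≤ r * c.L := by positivity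
  have hLa : (c.L : ℤ) ≤ a := by linarith
  have hb0 : (0 : ℤ) < b := by linarith
  have hP : 0 < b * W := mul_pos hb0 hW
  have hα : 0 ≤ W * a := mul_nonneg hW.le (by positivity)
  have hαP : 4000 * (W * a) ≤ b * W := by linarith [mul_le_mul_of_nonneg_left hb' hW.le]
  have Xo : XX c A B b c.o = 0 := by simp [XX]
  have Yo : YY c W b c.o = -(b * W) := by simp only [YY]; ring
  have Do : DD c c.o = 0 := by simp [DD]
  have hM0 : (0 : ℤ) ≤ N + J := by positivity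
  refine ⟨fun z => {v | cellP (b * W) (b * W * (z.1 - z.2)) (7 * (b * W * (z.1 + z.2)))
      (N + 300 * ((N + J) * (z.1 + z.2))) (XX c A B b v) (YY c W b v) (DD c v)},
    fun z => {v | bigP (b * W) (b * W * (z.1 - z.2)) (7 * (b * W * (z.1 + z.2)))
      (2 * (7 * (b * W * (z.1 + z.2))) - b * W)
      (N + 300 * ((N + J) * (z.1 + z.2)) + 300 * (N + J)) (XX c A B b v) (YY c W b v) (DD c v)},
    fun z => {v | bigP (b * W) (b * W * (z.1 - z.2)) (7 * (b * W * (z.1 + z.2)))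
      (2 * (7 * (b * W * (z.1 + z.2))) - 4 * (b * W))
      (N + 300 * ((N + J) * (z.1 + z.2)) + 300 * (N + J)) (XX c A B b v) (YY c W b v) (DD c v)},
    c.cyl c.o (c.Rg A B W a b) ∩ c.Bl c.o N, ?_, ?_, ?_, ?_, ?_, ?_, ?_, ?_⟩
  · rintro z v ⟨h1, h2, h3, h4, h5⟩
    exact ⟨h1, h2, by linarith, h4, h5⟩
  · rintro z z' v ⟨h1, h2, h3, h4, -⟩ ⟨g1, g2, g3, g4, -⟩
    have k1 : z.1 - z.2 - (z'.1 - z'.2) ≤ 34 := le_of_mul_le_mul_left (by linarith) hP
    have k2 : z'.1 - z'.2 - (z.1 - z.2) ≤ 34 := le_of_mul_le_mul_left (by linarith) hP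
    have k3 : 7 * (z.1 + z.2 - (z'.1 + z'.2)) ≤ 13 := le_of_mul_le_mul_left (by linarith) hP
    have k4 : 14 * (z'.1 + z'.2 - (z.1 + z.2)) ≤ 26 := le_of_mul_le_mul_left (by linarith) hP
    unfold near
    omega
  · intro F q W0 z u hu hF hq hW0 hfr ho
    have hu' : u = (1, 0) ∨ u = (0, 1) := by simpa [dirs2] using hu
    have hc : b * W * (z.1 - z.2) - b * W ≤ b * W * ((z + u).1 - (z + u).2) ∧
        b * W * ((z + u).1 - (z + u).2) ≤ b * W * (z.1 - z.2) + b * W := by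
      rcases hu' with rfl | rfl <;> simp only [Prod.fst_add, Prod.snd_add] <;>
        constructor <;> linarith
    have hs : (z + u).1 + (z + u).2 = z.1 + z.2 + 1 := by
      rcases hu' with rfl | rfl <;> simp only [Prod.fst_add, Prod.snd_add] <;> ring
    have e1 : 7 * (b * W * ((z + u).1 + (z + u).2)) = 7 * (b * W * (z.1 + z.2)) + 7 * (b * W) := by
      rw [hs]; ring
    have e2 : (N : ℤ) + 300 * ((N + J) * ((z + u).1 + (z + u).2)) =
        N + 300 * ((N + J) * (z.1 + z.2)) + 300 * (N + J) := by rw [hs]; ring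
    simp only [e1, e2]
    exact chain hp0 hp1 hC hM hW hD ha' hLa hαP hP hr hc rfl hF hq hW0 hfr ho
  · rintro v ⟨h1, h2⟩
    have := hmv c hW hLa c.o v h1 h2
    rw [Xo, Yo, Do] at this
    obtain ⟨k1, k2, k3, k4, k5⟩ := this
    simp only [sub_self, add_zero, mul_zero]
    exact ⟨by linarith, by linarith, by linarith, by linarith, by linarith⟩
  · rintro z h1 h2 v hv ⟨-, -, h3, -, -⟩
    have h4 : (c.G.dist v c.o : ℤ) ≤ r := by rw [c.d_comm]; exact_mod_cast hv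
    have h5 := (abs_le.1 (c.lip_t v c.o)).2
    have h6 : c.t v - c.t c.o ≤ a := by linarith [mul_le_mul_of_nonneg_left h4 hL.le]
    have h7 := eY c W b c.o v
    have h8 : 0 ≤ b * W * (z.1 + z.2) := by positivity
    linarith [mul_le_mul_of_nonneg_left h6 hW.le]
  · refine le_trans (c.fl_mono hp0 hp1 hr (fun v h h' => ⟨h, h'⟩) fun v h h' => ?_) hM.1
    have := hmv c hW hLa c.o v h.1 h'
    have h3 := mul_le_mul_of_nonneg_left (show (b : ℤ) < c.t v - c.t c.o from h.2).le hW.le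
    have h4 := eY c W b c.o v
    rw [Xo, Yo, Do] at this
    obtain ⟨k1, k2, k3, k4, k5⟩ := this
    simp only [sub_self, add_zero, mul_zero]
    exact ⟨by linarith, by linarith, by linarith, by linarith, by linarith⟩
  · intro m
    refine ⟨(N + 300 * ((N + J) * m) + 300 * (N + J)).toNat, fun z hz v hv => ?_⟩
    have h1 : (c.G.dist c.o v : ℤ) ≤ _ := hv.2.2.2.2
    have h2 := mul_le_mul_of_nonneg_left hz hM0
    show c.G.dist c.o v ≤ _
    omega
  · rintro z v ⟨-, -, h3, -, -⟩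
    by_contra h
    push Not at h
    have h0 : (0 : ℤ) ≤ c.G.dist c.o v := by positivity
    have h5 := (abs_le.1 (c.lip_t v c.o)).2
    rw [c.d_comm] at h5
    have h6 : c.t v - c.t c.o ≤ b * (z.1 + z.2) :=
      h5.trans (mul_le_mul (by linarith) h.le h0 hb0.le)
    have h7 := eY c W b c.o v
    have h8 : 0 ≤ b * W * (z.1 + z.2) := mul_nonneg hP.le (by linarith)
    linarith [mul_le_mul_of_nonneg_left h6 hW.le]

end Vale.Agent.P151Q
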