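import Vale.Agent.P151Q.Base

/-! Thin parallelograms are left sideways before the top is reached. -/

set_option linter.unusedSectionVars false

namespace Vale.Agent.P151Q

open Finset Vale.Agent.P151

namespace ThinM

variable {V : Type} [DecidableEq V] (c : Cfg V)

/-- a path climbing many levels visits many points at intermediate heights -/
theorem pts {ω : Finset (Sym2 V)} (hL : LatG c.G ω) {x y : V} (h : conn ω x y) (k M : ℕ)
    (hx : c.t x - c.t c.o < (k : ℤ) * c.L) (hy : ((k : ℤ) + M) * c.L ≤ c.t y - c.t c.o) :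
    ∃ H : Finset V, M ≤ H.card ∧ ∀ v ∈ H, conn ω x v ∧ (k : ℤ) * c.L ≤ c.t v - c.t c.o ∧
      c.t v - c.t c.o < ((k : ℤ) + M) * c.L := by
  have hL0 : (0 : ℤ) < c.L := by exact_mod_cast c.L_pos
  have key : ∀ i : Fin M, ∃ v, conn ω x v ∧ ((k : ℤ) + (i : ℕ)) * c.L ≤ c.t v - c.t c.o ∧
      c.t v - c.t c.o < ((k : ℤ) + (i : ℕ)) * c.L + c.L := fun i => by
    have i0 : (0 : ℤ) ≤ ((i : ℕ) : ℤ) := Int.natCast_nonneg _
    have i1 : (((i : ℕ) : ℤ)) < M := by exact_mod_cast i.2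
    refine conn_ivt hL (fun v => c.t v - c.t c.o) c.L (fun u v huv => ?_) h ?_ ?_
    · have := abs_le.1 (c.lipT u v huv)
      linarith [this.1]
    · nlinarith
    · nlinarith
  choose v hv using key
  refine ⟨univ.image v, ?_, fun w hw => ?_⟩
  · rw [card_image_of_injective _ fun i j hij => ?_]
    · simp
    · have a1 := hv i
      have a2 := hv j
      rw [hij] at a1
      have b1 : ((i : ℕ) : ℤ) < (j : ℕ) + 1 := by
        by_contra k1
        push Not at k1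
        nlinarith [a1.2.1, a2.2.2]
      have b2 : ((j : ℕ) : ℤ) < (i : ℕ) + 1 := by
        by_contra k1
        push Not at k1
        nlinarith [a2.2.1, a1.2.2]
      exact Fin.ext (by omega)
  · obtain ⟨i, -, rfl⟩ := mem_image.1 hw
    have i0 : (0 : ℤ) ≤ ((i : ℕ) : ℤ) := Int.natCast_nonneg _
    have i1 : (((i : ℕ) : ℤ)) + 1 ≤ M := by exact_mod_cast i.2
    refine ⟨(hv i).1, ?_, ?_⟩
    · nlinarith [(hv i).2.1]
    · nlinarith [(hv i).2.2]

end ThinM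

theorem thinS (hE : StmtExit) : StmtThin := by
  classical
  intro V _ c p η r D h0 h1 hη
  obtain ⟨l, hl⟩ := c.esc D
  obtain ⟨M, hM⟩ := hE V c p η l h0 h1 hη
  refine ⟨(r + 2 * l + M + 1) * c.L, l, fun a b N A B α β ha hab hαβ => ?_⟩
  have hp := P01_const (ι := Sym2 V) h0.le h1
  have hL0 : (0 : ℤ) < c.L := by exact_mod_cast c.L_pos
  have ha' : ((r : ℤ) + 2 * l + M + 1) * c.L ≤ a := by exact_mod_cast ha
  have hab' : (a : ℤ) ≤ b := by exact_mod_cast hab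
  have l0 : (0 : ℤ) ≤ l := Int.natCast_nonneg _
  have r0 : (0 : ℤ) ≤ r := Int.natCast_nonneg _
  have M0 : (0 : ℤ) ≤ M := Int.natCast_nonneg _
  set Sg : Set V := c.cyl c.o {z | -(a : ℤ) ≤ z.2 ∧ z.2 ≤ b + c.L} with hSg
  set X : Set V := c.cyl c.o {z | (-(a : ℤ) ≤ z.2 ∧ z.2 ≤ b + c.L) ∧
    (A * z.1 + B * z.2 < -α ∨ β < A * z.1 + B * z.2)} with hX
  set Tp : Set V := c.cyl c.o {z | (b : ℤ) < z.2} with hTp
  set F0 := EG c.G (c.ballF c.o (N + l)) with hF0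
  set Gd : Finset V := (c.ballF c.o N).filter fun v =>
    -(a : ℤ) + l * c.L ≤ c.t v - c.t c.o ∧ c.t v - c.t c.o ≤ b + c.L - l * c.L with hGd
  have near : ∀ v ∈ Gd, ∀ w, c.G.dist v w ≤ l → w ∈ Sg ∧ w ∈ c.ballF c.o (N + l) := by
    intro v hv w hw
    obtain ⟨v1, v2, v3⟩ := mem_filter.1 hv
    rw [c.mem_ballF] at v1 ⊢
    have a1 := abs_le.1 (c.lip_t v w)
    have a2 : (c.G.dist v w : ℤ) ≤ l := by exact_mod_cast hw
    have a3 : (c.L : ℤ) * c.G.dist v w ≤ l * c.L := by nlinarith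
    have a4 := c.d_tri c.o v w
    refine ⟨⟨?_, ?_⟩, by omega⟩
    · show -(a : ℤ) ≤ c.t w - c.t c.o
      linarith [a1.2]
    · show c.t w - c.t c.o ≤ b + c.L
      linarith [a1.1]
  have e1 := hM (keep F0 (ins Sg)) (fun _ => p) (c.Bl c.o r) X Gd
    ((LatG_EG _ _).mono (keep_subset _ _)) hp fun v hv => by
      refine ⟨fun x hx y hy hxy => ⟨mem_keep.2 ⟨mk_mem_EG.2 ⟨⟨(near v hv x hx).2,
        (near v hv y hy).2⟩, hxy⟩, mk_mem_ins.2 ⟨(near v hv x hx).1, (near v hv y hy).1⟩⟩,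
        le_rfl⟩, ?_⟩
      by_cases k : A * (c.s v - c.s c.o) + B * (c.t v - c.t c.o) < -α
      · exact ⟨v, ⟨(near v hv v (by simp)).1, Or.inl k⟩, by simp⟩
      · obtain ⟨w, w1, w2⟩ := hl A B v
        refine ⟨w, ⟨(near v hv w w1).1, Or.inr ?_⟩, w1⟩
        show β < A * (c.s w - c.s c.o) + B * (c.t w - c.t c.o)
        linarith
  rw [← Ex_keep] at e1
  have e2 := c.fl_eq (F := F0) (q := fun _ => p) (p := p) (x := c.o) (N := N) (LatG_EG _ _)
    (FreshG_EG _ _ p fun y hy => c.mem_ballF'.2 (c.Bl_mono _ (Nat.le_add_right _ _) hy)) r Sg Tp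
  show c.fl p c.o (N + l) r Sg X ≤ c.fl p c.o N r Sg Tp + η
  rw [← e2]
  refine le_trans ?_ (add_le_add le_rfl e1)
  rw [← Ex_add]
  refine Ex_mono hp fun ω hω => ?_
  refine le_trans (ind_mono fun k => ?_) (ind_or_le _ _)
  by_cases k2 : link (keep ω (ins (c.Bl c.o N ∩ Sg))) (c.Bl c.o r) Tp
  · refine Or.inr ⟨k, ?_⟩
    obtain ⟨x, hx, y, hy, hc⟩ := k2
    have x1 := abs_le.1 (c.lip_t c.o x)
    have x2 : (c.G.dist c.o x : ℤ) ≤ r := by exact_mod_cast (show c.G.dist c.o x ≤ r from hx)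
    have x3 : (c.L : ℤ) * c.G.dist c.o x ≤ r * c.L := by nlinarith
    have y1 : (b : ℤ) < c.t y - c.t c.o := hy
    have x4 : c.t x - c.t c.o < ((r + l + 1 : ℕ) : ℤ) * c.L := by
      push_cast
      nlinarith [x1.1]
    obtain ⟨H, H1, H2⟩ := ThinM.pts c (((LatG_EG _ _).mono hω).mono (keep_subset _ _)) hc
      (r + l + 1) M x4 (by push_cast; nlinarith)
    refine ⟨H, fun v hv => ?_, H1, fun v hv => ⟨x, hx, (H2 v hv).1.mono
      (keep_mono subset_rfl (ins_mono Set.inter_subset_right))⟩⟩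
    obtain ⟨v1, v2, v3⟩ := H2 v hv
    rcases conn_end v1 with rfl | ⟨v4, -⟩
    · exact absurd x4 (not_lt.2 v2)
    · push_cast at v2 v3
      refine mem_filter.2 ⟨c.mem_ballF'.2 v4.1, ?_, ?_⟩
      · nlinarith
      · nlinarith
  · exact Or.inl k2

end Vale.Agent.P151Q
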