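import Vale.Agent.P151Q.Base

set_option linter.unusedSectionVars false

namespace Vale.Agent.P151Q

open Finset Vale.Agent.P151

namespace TopM

variable {V : Type} [DecidableEq V]

/-- the first exit from a strip is through the top or through the bottom -/
theorem split {ω : Finset (Sym2 V)} (f : V → ℤ) (h : ℤ) (_h0 : 0 ≤ h) {S : Set V}
    (hl : link ω S {v | h < |f v|}) :
    link (keep ω (ins {v | -h ≤ f v})) S {v | h < f v} ∨
      link (keep ω (ins {v | -h ≤ - f v})) S {v | h < - f v} := by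
  obtain ⟨a, ha, b, hb, hc⟩ := hl
  have key : (link (keep ω (ins {v | -h ≤ f v})) S {v | h < f v} ∨
      link (keep ω (ins {v | -h ≤ - f v})) S {v | h < - f v}) ∨
      ((-h ≤ f b ∧ f b ≤ h) ∧ conn (keep ω (ins {v | -h ≤ f v})) a b ∧
        conn (keep ω (ins {v | -h ≤ - f v})) a b) := by
    clear hb
    induction hc with
    | refl =>
      by_cases c1 : h < f a
      · exact Or.inl (Or.inl ⟨a, ha, a, c1, conn_refl _ _⟩)
      · by_cases c2 : h < - f a
        · exact Or.inl (Or.inr ⟨a, ha, a, c2, conn_refl _ _⟩)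
        · exact Or.inr ⟨⟨by omega, by omega⟩, conn_refl _ _, conn_refl _ _⟩
    | @tail u v _ he ih =>
      rcases ih with ih | ⟨⟨k1, k2⟩, k3, k4⟩
      · exact Or.inl ih
      · have e1 : -h ≤ f v → conn (keep ω (ins {v | -h ≤ f v})) a v := fun hv =>
          k3.trans (conn_edge (mem_keep.2 ⟨he, mk_mem_ins.2 ⟨k1, hv⟩⟩))
        have e2 : -h ≤ - f v → conn (keep ω (ins {v | -h ≤ - f v})) a v := fun hv =>
          k4.trans (conn_edge (mem_keep.2 ⟨he, mk_mem_ins.2
            ⟨show -h ≤ - f u by omega, hv⟩⟩))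
        by_cases c1 : h < f v
        · exact Or.inl (Or.inl ⟨a, ha, v, c1, e1 (by omega)⟩)
        · by_cases c2 : h < - f v
          · exact Or.inl (Or.inr ⟨a, ha, v, c2, e2 (by omega)⟩)
          · exact Or.inr ⟨⟨by omega, by omega⟩, e1 (by omega), e2 (by omega)⟩
  refine key.resolve_right fun k => ?_
  have : h < |f b| := hb
  have := abs_le.2 k.1
  omega

theorem wide (hE : StmtExit) (c : Cfg V) {p η : ℝ} (hp0 : 0 < p) (hp1 : p ≤ 1) (hη : 0 < η)
    {r : ℕ} (hr : ∀ n : ℕ, r ≤ n → c.uu p r n ≤ η) (h : ℕ) :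
    ∃ N : ℕ, r ≤ N ∧ c.fl p c.o N r Set.univ {v | (h : ℤ) < |c.t v - c.t c.o|} ≤ 2 * η := by
  classical
  obtain ⟨l, hl⟩ := c.esc (2 * h + 1)
  obtain ⟨M, hM⟩ := hE V c p η l hp0 hp1 hη
  refine ⟨r + M + l, by omega, ?_⟩
  have hP := P01_const (ι := Sym2 V) hp0.le hp1
  have a1 := hM (EG c.G (c.ballF c.o (r + M + l))) (fun _ => p) (c.Bl c.o r)
    {v | (h : ℤ) < |c.t v - c.t c.o|}
    ((c.ballF c.o (r + M)).filter fun v => |c.t v - c.t c.o| ≤ h) (LatG_EG _ _) hP (by
      intro v hv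
      rw [mem_filter, c.mem_ballF] at hv
      refine ⟨(FreshG_EG _ _ p fun y hy => ?_).ge, ?_⟩
      · have b1 : c.G.dist v y ≤ l := hy
        have b2 := c.d_tri c.o v y
        rw [c.mem_ballF]
        omega
      · obtain ⟨w, h1, h2⟩ := hl 0 1 v
        refine ⟨w, ?_, h1⟩
        have b1 := abs_le.1 hv.2
        have b2 := le_abs_self (c.t w - c.t c.o)
        simp only [abs_zero, abs_one, zero_add, mul_one, zero_mul, one_mul] at h2
        push_cast at h2
        show (h : ℤ) < |c.t w - c.t c.o|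
        omega)
  have a2 := (c.fl_anti_N hp0.le hp1 c.o (show r + M ≤ r + M + l by omega) r Set.univ
    {v | r + M ≤ c.G.dist c.o v}).trans (hr (r + M) (by omega))
  unfold Cfg.fl at a2 ⊢
  simp only [keep_univ] at a2 ⊢
  refine le_trans (Ex_mono hP fun ω hω => ?_) (le_trans (le_of_eq (Ex_add _ _ _ _))
    (le_trans (add_le_add a2 a1) (le_of_eq (by ring))))
  refine le_trans (ind_mono fun hn => ?_) (ind_or_le _ _)
  by_cases hc : link ω (c.Bl c.o r) {v | r + M ≤ c.G.dist c.o v}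
  · refine Or.inr ⟨hn, ?_⟩
    obtain ⟨a, ha, b, hb, hab⟩ := hc
    have ha' : c.G.dist c.o a ≤ r := ha
    have hb' : r + M ≤ c.G.dist c.o b := hb
    have ex : ∀ i : ℕ, ∃ v, i < M → conn ω a v ∧ c.G.dist c.o v = r + i + 1 := by
      intro i
      by_cases hi : i < M
      · obtain ⟨v, h1, h2, h3⟩ := conn_ivt ((LatG_EG _ _).mono hω)
          (fun v => (c.G.dist c.o v : ℤ)) 1 (fun x y hxy => by
            have b1 := c.d_tri c.o x y
            have b2 := c.d_adj hxy
            omega) hab (m := r + i + 1) (by omega) (by omega)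
        exact ⟨v, fun _ => ⟨h1, by omega⟩⟩
      · exact ⟨a, fun k => absurd k hi⟩
    choose v hv using ex
    refine ⟨(range M).image v, ?_, ?_, ?_⟩
    · intro x hx
      obtain ⟨i, hi, rfl⟩ := mem_image.1 hx
      have hi' := mem_range.1 hi
      obtain ⟨b1, b2⟩ := hv i hi'
      rw [mem_filter, c.mem_ballF]
      refine ⟨by omega, ?_⟩
      by_contra k
      exact hn ⟨a, ha, v i, not_le.1 k, b1⟩
    · rw [card_image_of_injOn, card_range]
      intro i hi j hj e
      have b1 := (hv i (mem_range.1 hi)).2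
      have b2 := (hv j (mem_range.1 hj)).2
      rw [e] at b1
      omega
    · intro x hx
      obtain ⟨i, hi, rfl⟩ := mem_image.1 hx
      exact ⟨a, ha, (hv i (mem_range.1 hi)).1⟩
  · exact Or.inl hc

end TopM

theorem topS (hE : StmtExit) : StmtTop := by
  intro V _ c p hp0 hp1 hS
  by_cases hT : c.TopOK p
  · exact Or.inl hT
  right
  unfold Cfg.TopOK at hT
  push Not at hT
  obtain ⟨δ0, hδ0, hT⟩ := hT
  intro δ hδ
  have hη : 0 < δ * δ0 / 2 := by positivity
  obtain ⟨r, hr⟩ := hS _ hη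
  refine ⟨r, fun h0' => ?_⟩
  obtain ⟨h0, hh⟩ := hT r
  obtain ⟨N, hN, hw⟩ := TopM.wide hE c hp0 hp1 hη hr (max h0 h0')
  refine ⟨max h0 h0', N, le_max_right _ _, hN, ?_⟩
  have a1 := hh (max h0 h0') N (le_max_left _ _) hN
  generalize max h0 h0' = h at a1 hw ⊢
  have a2 := c.fl_mul hp0.le hp1 (x := c.o) (N := N) (r := r) (A := Set.univ)
    (T := {v | (h : ℤ) < |c.t v - c.t c.o|})
    (A1 := {v | -(h : ℤ) ≤ c.t v - c.t c.o}) (T1 := {v | (h : ℤ) < c.t v - c.t c.o})
    (A2 := {v | -(h : ℤ) ≤ -(c.t v - c.t c.o)}) (T2 := {v | (h : ℤ) < -(c.t v - c.t c.o)})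
    (fun ω _ hl => by
      rw [keep_univ] at hl
      exact TopM.split (fun v => c.t v - c.t c.o) h (by omega) hl)
  have e1 : c.fm p N r {z | -(h : ℤ) ≤ z.2} {z | (h : ℤ) < z.2} =
      c.fl p c.o N r {v | -(h : ℤ) ≤ c.t v - c.t c.o} {v | (h : ℤ) < c.t v - c.t c.o} := rfl
  have e2 : c.flip.fm p N r {z | -(h : ℤ) ≤ z.2} {z | (h : ℤ) < z.2} =
      c.fl p c.o N r {v | -(h : ℤ) ≤ -(c.t v - c.t c.o)} {v | (h : ℤ) < -(c.t v - c.t c.o)} := by
    have e : ∀ v, -(c.t v - c.t c.o) = - c.t v - - c.t c.o := fun v => by ring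
    simp only [e]
    rfl
  rw [e1] at a1
  rw [e2]
  by_contra hc
  have a3 := mul_lt_mul'' a1 (not_le.1 hc) hδ0.le hδ.le
  nlinarith

end Vale.Agent.P151Q
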