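import Vale.Agent.P151Q.Base

set_option linter.unusedSectionVars false

namespace Vale.Agent.P151Q

open Finset Vale.Agent.P151

namespace Top2M

variable {V : Type} [DecidableEq V]

/-- the `k`-th station of the chain -/
def St (c : Cfg V) (g : ℤ) (N J k : ℕ) : Set V :=
  {v | ((k : ℤ) + 1) * g < c.t v - c.t c.o ∧ c.G.dist c.o v ≤ N + k * (N + J)}

theorem step (c : Cfg V) {p ε δ : ℝ} (hp0 : 0 ≤ p) (hp1 : p ≤ 1) {r J h N m k : ℕ}
    (hC : c.ChainAt p ε δ r J) (hr : r ≤ N) (hh : 2 * ((J + r + 1) * c.L) ≤ h)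
    (hf : c.fm p N r {z | -(h : ℤ) ≤ z.2} {z | (h : ℤ) < z.2} ≤ δ) (hk : k < m) :
    Ex (EG c.G (c.ballF c.o (N + m * (N + J))))
      (upd (fun _ => p) (ins (c.Bl c.o r)) (EG c.G (c.ballF c.o r)))
      (fun ω => ind (RR ω {v | -((2 * h : ℕ) : ℤ) ≤ c.t v - c.t c.o} c.o
          (St c (h - c.L * J) N J k) ∧
        ¬ RR ω {v | -((2 * h : ℕ) : ℤ) ≤ c.t v - c.t c.o} c.o
          (St c (h - c.L * J) N J (k + 1)))) ≤ ε := by
  have hh' : 2 * (((J : ℤ) + r + 1) * c.L) ≤ h := by exact_mod_cast hh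
  have hL : (0 : ℤ) < c.L := by exact_mod_cast c.L_pos
  have hJ : (0 : ℤ) ≤ c.L * J := by positivity
  have hR : (0 : ℤ) ≤ c.L * r := by positivity
  have hkm : (k + 1) * (N + J) ≤ m * (N + J) := Nat.mul_le_mul_right _ hk
  have hkm' : (k + 1) * (N + J) = k * (N + J) + N + J := by ring
  set g : ℤ := h - c.L * J with hg
  have hg0 : c.L * J + c.L * r + 2 * c.L ≤ g := by nlinarith
  have hkg : 0 ≤ (k : ℤ) * g := by
    have : 0 ≤ g := by omega
    positivity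
  have th : ∀ x ∈ c.Th (St c g N J k) J, (k + 1) * g - c.L * J < c.t x - c.t c.o ∧
      c.G.dist c.o x ≤ N + k * (N + J) + J := by
    rintro x ⟨y, ⟨y1, y2⟩, y3⟩
    have b1 := c.d_tri c.o y x
    have b2 := (abs_le.1 (c.lip_t y x)).2
    have b3 : (c.L : ℤ) * c.G.dist y x ≤ c.L * J :=
      mul_le_mul_of_nonneg_left (by exact_mod_cast y3) hL.le
    exact ⟨by omega, by omega⟩
  have e : ((k : ℤ) + 1) * g = k * g + g := by ring
  have hq := upd_P01 (P01_const (ι := Sym2 V) hp0 hp1) (ins (c.Bl c.o r)) (EG c.G (c.ballF c.o r))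
  have key := hC (keep (EG c.G (c.ballF c.o (N + m * (N + J))))
      (ins {v | -((2 * h : ℕ) : ℤ) ≤ c.t v - c.t c.o}))
    (upd (fun _ => p) (ins (c.Bl c.o r)) (EG c.G (c.ballF c.o r))) c.o (St c g N J k)
    (St c g N J (k + 1))
    ({v | -((2 * h : ℕ) : ℤ) ≤ c.t v - c.t c.o} ∩ c.Bl c.o (N + m * (N + J))) N
    ((LatG_EG _ _).mono (keep_subset _ _)) hq
    ((c.Bl_finite c.o (N + k * (N + J))).subset fun v hv => hv.2)
    (fun ho => by
      have := (th _ ho).1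
      omega)
    (fun x hx y hy hxy => by
      obtain ⟨x1, x2⟩ := th x hx
      obtain ⟨y1, y2⟩ := th y hy
      refine ⟨mem_keep.2 ⟨mk_mem_EG.2 ⟨⟨(c.mem_ballF _ _ _).2 (by omega),
        (c.mem_ballF _ _ _).2 (by omega)⟩, hxy⟩, mk_mem_ins.2 ⟨?_, ?_⟩⟩, ?_⟩
      · show -((2 * h : ℕ) : ℤ) ≤ c.t x - c.t c.o
        omega
      · show -((2 * h : ℕ) : ℤ) ≤ c.t y - c.t c.o
        omega
      · have hn : s(x, y) ∉ ins (c.Bl c.o r) := fun hi => by
          have b1 : c.G.dist c.o x ≤ r := (mk_mem_ins.1 hi).1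
          have b2 := (abs_le.1 (c.lip_t c.o x)).1
          have b3 : (c.L : ℤ) * c.G.dist c.o x ≤ c.L * r :=
            mul_le_mul_of_nonneg_left (by exact_mod_cast b1) hL.le
          omega
        simp [upd, hn])
    (fun x hx y hy hxy => by
      refine ⟨mem_keep.2 ⟨mk_mem_EG.2 ⟨⟨c.mem_ballF'.2 hx.2, c.mem_ballF'.2 hy.2⟩, hxy⟩,
        mk_mem_ins.2 ⟨hx.1, hy.1⟩⟩, ?_⟩
      by_cases hi : s(x, y) ∈ ins (c.Bl c.o r)
      · have b1 := mk_mem_ins.1 hi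
        have b2 : s(x, y) ∈ EG c.G (c.ballF c.o r) :=
          mk_mem_EG.2 ⟨⟨c.mem_ballF'.2 b1.1, c.mem_ballF'.2 b1.2⟩, hxy⟩
        simp [upd, hi, b2, hp1]
      · simp [upd, hi])
    (fun x hx hx' => by
      obtain ⟨x1, x2⟩ := th x hx'
      rw [← c.fl_cyl p hx] at hf
      refine le_trans (c.fl_mono hp0 hp1 hr (fun y hy hy' => ?_) fun y hy hy' => ?_) hf
      · have b1 : -(h : ℤ) ≤ c.t y - c.t x := hy
        have b2 : c.G.dist x y ≤ N := hy'
        have b3 := c.d_tri c.o x y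
        refine ⟨?_, ?_⟩
        · show -((2 * h : ℕ) : ℤ) ≤ c.t y - c.t c.o
          omega
        · show c.G.dist c.o y ≤ N + m * (N + J)
          omega
      · have b1 : (h : ℤ) < c.t y - c.t x := hy
        have b2 : c.G.dist x y ≤ N := hy'
        have b3 := c.d_tri c.o x y
        have e2 : (((k + 1 : ℕ) : ℤ) + 1) * g = k * g + g + g := by push_cast; ring
        refine ⟨?_, by omega⟩
        rw [e2]
        omega)
  rw [← Ex_keep] at key
  exact key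

end Top2M

open Top2M in
theorem top2S (hC : StmtChain) : StmtTop2 := by
  intro V _ c p hp0 hp1 hT n0 δ hδ
  have hε : 0 < δ / (2 * (4 * n0 + 1)) := by positivity
  obtain ⟨δ1, hδ1, hch⟩ := hC V c p _ hp0 hp1 hε
  obtain ⟨r, hr⟩ := hT (min δ1 (δ / 2)) (lt_min hδ1 (by positivity))
  obtain ⟨J, hJ⟩ := hch r
  have hCh := hJ p (by linarith) le_rfl
  refine ⟨r, fun h0 => ?_⟩
  obtain ⟨h, N, h1, h2, h3⟩ := hr (max h0 (2 * ((J + r + 1) * c.L)))
  have h4 : h0 ≤ h := le_trans (le_max_left _ _) h1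
  have h5 : 2 * ((J + r + 1) * c.L) ≤ h := le_trans (le_max_right _ _) h1
  have hh' : 2 * (((J : ℤ) + r + 1) * c.L) ≤ h := by exact_mod_cast h5
  have hL : (0 : ℤ) < c.L := by exact_mod_cast c.L_pos
  have hJ0 : (0 : ℤ) ≤ c.L * J := by positivity
  have hR : (0 : ℤ) ≤ c.L * r := by positivity
  have hg0 : 2 * (c.L * J) + c.L * r ≤ (h : ℤ) := by nlinarith
  refine ⟨2 * h, n0 * (2 * h), N + 4 * n0 * (N + J), by omega, le_rfl, by omega, ?_⟩
  have hq := upd_P01 (P01_const (ι := Sym2 V) hp0.le hp1.le) (ins (c.Bl c.o r))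
    (EG c.G (c.ballF c.o r))
  have a0 := c.seed_ge hp0.le hp1.le (EG c.G (c.ballF c.o r)) c.o (N + 4 * n0 * (N + J)) r
    {v | -((2 * h : ℕ) : ℤ) ≤ c.t v - c.t c.o} {v | ((n0 * (2 * h) : ℕ) : ℤ) < c.t v - c.t c.o}
  refine le_trans a0 ?_
  have a1 := c.seed_le hp0.le hp1.le (F := EG c.G (c.ballF c.o (N + 4 * n0 * (N + J))))
    (η := EG c.G (c.ballF c.o r)) (LatG_EG _ _) (x := c.o) h2
    (fun a ha b hb hab => mk_mem_EG.2 ⟨⟨c.mem_ballF'.2 (c.Bl_mono _ (by omega) ha),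
      c.mem_ballF'.2 (c.Bl_mono _ (by omega) hb)⟩, hab⟩) subset_rfl
    (A := c.cyl c.o {z | -(h : ℤ) ≤ z.2}) (W := {v | -((2 * h : ℕ) : ℤ) ≤ c.t v - c.t c.o})
    (T := St c (h - c.L * J) N J 0)
    (fun y hy => by
      have b1 : c.G.dist c.o y ≤ r := hy
      have b2 := (abs_le.1 (c.lip_t c.o y)).2
      have b3 : (c.L : ℤ) * c.G.dist c.o y ≤ c.L * r :=
        mul_le_mul_of_nonneg_left (by exact_mod_cast b1) hL.le
      show -((2 * h : ℕ) : ℤ) ≤ c.t y - c.t c.o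
      omega)
    (fun y hy _ => by
      have b1 : -(h : ℤ) ≤ c.t y - c.t c.o := hy
      show -((2 * h : ℕ) : ℤ) ≤ c.t y - c.t c.o
      omega)
  have a2 : c.fl p c.o N r (c.cyl c.o {z | -(h : ℤ) ≤ z.2}) (St c (h - c.L * J) N J 0) ≤ δ / 2 := by
    refine le_trans (c.fl_mono hp0.le hp1.le h2 (fun y hy _ => hy) fun y hy hy' => ?_)
      (h3.trans (min_le_right _ _))
    have b1 : (h : ℤ) < c.t y - c.t c.o := hy
    have b2 : c.G.dist c.o y ≤ N := hy'
    refine ⟨?_, by omega⟩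
    push_cast
    omega
  have a3 := fun k (hk : k ∈ range (4 * n0)) =>
    step c hp0.le hp1.le hCh h2 h5 (h3.trans (min_le_left _ _)) (mem_range.1 hk)
  have a4 := sum_le_card_nsmul _ _ _ a3
  rw [← Ex_sum, card_range, nsmul_eq_mul] at a4
  have a5 : ((4 * n0 : ℕ) : ℝ) * (δ / (2 * (4 * n0 + 1))) ≤ δ / 2 := by
    rw [← mul_div_assoc, div_le_div_iff₀ (by positivity) (by positivity)]
    push_cast
    nlinarith
  refine le_trans (Ex_mono hq fun ω _ => ?_) (le_trans (le_of_eq (Ex_add _ _ _ _))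
    (le_trans (add_le_add (a1.trans a2) (a4.trans a5)) (le_of_eq (by ring))))
  refine le_trans ?_ (add_le_add le_rfl (ind_chain (P := fun k =>
    RR ω {v | -((2 * h : ℕ) : ℤ) ≤ c.t v - c.t c.o} c.o (St c (h - c.L * J) N J k)) (4 * n0)))
  refine le_trans (ind_mono fun hn => ?_) (ind_or_le _ _)
  by_cases d : RR ω {v | -((2 * h : ℕ) : ℤ) ≤ c.t v - c.t c.o} c.o (St c (h - c.L * J) N J 0)
  · refine Or.inr ⟨d, fun d' => hn (d'.mono subset_rfl fun y hy => ?_)⟩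
    have b1 := hy.1
    show ((n0 * (2 * h) : ℕ) : ℤ) < c.t y - c.t c.o
    push_cast at b1 ⊢
    have b2 : (0 : ℤ) ≤ n0 := by positivity
    nlinarith [mul_nonneg b2 (show (0 : ℤ) ≤ h - 2 * (c.L * J) by omega)]
  · exact Or.inl d

end Vale.Agent.P151Q
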