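import Vale.Agent.P151Q.Act
import Vale.Agent.P151Q.Peierls
import Vale.Agent.P151Q.Macro
import Vale.Agent.P151Q.Chain
import Vale.Agent.P151Q.Exit
import Vale.Agent.P151Q.Seeds
import Vale.Agent.P151Q.Top
import Vale.Agent.P151Q.Top2
import Vale.Agent.P151Q.Thin
import Vale.Agent.P151Q.Moves
import Vale.Agent.P151Q.Steer
import Vale.Agent.P151Q.Fin
import Vale.Agent.P151Q.Meas
import Vale.Agent.P151Q.Red

/-! Assembly. -/

namespace Vale.Agent.P151Q

theorem mainA : StmtA :=
  stmtA redS (measS (openS seedsS (topS exitS) (top2S chainS) (movesS (thinS exitS))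
    (finS (macroS peierlsS) chainS steerS)))

end Vale.Agent.P151Q
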