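import Vale.Agent.P151Q.Base

/-! One dimensional graphs do not percolate below parameter one. -/

set_option linter.unusedSectionVars false

namespace Vale.Agent.P151Q

open Finset Vale.Agent.P151 MeasureTheory ProbabilityTheory

namespace OneM

theorem Ex_prod_none {ι α : Type*} [DecidableEq ι] (p : ι → ℝ) (F : Finset ι) (S : α → Finset ι)
    (A : Finset α) (hS : ∀ a ∈ A, S a ⊆ F) (hd : ∀ a ∈ A, ∀ b ∈ A, a ≠ b → Disjoint (S a) (S b)) :
    Ex F p (fun η => ∏ a ∈ A, (1 - ind (Disjoint (S a) η))) =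
      ∏ a ∈ A, (1 - ∏ i ∈ S a, (1 - p i)) := by
  classical
  induction A using Finset.induction_on with
  | empty => simp
  | insert a A h ih =>
    simp only [prod_insert h]
    have h1 := indep p (S a : Set ι) F (fun η => 1 - ind (Disjoint (S a) η))
      (fun η => ∏ b ∈ A, (1 - ind (Disjoint (S b) η)))
    have e1 : ∀ η : Finset ι, ind (Disjoint (S a) (keep η (S a : Set ι))) =
        ind (Disjoint (S a) η) := fun η => ind_congr (by
      simp only [disjoint_left, mem_keep, mem_coe]; grind)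
    have e2 : ∀ η : Finset ι, ∏ b ∈ A, (1 - ind (Disjoint (S b) (del η (S a : Set ι)))) =
        ∏ b ∈ A, (1 - ind (Disjoint (S b) η)) := fun η => prod_congr rfl fun b hb => by
      congr 1
      have := disjoint_left.1 (hd b (mem_insert_of_mem hb) a (mem_insert_self _ _)
        (fun c => h (c ▸ hb)))
      refine ind_congr ?_
      simp only [disjoint_left, mem_del, mem_coe]
      grind
    simp only [e1, e2] at h1
    rw [h1, ih (fun b hb => hS b (mem_insert_of_mem hb))
      (fun b hb b' hb' => hd b (mem_insert_of_mem hb) b' (mem_insert_of_mem hb')), Ex_sub,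
      Ex_const, Ex_none p F _ (hS a (mem_insert_self _ _))]

variable {V : Type} [DecidableEq V]

theorem cross {ω : Finset (Sym2 V)} (f : V → ℤ) {x y : V} (h : conn ω x y) {m : ℤ} (h1 : f x < m)
    (h2 : m ≤ f y) : ∃ u v, s(u, v) ∈ ω ∧ f u < m ∧ m ≤ f v := by
  induction h with
  | refl => omega
  | @tail u v _ h4 ih =>
    by_cases c : m ≤ f u
    · exact ih c
    · exact ⟨u, v, h4, by omega, h2⟩

theorem up [Countable V] (G : SimpleGraph V) (f : V → ℤ) (L b : ℕ) (hL : 0 < L)
    (hf : ∀ x y, G.Adj x y → |f x - f y| ≤ L) (fib : ℤ → Finset V) (h1 : ∀ v, v ∈ fib (f v))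
    (h2 : ∀ m, (fib m).card ≤ b) (p : unitInterval) (hp : p < 1) (x : V) :
    setBernoulli G.edgeSet p
      {ω | ∀ M, ∃ y, (SimpleGraph.fromEdgeSet ω).Reachable x y ∧ M ≤ f y} = 0 := by
  classical
  have hp' : (p : ℝ) < 1 := hp
  set C : ℕ → Finset (Sym2 V) := fun i =>
    keep (EG G ((Icc (f x + 1 + i * L - L) (f x + 1 + i * L + L)).biUnion fib))
      {e | ∃ u v, e = s(u, v) ∧ f u < f x + 1 + i * L ∧ f x + 1 + i * L ≤ f v} with hC
  have hE : ∀ i, ∀ e ∈ C i, e ∈ G.edgeSet := fun i e he => (mem_keep.1 (mem_keep.1 he).1).2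
  have hc : ∀ i, (C i).card ≤ ((2 * L + 1) * b) ^ 2 := fun i => by
    refine (card_le_card (keep_subset _ _)).trans ((card_EG _ _).trans (Nat.pow_le_pow_left ?_ 2))
    refine (card_biUnion_le_card_mul _ _ b fun m _ => h2 m).trans (Nat.mul_le_mul_right _ ?_)
    rw [Int.card_Icc]; omega
  have hd : ∀ i j, i < j → Disjoint (C i) (C j) := by
    intro i j hij
    refine disjoint_left.2 fun e he he' => ?_
    obtain ⟨u, v, rfl, a1, a2⟩ := (mem_keep.1 he).2
    obtain ⟨u', v', e', a3, a4⟩ := (mem_keep.1 he').2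
    have a5 := abs_le.1 (hf u v (hE i _ he))
    have a6 : (i : ℤ) * L + L ≤ j * L := by
      have : (i : ℤ) + 1 ≤ j := by exact_mod_cast hij
      nlinarith
    rcases Sym2.eq_iff.1 e' with ⟨rfl, rfl⟩ | ⟨rfl, rfl⟩ <;> omega
  set a : ℝ := 1 - (1 - p) ^ (((2 * L + 1) * b) ^ 2) with ha
  have a0 : 0 < (1 - (p : ℝ)) ^ (((2 * L + 1) * b) ^ 2) := pow_pos (by linarith) _
  have a1 : (1 - (p : ℝ)) ^ (((2 * L + 1) * b) ^ 2) ≤ 1 :=
    pow_le_one₀ (by linarith) (by linarith [p.2.1])
  have key : ∀ n : ℕ, (setBernoulli G.edgeSet p).real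
      {ω | ∀ M, ∃ y, (SimpleGraph.fromEdgeSet ω).Reachable x y ∧ M ≤ f y} ≤ a ^ n := by
    intro n
    have e := real_ev G.edgeSet p (F := (range n).biUnion C)
      (fun e he => by obtain ⟨i, _, h⟩ := mem_biUnion.1 he; exact hE i e h)
      (fun S => ∀ i ∈ range n, ¬ Disjoint (C i) S)
    have e2 := Ex_prod_none (fun _ => (p : ℝ)) ((range n).biUnion C) C (range n)
      (fun i hi => subset_biUnion_of_mem C hi) fun i _ j _ hij =>
        (lt_or_gt_of_ne hij).elim (hd i j) fun h => (hd j i h).symm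
    have e3 : ∏ i ∈ range n, (1 - ∏ _e ∈ C i, (1 - (p : ℝ))) ≤ a ^ n := by
      rw [← card_range n, ← prod_const, card_range]
      refine prod_le_prod (fun i _ => ?_) fun i _ => ?_
      · rw [prod_const]
        exact sub_nonneg.2 (pow_le_one₀ (by linarith) (by linarith [p.2.1]))
      · rw [prod_const]
        exact sub_le_sub_left
          (pow_le_pow_of_le_one (by linarith) (by linarith [p.2.1]) (hc i)) _
    refine le_trans ?_ (e2.le.trans e3)
    rw [Ex_congr (g := fun S => ind (∀ i ∈ range n, ¬ Disjoint (C i) S)), ← e]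
    · refine ENNReal.toReal_mono (measure_ne_top _ _) (measure_mono_ae ?_)
      filter_upwards [setBernoulli_ae_subset (u := G.edgeSet) (p := p)] with ω hω h i hi hdis
      obtain ⟨y, hy, hy'⟩ := h (f x + 1 + i * L)
      obtain ⟨η, k1, k2⟩ := reach_iff.1 hy
      obtain ⟨u, v, k3, k4, k5⟩ := cross f k2 (m := f x + 1 + i * L)
        (by have : (0 : ℤ) ≤ i * L := by positivity
            omega) hy'
      have k6 : G.Adj u v := hω (k1 k3)
      have k7 := abs_le.1 (hf u v k6)
      have k8 : s(u, v) ∈ C i := mem_keep.2 ⟨mk_mem_EG.2 ⟨⟨mem_biUnion.2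
        ⟨f u, mem_Icc.2 ⟨by omega, by omega⟩, h1 u⟩, mem_biUnion.2
        ⟨f v, mem_Icc.2 ⟨by omega, by omega⟩, h1 v⟩⟩, k6⟩, u, v, rfl, k4, k5⟩
      exact disjoint_left.1 hdis k8 (mem_keep.2 ⟨mem_biUnion.2 ⟨i, hi, k8⟩, k1 k3⟩)
    · intro S _
      by_cases c : ∀ i ∈ range n, ¬ Disjoint (C i) S
      · rw [ind_pos c]
        exact prod_eq_one fun i hi => by rw [ind_neg (c i hi), sub_zero]
      · rw [ind_neg c]
        push Not at c
        obtain ⟨i, hi, c⟩ := c
        exact prod_eq_zero hi (by rw [ind_pos c, sub_self])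
  have lim := tendsto_pow_atTop_nhds_zero_of_lt_one (r := a) (by linarith) (by linarith)
  have := ge_of_tendsto' lim key
  rw [← measureReal_eq_zero_iff]
  exact le_antisymm this measureReal_nonneg

end OneM

theorem oneDim {V : Type} [Countable V] (G : SimpleGraph V) (f : V → ℤ) (L b : ℕ) (hL : 0 < L)
    (hf : ∀ x y, G.Adj x y → |f x - f y| ≤ L) (fib : ℤ → Finset V) (h1 : ∀ v, v ∈ fib (f v))
    (h2 : ∀ m, (fib m).card ≤ b) (p : unitInterval) (hp : p < 1) :
    setBernoulli G.edgeSet p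
      {ω | ∃ x, {y | (SimpleGraph.fromEdgeSet ω).Reachable x y}.Infinite} = 0 := by
  classical
  rw [Set.ofPred_exists, measure_iUnion_null_iff]
  intro x
  have k1 := OneM.up G f L b hL hf fib h1 h2 p hp x
  have k2 := OneM.up G (fun v => - f v) L b hL
    (fun x y h => by rw [← abs_neg]; convert hf x y h using 2; ring) (fun m => fib (-m))
    (fun v => by simpa using h1 v) (fun m => h2 _) p hp x
  refine measure_mono_null (fun ω hω => ?_) (measure_union_null k1 k2)
  by_contra c
  simp only [Set.mem_union, Set.mem_setOf_eq, not_or, not_forall, not_exists, not_and,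
    not_le] at c
  obtain ⟨⟨M, hM⟩, M', hM'⟩ := c
  refine hω (((Icc (-M') M).biUnion fib).finite_toSet.subset fun y hy => ?_)
  have a1 := hM y hy
  have a2 := hM' y hy
  exact mem_coe.2 (mem_biUnion.2 ⟨f y, mem_Icc.2 ⟨by omega, by omega⟩, h1 y⟩)

end Vale.Agent.P151Q
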