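import Vale.Agent.P151.Meas

/-! Percolation on graphs with a two dimensional quotient: definitions and module statements. -/

set_option linter.unusedSectionVars false

namespace Vale.Agent.P151Q

open Finset Vale.Agent.P151

/-- A connected graph of bounded degree with two Lipschitz coordinates `s`, `t`, a base point `o`
and a dense set `Ty` of vertices that look like `o`. -/
structure Cfg (V : Type) where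
  G : SimpleGraph V
  con : G.Connected
  s : V → ℤ
  t : V → ℤ
  L : ℕ
  L_pos : 0 < L
  lipS : ∀ x y, G.Adj x y → |s x - s y| ≤ L
  lipT : ∀ x y, G.Adj x y → |t x - t y| ≤ L
  o : V
  Ty : Set V
  o_mem : o ∈ Ty
  hom : ∀ x ∈ Ty, ∃ φ : V ≃ V, (∀ a b, G.Adj (φ a) (φ b) ↔ G.Adj a b) ∧ φ o = x ∧
    (∀ v, s (φ v) - s x = s v - s o) ∧ (∀ v, t (φ v) - t x = t v - t o)
  ρ : ℕ
  dense : ∀ v, ∃ x ∈ Ty, G.dist v x ≤ ρ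
  ballF : V → ℕ → Finset V
  mem_ballF : ∀ x n y, y ∈ ballF x n ↔ G.dist x y ≤ n
  β : ℕ → ℕ
  card_ballF : ∀ x n, (ballF x n).card ≤ β n
  esc : ∀ D : ℕ, ∃ l : ℕ, ∀ (A B : ℤ) (v : V), ∃ w, G.dist v w ≤ l ∧
    D * (|A| + |B|) ≤ A * (s w - s v) + B * (t w - t v)

variable {V : Type} [DecidableEq V]

noncomputable def EG (G : SimpleGraph V) (W : Finset V) : Finset (Sym2 V) := keep W.sym2 G.edgeSet

def LatG (G : SimpleGraph V) (F : Finset (Sym2 V)) : Prop := ∀ x y, s(x, y) ∈ F → G.Adj x y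

def FreshG (G : SimpleGraph V) (F : Finset (Sym2 V)) (q : Sym2 V → ℝ) (p : ℝ) (U : Set V) : Prop :=
  ∀ x ∈ U, ∀ y ∈ U, G.Adj x y → s(x, y) ∈ F ∧ q s(x, y) = p

def GeG (G : SimpleGraph V) (F : Finset (Sym2 V)) (q : Sym2 V → ℝ) (p : ℝ) (U : Set V) : Prop :=
  ∀ x ∈ U, ∀ y ∈ U, G.Adj x y → s(x, y) ∈ F ∧ p ≤ q s(x, y)

namespace Cfg

variable (c : Cfg V)

def Bl (x : V) (n : ℕ) : Set V := {y | c.G.dist x y ≤ n}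

def Th (S : Set V) (J : ℕ) : Set V := {v | ∃ y ∈ S, c.G.dist y v ≤ J}

/-- probability that the ball of radius `r` at `x` is not linked to `T` inside `A`, using the edges
of the ball of radius `N` -/
noncomputable def fl (p : ℝ) (x : V) (N r : ℕ) (A T : Set V) : ℝ :=
  Ex (EG c.G (c.ballF x N)) (fun _ => p) fun ω => ind (¬ link (keep ω (ins A)) (c.Bl x r) T)

def cyl (x : V) (A : Set (ℤ × ℤ)) : Set V := {v | (c.s v - c.s x, c.t v - c.t x) ∈ A}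

noncomputable def fm (p : ℝ) (N r : ℕ) (A T : Set (ℤ × ℤ)) : ℝ :=
  c.fl p c.o N r (c.cyl c.o A) (c.cyl c.o T)

noncomputable def uu (p : ℝ) (r n : ℕ) : ℝ :=
  c.fl p c.o n r Set.univ {v | n ≤ c.G.dist c.o v}

def flip : Cfg V :=
  { c with
    t := fun v => - c.t v
    lipT := fun x y h => by rw [← abs_neg]; convert c.lipT x y h using 2; ring
    hom := fun x hx => by
      obtain ⟨φ, h1, h2, h3, h4⟩ := c.hom x hx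
      exact ⟨φ, h1, h2, h3, fun v => by linarith [h4 v]⟩
    esc := fun D => by
      obtain ⟨l, h⟩ := c.esc D
      refine ⟨l, fun A B v => ?_⟩
      obtain ⟨w, h1, h2⟩ := h A (-B) v
      exact ⟨w, h1, by rw [abs_neg] at h2; linarith⟩ }

def SeedOK (p : ℝ) : Prop := ∀ δ > (0 : ℝ), ∃ r : ℕ, ∀ n : ℕ, r ≤ n → c.uu p r n ≤ δ

def TopOK (p : ℝ) : Prop := ∀ δ > (0 : ℝ), ∃ r : ℕ, ∀ h0 : ℕ, ∃ h N : ℕ, h0 ≤ h ∧ r ≤ N ∧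
  c.fm p N r {z | -(h : ℤ) ≤ z.2} {z | (h : ℤ) < z.2} ≤ δ

def TopOK2 (p : ℝ) : Prop := ∀ n0 : ℕ, ∀ δ > (0 : ℝ), ∃ r : ℕ, ∀ h0 : ℕ, ∃ a b N : ℕ,
  h0 ≤ a ∧ n0 * a ≤ b ∧ r ≤ N ∧ c.fm p N r {z | -(a : ℤ) ≤ z.2} {z | (b : ℤ) < z.2} ≤ δ

def Rg (A B W : ℤ) (a b : ℕ) : Set (ℤ × ℤ) :=
  {z | |A * z.1 + B * z.2| ≤ 4 * W ∧ -(a : ℤ) ≤ z.2 ∧ z.2 ≤ b + c.L}

def MovesAt (p δ : ℝ) (r : ℕ) (A B W : ℤ) (a b N : ℕ) : Prop :=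
  c.fm p N r (c.Rg A B W a b) (c.Rg A B W a b ∩ {z | (b : ℤ) < z.2}) ≤ δ ∧
  c.fm p N r (c.Rg A B W a b) (c.Rg A B W a b ∩ {z | W ≤ 4 * (A * z.1 + B * z.2)}) ≤ δ ∧
  c.fm p N r (c.Rg A B W a b) (c.Rg A B W a b ∩ {z | 4 * (A * z.1 + B * z.2) ≤ -W}) ≤ δ

def MovesOK (p : ℝ) : Prop := ∀ n0 : ℕ, ∀ δ > (0 : ℝ), ∃ r : ℕ, ∀ D : ℕ,
  ∃ (A B W : ℤ) (a b N : ℕ), 0 < W ∧ D * (|A| + |B|) ≤ W ∧ D ≤ a ∧ n0 * a ≤ b ∧ r ≤ N ∧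
    c.MovesAt p δ r A B W a b N

def ChainAt (p ε δ : ℝ) (r J : ℕ) : Prop :=
  ∀ (F : Finset (Sym2 V)) (q : Sym2 V → ℝ) (o : V) (S T U : Set V) (N : ℕ), LatG c.G F → P01 q →
    S.Finite → o ∉ c.Th S J → FreshG c.G F q p (c.Th S J) → GeG c.G F q p U →
    (∀ x ∈ c.Ty, x ∈ c.Th S J → c.fl p x N r U T ≤ δ) →
    Ex F q (fun ω => ind (link ω {o} S ∧ ¬ link ω {o} T)) ≤ ε

def ExitAt (p η : ℝ) (l M : ℕ) : Prop :=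
  ∀ (F : Finset (Sym2 V)) (q : Sym2 V → ℝ) (S X : Set V) (Gd : Finset V), LatG c.G F → P01 q →
    (∀ v ∈ Gd, GeG c.G F q p (c.Bl v l) ∧ ∃ w ∈ X, c.G.dist v w ≤ l) →
    Ex F q (fun ω => ind (¬ link ω S X ∧ ∃ H ⊆ Gd, M ≤ H.card ∧ ∀ v ∈ H, v ∈ cl ω S)) ≤ η

end Cfg

def dirs2 : Finset Z2 := {(1, 0), (0, 1)}

def ShG (G : SimpleGraph V) (Cell Big : Z2 → Set V) (o : V) (p ε : ℝ) : Prop :=
  ∀ (F : Finset (Sym2 V)) (q : Sym2 V → ℝ) (W : Set V) (z u : Z2), u ∈ dirs2 → LatG G F → P01 q →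
    Big z ⊆ W → FreshG G F q p (Big z) → o ∉ Big z →
    Ex F q (fun ω => ind (RR ω W o (Cell z) ∧ ¬ RR ω W o (Cell (z + u)))) ≤ ε

def StmtPeierls : Prop :=
  ∀ (N : ℕ) (Dv : Finset Z2 → Finset Z2 → ℝ) (ε : ℝ), 0 ≤ ε → ε ≤ 1 / 2 ^ 33 →
    (∀ O C, Dv O C ≤ 1) → (∀ O C, (∃ v ∈ O, (N : ℤ) ≤ v.1 + v.2) → Dv O C ≤ 0) →
    (∀ O C : Finset Z2, ∀ v ∈ O, ∀ e ∈ dirs2, 0 ≤ v.1 → 0 ≤ v.2 → v.1 + v.2 < (N : ℤ) → v + e ∉ O → v + e ∉ C →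
      ∀ a b : ℝ, a ≤ b → Dv (insert (v + e) O) C ≤ a → Dv O (insert (v + e) C) ≤ b →
        Dv O C ≤ (1 - ε) * a + ε * b) →
    Dv {(0, 0)} ∅ ≤ 1 / 2

def StmtMacro : Prop :=
  ∀ (V : Type) [DecidableEq V] (G : SimpleGraph V) (p : ℝ) (Cell Big Big' : Z2 → Set V) (o : V)
    (E0 A0 : Set V) (F : Finset (Sym2 V)) (q0 : Sym2 V → ℝ) (n : ℕ), 0 ≤ p → p ≤ 1 →
    (∀ z, Big z ⊆ Big' z) → (∀ z z' x, x ∈ Big' z → x ∈ Big z' → near z z') →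
    ShG G Cell Big o p (1 / 2 ^ 120) → o ∈ E0 → A0 ⊆ Big' (0, 0) →
    (∀ z : Z2, 0 ≤ z.1 → 0 ≤ z.2 → ∀ x ∈ E0, x ∉ Big z) → LatG G F →
    (∀ z : Z2, 0 ≤ z.1 → 0 ≤ z.2 → z.1 + z.2 ≤ 2199023255552 * (n + 2) →
      ∀ x ∈ Big z, ∀ y ∈ Big z, G.Adj x y → s(x, y) ∈ F) →
    (∀ e, e ∉ ins E0 → q0 e = p) → (∀ e ∈ ins E0, q0 e = 0 ∨ q0 e = 1) →
    Ex F q0 (fun ω => ind (¬ RR ω (E0 ∪ A0) o (Cell (0, 0)))) ≤ 1 / 2 ^ 35 →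
    Ex F q0 (fun ω => ind (¬ link ω {o} {x | ∃ z : Z2, (n : ℤ) ≤ z.1 + z.2 ∧ x ∈ Cell z})) ≤ 3 / 4

def StmtChain : Prop :=
  ∀ (V : Type) [DecidableEq V] (c : Cfg V) (p0 ε : ℝ), 0 < p0 → p0 < 1 → 0 < ε →
    ∃ δ > (0 : ℝ), ∀ r : ℕ, ∃ J : ℕ, ∀ p, p0 / 2 ≤ p → p ≤ p0 → c.ChainAt p ε δ r J

def StmtExit : Prop :=
  ∀ (V : Type) [DecidableEq V] (c : Cfg V) (p η : ℝ) (l : ℕ), 0 < p → p ≤ 1 → 0 < η →
    ∃ M : ℕ, c.ExitAt p η l M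

def StmtSeeds : Prop :=
  ∀ (V : Type) [DecidableEq V] (c : Cfg V) (p θ : ℝ), 0 ≤ p → p ≤ 1 → 0 < θ →
    (∀ n : ℕ, c.uu p 0 n ≤ 1 - θ) → c.SeedOK p

def StmtTop : Prop :=
  ∀ (V : Type) [DecidableEq V] (c : Cfg V) (p : ℝ), 0 < p → p ≤ 1 → c.SeedOK p →
    c.TopOK p ∨ c.flip.TopOK p

def StmtTop2 : Prop :=
  ∀ (V : Type) [DecidableEq V] (c : Cfg V) (p : ℝ), 0 < p → p < 1 → c.TopOK p → c.TopOK2 p

/-- thin parallelograms are left sideways before the top is reached -/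
def StmtThin : Prop :=
  ∀ (V : Type) [DecidableEq V] (c : Cfg V) (p η : ℝ) (r D : ℕ), 0 < p → p ≤ 1 → 0 < η →
    ∃ h0 l : ℕ, ∀ (a b N : ℕ) (A B α β : ℤ), h0 ≤ a → a ≤ b → α + β < D * (|A| + |B|) →
      c.fm p (N + l) r {z | -(a : ℤ) ≤ z.2 ∧ z.2 ≤ b + c.L}
          {z | (-(a : ℤ) ≤ z.2 ∧ z.2 ≤ b + c.L) ∧
            (A * z.1 + B * z.2 < -α ∨ β < A * z.1 + B * z.2)} ≤
        c.fm p N r {z | -(a : ℤ) ≤ z.2 ∧ z.2 ≤ b + c.L} {z | (b : ℤ) < z.2} + η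

def StmtMoves : Prop :=
  ∀ (V : Type) [DecidableEq V] (c : Cfg V) (p : ℝ), 0 < p → p ≤ 1 → c.TopOK2 p → c.MovesOK p

def StmtSteer : Prop :=
  ∀ (V : Type) [DecidableEq V] (c : Cfg V) (p ε δ : ℝ) (r J : ℕ) (A B W : ℤ) (a b N : ℕ),
    0 ≤ p → p ≤ 1 → 0 ≤ ε → c.ChainAt p ε δ r J → c.MovesAt p δ r A B W a b N → 0 < W →
    100 * ((J + r + 1) * c.L) * (|A| + |B|) ≤ W → (J + r + 1) * c.L ≤ a → 4000 * a ≤ b → r ≤ N →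
    ∃ (Cell Big Big' : Z2 → Set V) (A0 : Set V), (∀ z, Big z ⊆ Big' z) ∧
      (∀ z z' x, x ∈ Big' z → x ∈ Big z' → near z z') ∧ ShG c.G Cell Big c.o p (300 * ε) ∧
      A0 ⊆ Big' (0, 0) ∧ (∀ z : Z2, 0 ≤ z.1 → 0 ≤ z.2 → ∀ x ∈ c.Bl c.o r, x ∉ Big z) ∧
      c.fl p c.o N r A0 (Cell (0, 0)) ≤ δ ∧
      (∀ m : ℤ, ∃ R : ℕ, ∀ z : Z2, z.1 + z.2 ≤ m → Big z ⊆ c.Bl c.o R) ∧
      (∀ z : Z2, ∀ x ∈ Cell z, z.1 + z.2 ≤ c.G.dist c.o x)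

def StmtFin : Prop :=
  ∀ (V : Type) [DecidableEq V] (c : Cfg V) (p0 : ℝ), 0 < p0 → p0 < 1 → c.MovesOK p0 →
    ∃ p θ : ℝ, 0 < p ∧ p < p0 ∧ 0 < θ ∧ ∀ n : ℕ, c.uu p 0 n ≤ 1 - θ

/-- percolation at `p0` forces percolation below `p0` (finite volume form) -/
def StmtOpen : Prop :=
  ∀ (V : Type) [DecidableEq V] (c : Cfg V) (p0 θ0 : ℝ), 0 < p0 → p0 < 1 → 0 < θ0 →
    (∀ n : ℕ, c.uu p0 0 n ≤ 1 - θ0) →
    ∃ p θ : ℝ, 0 < p ∧ p < p0 ∧ 0 < θ ∧ ∀ n : ℕ, c.uu p 0 n ≤ 1 - θ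

open MeasureTheory ProbabilityTheory in
def StmtMeas : Prop :=
  ∀ (V : Type) (G : SimpleGraph V), (∀ x, ∃ c : Cfg V, c.G = G ∧ c.o = x) →
    sInf {p : unitInterval | 0 < setBernoulli G.edgeSet p
      {ω | ∃ x, {y | (SimpleGraph.fromEdgeSet ω).Reachable x y}.Infinite}} < 1 →
    setBernoulli G.edgeSet (sInf {p : unitInterval | 0 < setBernoulli G.edgeSet p
      {ω | ∃ x, {y | (SimpleGraph.fromEdgeSet ω).Reachable x y}.Infinite}})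
      {ω | ∃ x, {y | (SimpleGraph.fromEdgeSet ω).Reachable x y}.Infinite} = 0

/-- coordinates from a group of automorphisms with finitely many orbits and a homomorphism onto
the plane lattice that kills stabilizers -/
def StmtRed : Prop :=
  ∀ (V : Type) (G : SimpleGraph V), (∀ v, (G.neighborSet v).Finite) → G.Connected →
    ∀ (Γ : Subgroup (G ≃g G)), (∃ R : Finset V, ∀ v, ∃ γ ∈ Γ, γ v ∈ R) →
    ∀ φ : Γ →* Multiplicative (ℤ × ℤ), Function.Surjective φ →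
    (∀ γ : Γ, (∃ v, (γ : G ≃g G) v = v) → φ γ = 1) →
    ∀ x, ∃ c : Cfg V, c.G = G ∧ c.o = x

end Vale.Agent.P151Q
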